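import Vale.Agent.P200.Deg.Veronese

/-!
One block is absorbed: the two elements of the localised division ring.
-/

namespace Vale.Agent.P200.Deg

open Module

universe u

attribute [local instance] RhoData.Frac.div RhoData.Frac.alg RhoData.Frac.grpF RhoData.Frac.modF

namespace RhoData.Frac

variable {L : Type u} [Field L] {Λ : Type u} [Ring Λ] [Algebra L Λ] {R : RhoData L Λ} (C : R.Frac)

/-- The coordinate on the line through the unit. -/
noncomputable def coord : C.F R.one ≃ₗ[C.E] C.E :=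
  (LinearEquiv.ofBijective (LinearMap.toSpanSingleton C.E (C.F R.one) C.unit) C.unit_bij).symm

lemma coord_spec (x : C.F R.one) : C.coord x • C.unit = x :=
  (LinearEquiv.ofBijective (LinearMap.toSpanSingleton C.E (C.F R.one) C.unit)
    C.unit_bij).apply_symm_apply x

lemma coord_smul_unit (e : C.E) : C.coord (e • C.unit) = e :=
  C.unit_bij.1 (C.coord_spec _)

lemma map_zero' {X Y : R.Obj} : C.map (0 : X.T →ₗ[Λ] Y.T) = 0 := by
  have h := C.map_add (0 : X.T →ₗ[Λ] Y.T) 0
  rw [add_zero] at h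
  exact left_eq_add.1 h

lemma map_sum {X Y : R.Obj} {ι : Type*} (s : Finset ι) (f : ι → (X.T →ₗ[Λ] Y.T)) :
    C.map (∑ i ∈ s, f i) = ∑ i ∈ s, C.map (f i) := by
  classical
  induction s using Finset.induction with
  | empty => simpa using C.map_zero'
  | insert i s hi ih => rw [Finset.sum_insert hi, Finset.sum_insert hi, C.map_add, ih]

lemma map_one_arg {Y : R.Obj} (f : R.one.T →ₗ[Λ] Y.T) (x : C.F R.one) :
    C.map f x = C.coord x • C.map f C.unit := by
  rw [← map_smul, C.coord_spec]

lemma isFree_of_iso {X : R.Obj} (s : R.one.T →ₗ[Λ] X.T) (h : R.IsIso' s) : R.IsFree' X := by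
  obtain ⟨hf, hn, -⟩ := R.pow_spec 1
  let X1 : R.Obj := { T := Fin 1 → R.O, fn := hf, nonneg := hn }
  let e : X1.T ≃ₗ[Λ] R.one.T := LinearEquiv.funUnique (Fin 1) Λ R.O
  exact ⟨1, hf, hn, s.comp e.toLinearMap,
    R.isIso_comp (X := X1) (Y := R.one) (R.isIso_equiv (X := X1) (Y := R.one) e) h⟩

lemma isFree_one : R.IsFree' R.one :=
  isFree_of_iso LinearMap.id ⟨rfl, fun S hS => by
    rw [LinearMap.range_id, top_le_iff] at hS
    rw [hS, R.rho_top]⟩

/-- The coefficient of the image of an element under a map to the basic object. -/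
noncomputable def val {X : R.Obj} (θ : X.T →ₗ[Λ] R.one.T) (χ : C.F X) : C.E :=
  C.coord (C.map θ χ)

lemma map_val {X Y : R.Obj} (θ : X.T →ₗ[Λ] R.one.T) (f : R.one.T →ₗ[Λ] Y.T) (χ : C.F X) :
    C.map (f ∘ₗ θ) χ = C.val θ χ • C.map f C.unit := by
  rw [C.map_comp, LinearMap.comp_apply, C.map_one_arg f]
  rfl

lemma val_comp {X : R.Obj} (θ : X.T →ₗ[Λ] R.one.T) (ρ : R.one.T →ₗ[Λ] R.one.T) (χ : C.F X) :
    C.val (ρ ∘ₗ θ) χ = C.val θ χ * C.val ρ C.unit := by
  rw [val, C.map_val, map_smul, smul_eq_mul]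
  rfl

lemma val_id : C.val (LinearMap.id : R.one.T →ₗ[Λ] R.one.T) C.unit = 1 := by
  rw [val, C.map_id, LinearMap.id_apply]
  simpa using C.coord_smul_unit 1

lemma val_zero {X : R.Obj} (χ : C.F X) : C.val (0 : X.T →ₗ[Λ] R.one.T) χ = 0 := by
  rw [val, C.map_zero', LinearMap.zero_apply, map_zero]

lemma val_add {X : R.Obj} (θ θ' : X.T →ₗ[Λ] R.one.T) (χ : C.F X) :
    C.val (θ + θ') χ = C.val θ χ + C.val θ' χ := by
  rw [val, C.map_add, LinearMap.add_apply, _root_.map_add]
  rfl

lemma val_scalar {X : R.Obj} (c : L) (θ θ' : X.T →ₗ[Λ] R.one.T)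
    (h : ∀ x, θ' x = algebraMap L Λ c • θ x) (χ : C.F X) :
    C.val θ' χ = algebraMap L C.E c * C.val θ χ := by
  rw [val, C.map_scalar c θ θ' h, map_smul, smul_eq_mul]
  rfl

lemma val_sum {X : R.Obj} {ι : Type*} [Fintype ι] (θ : ι → (X.T →ₗ[Λ] R.one.T))
    (χ : C.F X) : C.val (∑ p, θ p) χ = ∑ p, C.val (θ p) χ := by
  rw [val, C.map_sum, LinearMap.sum_apply, _root_.map_sum]
  rfl

variable {Y : R.Obj} {t : R.one.T →ₗ[Λ] Y.T} (ht : R.IsIso' t)
include ht

lemma cancel_unit {c c' : C.E} (h : c • C.map t C.unit = c' • C.map t C.unit) : c = c' := by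
  refine C.unit_bij.1 ((C.iso_bij t ht).1 ?_)
  show C.map t (c • C.unit) = C.map t (c' • C.unit)
  rwa [map_smul, map_smul]

lemma exists_coef (g : R.one.T →ₗ[Λ] Y.T) :
    ∃ e : C.E, C.map g C.unit = e • C.map t C.unit := by
  obtain ⟨χ, hχ⟩ := (C.iso_bij t ht).2 (C.map g C.unit)
  exact ⟨C.coord χ, by rw [← hχ]; exact C.map_one_arg t χ⟩

lemma coef_commute {g : R.one.T →ₗ[Λ] Y.T} {e : C.E} (he : C.map g C.unit = e • C.map t C.unit)
    (ρ : R.one.T →ₗ[Λ] R.one.T) (ρY : Y.T →ₗ[Λ] Y.T) (h1 : t ∘ₗ ρ = ρY ∘ₗ t)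
    (h2 : g ∘ₗ ρ = ρY ∘ₗ g) : e * C.val ρ C.unit = C.val ρ C.unit * e := by
  refine C.cancel_unit ht ?_
  rw [mul_smul, mul_smul, ← he, ← C.map_val, ← C.map_val, h1, h2, C.map_comp, C.map_comp,
    LinearMap.comp_apply, LinearMap.comp_apply, he, map_smul]

lemma rel_val {g0 g1 : R.one.T →ₗ[Λ] Y.T} {e0 e1 : C.E}
    (he0 : C.map g0 C.unit = e0 • C.map t C.unit) (he1 : C.map g1 C.unit = e1 • C.map t C.unit)
    {X : R.Obj} (θ θ0 θ1 : X.T →ₗ[Λ] R.one.T) (h : t ∘ₗ θ = g0 ∘ₗ θ0 + g1 ∘ₗ θ1) (χ : C.F X) :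
    C.val θ χ = C.val θ0 χ * e0 + C.val θ1 χ * e1 := by
  refine C.cancel_unit ht ?_
  rw [← C.map_val, h, C.map_add, LinearMap.add_apply, C.map_val, C.map_val, he0, he1, add_smul,
    mul_smul, mul_smul]

lemma indep_val {g0 g1 : R.one.T →ₗ[Λ] Y.T} {e0 e1 : C.E}
    (he0 : C.map g0 C.unit = e0 • C.map t C.unit) (he1 : C.map g1 C.unit = e1 • C.map t C.unit)
    (ρ ρ' ρ'' : R.one.T →ₗ[Λ] R.one.T)
    (h : C.val ρ C.unit * e0 + C.val ρ' C.unit * e1 + C.val ρ'' C.unit = 0) :
    ∃ T : Submodule Λ Y.T,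
      LinearMap.range (g0 ∘ₗ ρ + g1 ∘ₗ ρ' + t ∘ₗ ρ'') ≤ T ∧ R.rho T = 0 := by
  have hz : C.map (g0 ∘ₗ ρ + g1 ∘ₗ ρ' + t ∘ₗ ρ'') = 0 := by
    refine LinearMap.ext fun x => ?_
    rw [C.map_one_arg, C.map_add, C.map_add, LinearMap.add_apply, LinearMap.add_apply, C.map_val,
      C.map_val, C.map_val, he0, he1, ← mul_smul, ← mul_smul, ← add_smul, ← add_smul, h, zero_smul,
      smul_zero, LinearMap.zero_apply]
  obtain ⟨k, ⟨⟨T, hT, hTk⟩, -⟩, hk⟩ := C.rank (g0 ∘ₗ ρ + g1 ∘ₗ ρ' + t ∘ₗ ρ'') isFree_one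
    (isFree_of_iso t ht)
  rw [hz, LinearMap.range_zero, finrank_bot] at hk
  exact ⟨T, hT, by rw [hTk, ← hk]; rfl⟩

omit ht

open Classical in
lemma exists_dual_val {X : R.Obj} {n : ℕ} {s : X.T →ₗ[Λ] (R.pow n).T}
    (hs : R.IsIso' (Y := R.pow n) s) (i0 : Fin n) :
    ∃ χ : C.F X, ∀ i : Fin n,
      C.val ((LinearMap.proj i : (Fin n → R.O) →ₗ[Λ] R.O) ∘ₗ s) χ = if i = i0 then 1 else 0 := by
  obtain ⟨χ, hχ⟩ := (C.iso_bij _ hs).2
    (C.map (X := R.one) (Y := R.pow n) (LinearMap.single Λ (fun _ => R.O) i0) C.unit)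
  refine ⟨χ, fun i => ?_⟩
  show C.coord _ = _
  rw [C.map_comp (Y := R.pow n) (Z := R.one) s (LinearMap.proj i), LinearMap.comp_apply, hχ]
  refine (congrArg C.coord (LinearMap.congr_fun (C.map_comp (X := R.one) (Y := R.pow n) (Z := R.one)
    (LinearMap.single Λ (fun _ => R.O) i0) (LinearMap.proj i)) C.unit).symm).trans ?_
  split_ifs with hi
  · subst hi
    have h1 : (LinearMap.proj i : (Fin n → R.O) →ₗ[Λ] R.O) ∘ₗ
      LinearMap.single Λ (fun _ => R.O) i = LinearMap.id := LinearMap.ext fun x => by simp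
    exact (congrArg (fun θ => C.val (X := R.one) θ C.unit) h1).trans C.val_id
  · have h1 : (LinearMap.proj i : (Fin n → R.O) →ₗ[Λ] R.O) ∘ₗ
      LinearMap.single Λ (fun _ => R.O) i0 = 0 := LinearMap.ext fun x => by simp [hi]
    exact (congrArg (fun θ => C.val (X := R.one) θ C.unit) h1).trans (C.val_zero C.unit)

end RhoData.Frac

variable {L : Type u} [Field L] {D : Type u} [DivisionRing D] [Algebra L D] {a : ℕ} [NeZero a]
  {g : Fin (a + 1) → L}

lemma x1pow_el (m j i l k : ℕ) :
    xo D 1 ^ k • el g m j i l = (el g m j i (k + l) : FR D g m) := by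
  induction k with
  | zero => simp
  | succ k ih => rw [pow_succ', mul_smul, ih, x1_el, add_right_comm]

lemma wpow_el (m j i l k : ℕ) :
    wo D ^ k • el g m j i l = (el g m (k + j) i l : FR D g m) := by
  induction k with
  | zero => simp
  | succ k ih => rw [pow_succ', mul_smul, ih, wo_el, add_right_comm]

lemma elMap_el (m m' j i l : ℕ) (h : m' + l + i + j = m) (j' i' l' : ℕ) :
    elMap D g m m' j i l h (el g m j' i' l') = el g m' (j' + j) (i' + i) (l' + l) := by
  rw [el, map_smul, map_smul, map_smul, elMap_gen, x1pow_el, x0pow_el, wpow_el]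

lemma lin_smul {M N : Type u} [AddCommGroup M] [Module (Lam D Unit) M] [Module D M]
    [CoefTower D Unit M] [AddCommGroup N] [Module (Lam D Unit) N] [Module D N]
    [CoefTower D Unit N] (f : M →ₗ[Lam D Unit] N) (d : D) (x : M) : f (d • x) = d • f x :=
  map_smul (linD f) d x

lemma op_d {M : Type u} [AddCommGroup M] [Module (Lam D Unit) M] [Module D M]
    [CoefTower D Unit M] (o : Op Unit) (d : D) (x : M) :
    (op D o : Lam D Unit) • d • x = d • (op D o : Lam D Unit) • x :=
  map_smul (opL (D := D) (M := M) o) d x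

/-- Multiplication by a coefficient on the right. -/
noncomputable def rmul (g : Fin (a + 1) → L) (m : ℕ) (d : D) :
    FR D g m →ₗ[Lam D Unit] FR D g m :=
  Free.lift (isGr_FR m) (fun _ => d • Free.gen ()) fun _ => by
    rw [op_d]
    exact congrArg (d • ·) (Free.pi_gen ())

lemma rmul_gen (m : ℕ) (d : D) :
    rmul g m d (Free.gen ()) = d • (Free.gen () : FR D g m) := Free.lift_gen _ _ _ ()

lemma rmul_el (m j i l : ℕ) (d : D) :
    rmul g m d (el g m j i l) = d • (el g m j i l : FR D g m) := by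
  rw [el, map_smul, map_smul, map_smul, rmul_gen]
  have h : ∀ (o : Op Unit) (k : ℕ) (x : FR D g m),
      (op D o : Lam D Unit) ^ k • d • x = d • (op D o : Lam D Unit) ^ k • x := by
    intro o k x
    induction k with
    | zero => simp
    | succ k ih => rw [pow_succ', mul_smul, ih, mul_smul, op_d]
  rw [h, h, h]

/-- A central scalar as a linear map. -/
noncomputable def scalEnd (c : L) {M : Type u} [AddCommGroup M] [Module (Lam D Unit) M] :
    M →ₗ[Lam D Unit] M where
  toFun x := algebraMap L (Lam D Unit) c • x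
  map_add' := smul_add _
  map_smul' r x := by simp only [RingHom.id_apply, smul_smul, Algebra.commutes]

variable (hgood : Good1 D a g) (C : (oneData hgood).Frac)

/-- The embedding of the coefficients. -/
noncomputable def coefHom : D →ₐ[L] C.E where
  toFun d := C.val (X := (oneData hgood).one) (rmul g 0 d) C.unit
  map_one' := by
    have h : rmul g 0 (1 : D) = LinearMap.id := FR_ext (by rw [rmul_gen, one_smul]; rfl)
    exact (congrArg (fun θ => C.val (X := (oneData hgood).one) θ C.unit) h).trans C.val_id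
  map_mul' d' d := by
    have h : rmul g 0 (d' * d) = (rmul g 0 d).comp (rmul g 0 d') := FR_ext (by
      rw [rmul_gen, LinearMap.comp_apply, rmul_gen, lin_smul, rmul_gen, smul_smul])
    exact (congrArg (fun θ => C.val (X := (oneData hgood).one) θ C.unit) h).trans
      (C.val_comp (X := (oneData hgood).one) (rmul g 0 d') (rmul g 0 d) C.unit)
  map_zero' := by
    have h : rmul g 0 (0 : D) = 0 := FR_ext (by rw [rmul_gen, zero_smul]; rfl)
    exact (congrArg (fun θ => C.val (X := (oneData hgood).one) θ C.unit) h).trans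
      (C.val_zero (X := (oneData hgood).one) C.unit)
  map_add' d d' := by
    have h : rmul g 0 (d + d') = rmul g 0 d + rmul g 0 d' := FR_ext (by
      rw [rmul_gen, LinearMap.add_apply, rmul_gen, rmul_gen, add_smul])
    exact (congrArg (fun θ => C.val (X := (oneData hgood).one) θ C.unit) h).trans
      (C.val_add (X := (oneData hgood).one) (rmul g 0 d) (rmul g 0 d') C.unit)
  commutes' c := by
    have h : rmul g 0 (algebraMap L D c) = scalEnd c := FR_ext (by
      rw [rmul_gen]
      exact (algebraMap_smul_eq c _).symm)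
    exact (C.val_scalar (X := (oneData hgood).one) c LinearMap.id (rmul g 0 (algebraMap L D c))
      (fun x => LinearMap.congr_fun h x) C.unit).trans (by rw [C.val_id]; exact mul_one _)

lemma coefHom_apply (d : D) :
    coefHom hgood C d = C.val (X := (oneData hgood).one) (rmul g 0 d) C.unit := rfl

/-- The root times the generator, between the free modules. -/
noncomputable abbrev wMap (D : Type u) [DivisionRing D] [Algebra L D] (g : Fin (a + 1) → L) :
    FR D g 1 →ₗ[Lam D Unit] FR D g 0 :=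
  elMap D g 1 0 1 0 0 rfl

/-- The triple giving the relation. -/
noncomputable def kMap (D : Type u) [DivisionRing D] [Algebra L D] (g : Fin (a + 1) → L) :
    FR D g 1 →ₗ[Lam D Unit] (Fin (1 + 1) → FR D g 0) × FR D g 0 :=
  (ver 1).prod (-wMap D g)

lemma ver_one (x : FR D g 1) :
    ver 1 x = ![elMap D g 1 0 0 1 0 rfl x, elMap D g 1 0 0 0 1 rfl x] := by
  funext i
  fin_cases i <;> rfl

lemma kMap_el (j i l : ℕ) : kMap D g (el g 1 j i l) =
    (![el g 0 j (i + 1) l, el g 0 j i (l + 1)], -el g 0 (j + 1) i l) := by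
  refine Prod.ext ?_ ?_
  · show ver 1 (el g 1 j i l) = _
    rw [ver_one, elMap_el, elMap_el]
    rfl
  · show -(wMap D g (el g 1 j i l)) = _
    rw [elMap_el]
    rfl

/-- The relation submodule. -/
noncomputable abbrev relK (D : Type u) [DivisionRing D] [Algebra L D] (g : Fin (a + 1) → L) :
    Submodule (Lam D Unit) ((Fin (1 + 1) → FR D g 0) × FR D g 0) :=
  LinearMap.range (kMap D g)

include hgood in
lemma rho_relK : (oneData hgood).rho (relK D g) = 2 := by
  have h1 := (oneData hgood).rho_ker_add_range (kMap D g) (isGr_FR 1)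
  rw [LinearMap.ker_eq_bot.2 (fun x y h => ver_injective hgood 1 (congrArg Prod.fst h)),
    (oneData hgood).rho_bot (isGr_FR 1), rho_frObj hgood 1] at h1
  push_cast at h1
  linarith

include hgood in
lemma relK_le {S : Submodule (Lam D Unit) ((Fin (1 + 1) → FR D g 0) × FR D g 0)}
    (hS : relK D g ≤ S) : 2 ≤ (oneData hgood).rho (S.map (LinearMap.fst _ _ _)) := by
  have h := ver_dense hgood 1 (S.map (LinearMap.fst _ _ _)) (by
    rintro _ ⟨x, rfl⟩
    exact ⟨kMap D g x, hS ⟨x, rfl⟩, rfl⟩)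
  push_cast at h
  exact h

include hgood in
lemma rho_three (S : Submodule (Lam D Unit) ((Fin (1 + 1) → FR D g 0) × FR D g 0)) :
    (oneData hgood).rho S = (oneData hgood).rho (S.map (LinearMap.fst _ _ _)) + (oneData hgood).rho (S.comap (LinearMap.inr _ _ _)) :=
  (oneData hgood).rho_prod_sub ((oneData hgood).pow_spec _).1 (oneData hgood).fn_O S

lemma le_pre (T : Submodule (Lam D Unit)
    (((Fin (1 + 1) → FR D g 0) × FR D g 0) ⧸ relK D g)) :
    relK D g ≤ T.comap (relK D g).mkQ := fun x hx => by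
  rw [Submodule.mem_comap, Submodule.mkQ_apply, (Submodule.Quotient.mk_eq_zero _).2 hx]
  exact zero_mem _

lemma rho_preimage (T : Submodule (Lam D Unit)
    (((Fin (1 + 1) → FR D g 0) × FR D g 0) ⧸ relK D g)) :
    (oneData hgood).rho (T.comap (relK D g).mkQ) = 2 + (oneData hgood).rho T := by
  rw [(oneData hgood).rho_comap (relK D g).mkQ ((oneData hgood).fn_prod _ _ ((oneData hgood).pow_spec _).1 (oneData hgood).fn_O), Submodule.ker_mkQ,
    Submodule.range_mkQ, top_inf_eq, rho_relK]

/-- The pushout as an object. -/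
@[reducible] noncomputable def pObj : (oneData hgood).Obj :=
  { T := ((Fin (1 + 1) → FR D g 0) × FR D g 0) ⧸ relK D g
    fn := (oneData hgood).fn_quot _ _ ((oneData hgood).fn_prod _ _ ((oneData hgood).pow_spec _).1 (oneData hgood).fn_O)
    nonneg := fun T => by
      have h1 := rho_preimage hgood T
      have h2 := relK_le hgood (S := T.comap (relK D g).mkQ)
        (le_pre T)
      have h3 := rho_three hgood (T.comap (relK D g).mkQ)
      have h4 : 0 ≤ (oneData hgood).rho ↥((T.comap (relK D g).mkQ).comap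
          (LinearMap.inr (Lam D Unit) (Fin (1 + 1) → FR D g 0) (FR D g 0))) :=
        (oneData hgood).sub_O _
      linarith }

/-- The maps of the two variables into the pushout. -/
noncomputable def inB (D : Type u) [DivisionRing D] [Algebra L D] (g : Fin (a + 1) → L)
    (b : Fin (1 + 1)) : FR D g 0 →ₗ[Lam D Unit] ((Fin (1 + 1) → FR D g 0) × FR D g 0) ⧸ relK D g :=
  ((relK D g).mkQ.comp (LinearMap.inl _ _ _)).comp (LinearMap.single _ (fun _ => FR D g 0) b)

/-- The map of the root into the pushout. -/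
noncomputable def inW (D : Type u) [DivisionRing D] [Algebra L D] (g : Fin (a + 1) → L) :
    FR D g 0 →ₗ[Lam D Unit] ((Fin (1 + 1) → FR D g 0) × FR D g 0) ⧸ relK D g :=
  (relK D g).mkQ.comp (LinearMap.inr _ _ _)

lemma rel_el (j i l m : ℕ) (h : j + 1 + i + l = m) :
    (inW D g).comp (elMap D g m 0 (j + 1) i l (by omega)) =
      (inB D g 0).comp (elMap D g m 0 j (i + 1) l (by omega)) +
        (inB D g 1).comp (elMap D g m 0 j i (l + 1) (by omega)) := by
  refine FR_ext ?_
  simp only [LinearMap.comp_apply, LinearMap.add_apply, elMap_gen, inB, inW,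
    Submodule.mkQ_apply, ← Submodule.Quotient.mk_add]
  refine ((Submodule.Quotient.eq _).2 ?_).symm
  refine LinearMap.mem_range.2 ⟨el g 1 j i l, ?_⟩
  rw [kMap_el]
  refine Prod.ext (funext fun b => ?_) ?_
  · fin_cases b <;> simp
  · simp

lemma isIso_inW : (oneData hgood).IsIso' (X := (oneData hgood).one) (Y := pObj hgood) (inW D g) := by
  have hpre : ∀ T, LinearMap.range (inW D g) ≤ T → 1 ≤ (oneData hgood).rho T := by
    intro T hT
    have h1 := rho_preimage hgood T
    have h2 := relK_le hgood (S := T.comap (relK D g).mkQ)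
      (le_pre T)
    have h3 := rho_three hgood (T.comap (relK D g).mkQ)
    have h4 : (T.comap (relK D g).mkQ).comap (LinearMap.inr _ _ _) = ⊤ :=
      eq_top_iff.2 fun x _ => hT ⟨x, rfl⟩
    rw [h4, (oneData hgood).rho_top] at h3
    have h5 : (oneData hgood).rho (FR D g 0) = 1 := (oneData hgood).rho_O
    linarith
  have hfn := (oneData hgood).fn_prod _ _ ((oneData hgood).pow_spec (1 + 1)).1 (oneData hgood).fn_O
  have hP : (oneData hgood).rho (pObj hgood).T = 1 := by
    have h1 := (oneData hgood).rho_add _ (relK D g) hfn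
    erw [(oneData hgood).rho_prod ((oneData hgood).pow_spec (1 + 1)).1 (oneData hgood).fn_O, ((oneData hgood).pow_spec (1 + 1)).2.2, (oneData hgood).rho_O,
      rho_relK] at h1
    push_cast at h1
    linarith
  exact ⟨by rw [hP]; exact (oneData hgood).rho_O, fun T hT => hP ▸ hpre T hT⟩

lemma mem_pow_two {A : Submodule (Lam D Unit) (Fin (1 + 1) → FR D g 0)}
    (h : LinearMap.range (ver 1) ≤ A) (hA : (oneData hgood).rho A = 2) :
    ∃ N : ℕ, (∀ t, N ≤ t → ∀ x : Fin (1 + 1) → FR D g 0,
        (op D (.pi (deg1 t)) : Lam D Unit) • x = x → x ∈ A) ∨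
      (∀ t, N ≤ t → ∀ x : Fin (1 + 1) → FR D g 0,
        (op D (.pi (deg1 t)) : Lam D Unit) • x = x → x ∈ A → x ∈ LinearMap.range (ver 1)) := by
  have hX : IsGr D a (fun _ : Unit => g) (Fin (1 + 1) → FR D g 0) := ((oneData hgood).pow_spec (1 + 1)).1
  obtain ⟨⟨α, β⟩, hp⟩ := exists_lin_gr hgood (hX.sub A)
  have hrho : α - β = 2 := (rhoOne_eq hp).symm.trans hA
  have hX2 : ∀ n, hdim D (Fin (1 + 1) → FR D g 0) n = hdim D (FR D g 0) n + hdim D (FR D g 0) n :=
    fun n => (hdim_congr (LinearEquiv.finTwoArrow (Lam D Unit) (FR D g 0)) n).trans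
      ((isGr_FR 0).hdim_prod (isGr_FR 0) n)
  have hlinX : Lin a (hdim D (J := Unit) (Fin (1 + 1) → FR D g 0)) (2, 0) := by
    obtain ⟨N, hN⟩ := lin_FR (D := D) (g := g) 0
    refine ⟨N, fun t ht => ?_⟩
    rw [hX2, hN t ht]
    push_cast
    ring
  have hlinV : Lin a (hdim D (J := Unit) (LinearMap.range (ver (D := D) (g := g) 1))) (1, -1) := by
    obtain ⟨N, hN⟩ := lin_FR (D := D) (g := g) 1
    exact ⟨N, fun t ht => by
      rw [← hdim_congr (LinearEquiv.ofInjective _ (ver_injective hgood 1)), hN t ht]; rfl⟩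
  obtain ⟨N, hN⟩ := id hp
  obtain ⟨N', hN'⟩ := id hlinX
  obtain ⟨N'', hN''⟩ := id hlinV
  have ha : (0 : ℤ) < a := by exact_mod_cast Nat.pos_of_neZero a
  have hbd : ∀ t, N + N' + N'' ≤ t →
      hfree a t + a * (-1 : ℤ) ≤ α * hfree a t + a * β ∧
        α * hfree a t + a * β ≤ 2 * hfree a t := fun t ht => by
    have h1 := hdim_mono hX A (deg1 t)
    have h2 := hdim_mono (hX.sub A) ((LinearMap.range (ver (D := D) (g := g) 1)).comap A.subtype)
      (deg1 t)
    rw [hdim_congr (Submodule.comapSubtypeEquivOfLe h), hN t (by omega), hN'' t (by omega)] at h2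
    rw [hN t (by omega), hN' t (by omega)] at h1
    simp only at h1 h2
    constructor <;> linarith
  obtain ⟨t, ht, ht'⟩ : ∃ t : ℕ, N + N' + N'' ≤ t ∧
      |hfree a 0| + |β| * a + 2 * a < (t : ℤ) := by
    refine ⟨N + N' + N'' + (|hfree a 0| + |β| * a + 2 * a).toNat + 1, by omega, ?_⟩
    push_cast
    omega
  obtain ⟨hb1, hb2⟩ := hbd t ht
  have hge : (t : ℤ) + a < hfree a t + |hfree a 0| + |β| * a + 3 * a := by
    rw [hfree_nat]
    have := neg_abs_le (hfree a 0)
    have : (t : ℤ) ≤ a * t := le_mul_of_one_le_left (by positivity) (by omega)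
    linarith [abs_nonneg β, mul_nonneg (abs_nonneg β) ha.le]
  have hpos : (|β| + 1) * a < hfree a t := by
    rw [hfree_nat]
    have := neg_abs_le (hfree a 0)
    have : (t : ℤ) ≤ a * t := le_mul_of_one_le_left (by positivity) (by omega)
    linarith
  have hα : α = 1 ∨ α = 2 := by
    have h1 := mul_le_mul_of_nonneg_left (le_abs_self β) ha.le
    have h2 := mul_le_mul_of_nonneg_left (neg_abs_le β) ha.le
    have hlo : 0 < α := by
      by_contra hcon
      have : α * hfree a t ≤ 0 :=
        mul_nonpos_of_nonpos_of_nonneg (by omega) (by linarith [abs_nonneg β])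
      nlinarith
    have hhi : α < 3 := by
      by_contra hcon
      have : (3 : ℤ) * hfree a t ≤ α * hfree a t :=
        mul_le_mul_of_nonneg_right (by omega) (by linarith [abs_nonneg β])
      nlinarith
    omega
  rcases hα with rfl | rfl
  · obtain rfl : β = -1 := by omega
    obtain ⟨M, hM⟩ := eventually_mem (hX.sub A) (S :=
      (LinearMap.range (ver (D := D) (g := g) 1)).comap A.subtype) hp (by
        obtain ⟨k, hk⟩ := hlinV
        exact ⟨k, fun t ht => by rw [hdim_congr (Submodule.comapSubtypeEquivOfLe h), hk t ht]⟩)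
    exact ⟨M, Or.inr fun t ht x hx hxA => hM t ht ⟨x, hxA⟩ (Subtype.ext hx)⟩
  · obtain rfl : β = 0 := by omega
    obtain ⟨M, hM⟩ := eventually_mem hX hlinX hp
    exact ⟨M, Or.inl hM⟩

lemma range_x (b i l : ℕ) (h : 0 + l + i + 0 = 1) (y : FR D g 1) (hb : b = 0 ∧ i = 1 ∨ b = 1 ∧ l = 1) :
    ∃ z : FR D g 0, elMap D g 1 0 0 i l h y = xo D (if b = 0 then 0 else 1) • z := by
  set c : Fin 2 := if b = 0 then 0 else 1
  let W : Submodule D (FR D g 0) := LinearMap.range (opL (D := D) (.x () c))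
  have hst : ∀ o : Op Unit, ∀ z ∈ W, opL (D := D) o z ∈ W := by
    rintro o _ ⟨z, rfl⟩
    simp only [opL_apply]
    by_cases ho : o.IsPi
    · cases o with
      | pi n =>
        rw [(isGr_FR 0).pi_op (not_isPi_x () c)]
        split_ifs
        · exact ⟨_, rfl⟩
        · exact zero_mem _
      | x r b => simp [Op.IsPi] at ho
      | w r => simp [Op.IsPi] at ho
    · rw [(isGr_FR 0).comm o _ ho (not_isPi_x () c)]
      exact ⟨_, rfl⟩
  have hle : LinearMap.range (elMap D g 1 0 0 i l h) ≤ toLam (J := Unit) W hst := by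
    rintro _ ⟨y, rfl⟩
    suffices hy : (toLam (J := Unit) W hst).comap (elMap D g 1 0 0 i l h) = ⊤ by
      have : y ∈ (toLam (J := Unit) W hst).comap (elMap D g 1 0 0 i l h) := by rw [hy]; trivial
      exact this
    rw [eq_top_iff, ← Free.span_gen, Submodule.span_le]
    rintro _ ⟨⟨⟩, rfl⟩
    show elMap D g 1 0 0 i l h (Free.gen ()) ∈ W
    rw [elMap_gen]
    rcases hb with ⟨rfl, rfl⟩ | ⟨rfl, rfl⟩
    · exact ⟨el g 0 0 0 l, by simp [c, x0_el]⟩
    · exact ⟨el g 0 0 i 0, by simp [c, x1_el]⟩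
  obtain ⟨z, hz⟩ := hle ⟨y, rfl⟩
  exact ⟨z, hz.symm⟩

include hgood in
/-- The Veronese map makes the coordinates free. -/
lemma exists_dual (n : ℕ) (i0 : Fin (n + 1)) : ∃ χ : C.F (frObj hgood n),
    ∀ (i : Fin (n + 1)) (h : 0 + (i : ℕ) + (n - i) + 0 = n),
      C.val (X := frObj hgood n) (elMap D g n 0 0 (n - i) i h) χ = if i = i0 then 1 else 0 := by
  have hr : (oneData hgood).rho (Fin (n + 1) → FR D g 0) = ((n + 1 : ℕ) : ℤ) :=
    (oneData hgood).rho_pow (n + 1)
  have hiso : (oneData hgood).IsIso' (X := frObj hgood n) (Y := (oneData hgood).pow (n + 1))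
      (ver n) := by
    refine ⟨?_, fun S hS => ?_⟩
    · show (oneData hgood).rho (FR D g n) = (oneData hgood).rho (Fin (n + 1) → FR D g 0)
      rw [hr, rho_frObj]
      push_cast
      ring
    · show (oneData hgood).rho (Fin (n + 1) → FR D g 0) ≤ (oneData hgood).rho S
      rw [hr]
      push_cast
      exact ver_dense hgood n S hS
  obtain ⟨χ, hχ⟩ := C.exists_dual_val (X := frObj hgood n) hiso i0
  exact ⟨χ, fun i h => hχ i⟩

lemma indep_aux (ha : 2 ≤ a) (d d' d'' : D)
    (T : Submodule (Lam D Unit) (((Fin (1 + 1) → FR D g 0) × FR D g 0) ⧸ relK D g))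
    (hT : LinearMap.range ((inB D g 0).comp (rmul g 0 d) + (inB D g 1).comp (rmul g 0 d') +
      (inW D g).comp (rmul g 0 d'')) ≤ T)
    (h0 : (oneData hgood).rho T = 0) : d = 0 ∧ d' = 0 ∧ d'' = 0 := by
  set S := T.comap (relK D g).mkQ
  have hK : relK D g ≤ S := le_pre T
  have hS : (oneData hgood).rho S = 2 := by rw [rho_preimage, h0, add_zero]
  have h1 := relK_le hgood hK
  have h3 := rho_three hgood S
  have h4 : 0 ≤ (oneData hgood).rho ↥(S.comap
      (LinearMap.inr (Lam D Unit) (Fin (1 + 1) → FR D g 0) (FR D g 0))) := (oneData hgood).sub_O _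
  have hc : S.comap (LinearMap.inr (Lam D Unit) (Fin (1 + 1) → FR D g 0) (FR D g 0)) = ⊥ := by
    by_contra hne
    have := rho_sub_FR hgood hne
    simp only [oneData_rho] at h3 h4 hS h1
    push_cast at this
    linarith
  have hA : (oneData hgood).rho (S.map (LinearMap.fst _ _ _)) = 2 := by
    simp only [oneData_rho] at h3 h4 hS h1 ⊢
    omega
  have huniq : ∀ z : (Fin (1 + 1) → FR D g 0) × FR D g 0, z ∈ S → z.1 = 0 → z.2 = 0 := by
    intro z hz hz1
    have : z.2 ∈ S.comap (LinearMap.inr (Lam D Unit) (Fin (1 + 1) → FR D g 0) (FR D g 0)) := by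
      show ((0, z.2) : (Fin (1 + 1) → FR D g 0) × FR D g 0) ∈ S
      rwa [← hz1]
    rwa [hc, Submodule.mem_bot] at this
  have hV : LinearMap.range (ver 1) ≤ S.map (LinearMap.fst _ _ _) := by
    rintro _ ⟨x, rfl⟩
    exact ⟨kMap D g x, hK ⟨x, rfl⟩, rfl⟩
  obtain ⟨N, hN | hN⟩ := mem_pow_two hgood hV hA
  · -- the projection fills the high degrees: impossible
    exfalso
    have hmem : ∀ (i l : ℕ) (b : Fin (1 + 1)), i + l = N →
        ∃ z ∈ S, z.1 = Pi.single b (el g 0 0 i l) := by
      intro i l b hil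
      obtain ⟨z, hz, hz'⟩ := hN N le_rfl (Pi.single b (el g 0 0 i l)) (by
        rw [← Pi.single_smul]
        congr 1
        have := pi_el (D := D) (g := g) 0 0 i l
        rwa [show 0 + l + i + 0 = N by omega] at this)
      exact ⟨z, hz, hz'⟩
    obtain ⟨p, hp, hp1⟩ := hmem N 0 0 rfl
    obtain ⟨p', hp', hp1'⟩ := hmem 0 N 0 (by omega)
    obtain ⟨q, hq, hq1⟩ := hmem N 0 1 rfl
    have e1 : xo D 1 ^ N • p.2 = xo D 0 ^ N • p'.2 := by
      refine sub_eq_zero.1 (huniq (xo D 1 ^ N • p - xo D 0 ^ N • p')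
        (S.sub_mem (S.smul_mem _ hp) (S.smul_mem _ hp')) ?_)
      rw [Prod.fst_sub, Prod.smul_fst, Prod.smul_fst, hp1, hp1', ← Pi.single_smul,
        ← Pi.single_smul, x1pow_el, x0pow_el]
      simp
    have e2 : xo D 0 • xo D 1 ^ N • p.2 + xo D 1 • xo D 1 ^ N • q.2 = -el g 0 1 N N := by
      refine Eq.trans ?_ ((sub_eq_zero.1 ((Prod.snd_sub _ _).symm.trans (huniq
        ((xo D 0 • xo D 1 ^ N • p + xo D 1 • xo D 1 ^ N • q) - kMap D g (el g 1 0 N N))
        (S.sub_mem (S.add_mem (S.smul_mem _ (S.smul_mem _ hp)) (S.smul_mem _ (S.smul_mem _ hq)))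
          (hK ⟨_, rfl⟩)) ?_))).trans ?_)
      · simp
      · rw [Prod.fst_sub, Prod.fst_add, Prod.smul_fst, Prod.smul_fst, Prod.smul_fst, Prod.smul_fst,
          hp1, hq1, kMap_el, sub_eq_zero]
        funext b
        fin_cases b <;> simp [x1pow_el, x0_el, x1_el]
      · simp [kMap_el]
    rw [e1] at e2
    let Q : Unit × Mon Unit a := ((), ((fun _ => ⟨1, by omega⟩), fun _ => ![N, N]))
    have e3 := congrArg (coefAt Q) e2
    have z1 : coefAt Q (xo D 0 • xo D 0 ^ N • p'.2) = 0 := by
      rw [← mul_smul, ← pow_succ', show xo D 0 ^ (N + 1) • p'.2 =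
        xo D 0 ^ (N + 1) • xo D 1 ^ 0 • p'.2 by rw [pow_zero, one_smul]]
      exact coefAt_shift _ _ _ _ (Or.inl (by simp [Q]))
    have z2 : coefAt Q (xo D 1 • xo D 1 ^ N • q.2) = 0 := by
      rw [← mul_smul, ← pow_succ', show xo D 1 ^ (N + 1) • q.2 =
        xo D 0 ^ 0 • xo D 1 ^ (N + 1) • q.2 by rw [pow_zero, one_smul]]
      exact coefAt_shift _ _ _ _ (Or.inr (by simp [Q]))
    rw [show coefAt Q (xo D 0 • xo D 0 ^ N • p'.2 + xo D 1 • xo D 1 ^ N • q.2) =
      coefAt Q (xo D 0 • xo D 0 ^ N • p'.2) + coefAt Q (xo D 1 • xo D 1 ^ N • q.2) from rfl,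
      z1, z2, add_zero, el_one ha] at e3
    have : coefAt Q (-(Free.sg Q (1 : D) : FR D g 0)) = -1 :=
      congrArg Neg.neg (coefAt_sg Q (1 : D))
    rw [this] at e3
    exact one_ne_zero (neg_eq_zero.1 e3.symm)
  · -- the projection is the line: both coefficients vanish
    have hx : ∀ i l, i + l = N → ∃ y : FR D g 1,
        elMap D g 1 0 0 1 0 rfl y = d • el g 0 0 i l ∧
          elMap D g 1 0 0 0 1 rfl y = d' • el g 0 0 i l := by
      intro i l hil
      have hpi : (op D (.pi (deg1 N)) : Lam D Unit) • (el g 0 0 i l : FR D g 0) = el g 0 0 i l := by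
        have := pi_el (D := D) (g := g) 0 0 i l
        rwa [show 0 + l + i + 0 = N by omega] at this
      let z : Fin (1 + 1) → FR D g 0 := ![d • el g 0 0 i l, d' • el g 0 0 i l]
      have hzA : z ∈ S.map (LinearMap.fst _ _ _) := by
        refine ⟨(z, d'' • el g 0 0 i l), hT ⟨el g 0 0 i l, ?_⟩, rfl⟩
        show _ = Submodule.Quotient.mk (z, (d'' • el g 0 0 i l : FR D g 0))
        simp only [LinearMap.add_apply, LinearMap.comp_apply, rmul_el, inB, inW, Submodule.mkQ_apply,
          ← Submodule.Quotient.mk_add]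
        congr 1
        refine Prod.ext (funext fun b => ?_) (by simp)
        fin_cases b <;> simp [z]
      obtain ⟨y, hy⟩ := hN N le_rfl z (funext fun b => by
        fin_cases b <;> simp [z, op_d, hpi]) hzA
      rw [ver_one] at hy
      exact ⟨y, congrFun hy 0, congrFun hy 1⟩
    have hd : d = 0 := by
      obtain ⟨y, hy, -⟩ := hx 0 N (zero_add N)
      obtain ⟨z, hz⟩ := range_x (D := D) (g := g) 0 1 0 rfl y (Or.inl ⟨rfl, rfl⟩)
      rw [if_pos rfl] at hz
      rw [hz, el_zero, Free.smul_sg, mul_one] at hy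
      have e := congrArg (coefAt ((), ((fun _ => 0), fun _ => ![0, N]))) hy
      rw [coefAt_sg, show xo D 0 • z = xo D 0 ^ 1 • xo D 1 ^ 0 • z by simp,
        coefAt_shift 1 0 _ _ (Or.inl (by simp))] at e
      exact e.symm
    have hd' : d' = 0 := by
      obtain ⟨y, -, hy⟩ := hx N 0 (add_zero N)
      obtain ⟨z, hz⟩ := range_x (D := D) (g := g) 1 0 1 rfl y (Or.inr ⟨rfl, rfl⟩)
      rw [if_neg one_ne_zero] at hz
      rw [hz, el_zero, Free.smul_sg, mul_one] at hy
      have e := congrArg (coefAt ((), ((fun _ => 0), fun _ => ![N, 0]))) hy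
      rw [coefAt_sg, show xo D 1 • z = xo D 0 ^ 0 • xo D 1 ^ 1 • z by simp,
        coefAt_shift 0 1 _ _ (Or.inr (by simp))] at e
      exact e.symm
    refine ⟨hd, hd', ?_⟩
    have hmem : ((0, d'' • Free.gen ()) : (Fin (1 + 1) → FR D g 0) × FR D g 0) ∈ S := by
      refine hT ⟨Free.gen (), ?_⟩
      simp only [LinearMap.add_apply, LinearMap.comp_apply, rmul_gen, hd, hd', zero_smul,
        map_zero, zero_add]
      rfl
    have h5 := huniq _ hmem rfl
    have h6 := congrArg (coefAt (D := D) (g := g) ((), (0 : Mon Unit a))) h5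
    rw [show (d'' • Free.gen () : FR D g 0) = Free.sg ((), 0) (d'' * 1) from Free.smul_sg _ _ _,
      mul_one, coefAt_sg] at h6
    exact h6.trans rfl

include hgood in
/-- A block is absorbed. -/
theorem exists_block (ha : 2 ≤ a) :
    ∃ (φ : D →ₐ[L] C.E) (e : Fin 2 → C.E), (∀ i d, e i * φ d = φ d * e i) ∧
      (Polynomial.C (e 0) * Polynomial.X + Polynomial.C (e 1)) ^ a =
        ∑ p : Fin (a + 1), Polynomial.C (algebraMap L C.E (g p)) * Polynomial.X ^ (p : ℕ) ∧
      ∀ d d' d'' : D, φ d * e 0 + φ d' * e 1 + φ d'' = 0 → d = 0 ∧ d' = 0 ∧ d'' = 0 := by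
  classical
  have hW : (oneData hgood).IsIso' (X := (oneData hgood).one) (Y := pObj hgood) (inW D g) :=
    isIso_inW hgood
  have he : ∀ b : Fin 2, ∃ e : C.E,
      C.map (X := (oneData hgood).one) (Y := pObj hgood) (inB D g b) C.unit =
        e • C.map (X := (oneData hgood).one) (Y := pObj hgood) (inW D g) C.unit :=
    fun b => C.exists_coef (Y := pObj hgood) hW (inB D g b)
  choose e he using he
  refine ⟨coefHom hgood C, e, fun b d => ?_, ?_, fun d d' d'' hdd => ?_⟩
  · let ρ3 := ((rmul g 0 d).compLeft (Fin (1 + 1))).prodMap (rmul g 0 d)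
    have hK : relK D g ≤ (relK D g).comap ρ3 := by
      rintro _ ⟨x, rfl⟩
      refine ⟨rmul g 1 d x, ?_⟩
      suffices h : (kMap D g).comp (rmul g 1 d) = ρ3.comp (kMap D g) from LinearMap.congr_fun h x
      refine FR_ext ?_
      have hg : (Free.gen () : FR D g 1) = el g 1 0 0 0 := by simp [el]
      refine Prod.ext ?_ ?_
      · show ver 1 (rmul g 1 d (Free.gen ())) = (rmul g 0 d).compLeft _ (ver 1 (Free.gen ()))
        funext c
        rw [ver_one, LinearMap.compLeft_apply, Function.comp_apply, ver_one, hg, rmul_el]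
        fin_cases c <;> simp [lin_smul, elMap_el, rmul_el]
      · show -(wMap D g (rmul g 1 d (Free.gen ()))) = rmul g 0 d (-(wMap D g (Free.gen ())))
        rw [map_neg, hg, rmul_el, lin_smul, elMap_el, rmul_el]
    let ρP := Submodule.mapQ _ _ ρ3 hK
    have h1 : (inW D g).comp (rmul g 0 d) = ρP.comp (inW D g) := LinearMap.ext fun x => by
      simp [inW, ρP, ρ3]
    have h2 : (inB D g b).comp (rmul g 0 d) = ρP.comp (inB D g b) := LinearMap.ext fun x => by
      simp only [inB, ρP, LinearMap.comp_apply, Submodule.mkQ_apply, Submodule.mapQ_apply]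
      congr 1
      refine Prod.ext (funext fun c => ?_) (by simp [ρ3])
      rcases eq_or_ne c b with rfl | hcb
      · simp [ρ3]
      · simp [ρ3, hcb]
    exact C.coef_commute (Y := pObj hgood) hW (he b) (rmul g 0 d) ρP h1 h2
  · -- the relation
    let N : (m j i l : ℕ) → (h : 0 + l + i + j = m) → C.F (frObj hgood m) → C.E :=
      fun m j i l h χ => C.val (X := frObj hgood m) (elMap D g m 0 j i l h) χ
    have hrec : ∀ m j i l (h : j + 1 + i + l = m) χ, N m (j + 1) i l (by omega) χ =
        N m j (i + 1) l (by omega) χ * e 0 + N m j i (l + 1) (by omega) χ * e 1 := by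
      intro m j i l h χ
      exact C.rel_val (Y := pObj hgood) hW (he 0) (he 1) (X := frObj hgood m) _ _ _
        (rel_el j i l m h) χ
    let Pol : Polynomial C.E := Polynomial.C (e 0) * Polynomial.X + Polynomial.C (e 1)
    let Z : C.F (frObj hgood a) → ℕ → C.E := fun χ k =>
      if h : k ≤ a then N a 0 k (a - k) (by omega) χ else 0
    have hexp : ∀ χ j i l (h : 0 + l + i + j = a), N a j i l h χ =
        ∑ k ∈ Finset.range (a + 1), Z χ k * (Pol ^ j * Polynomial.X ^ i).coeff k := by
      intro χ j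
      induction j with
      | zero =>
        intro i l h
        rw [Finset.sum_eq_single i]
        · obtain rfl : l = a - i := by omega
          simp [Z, show i ≤ a by omega]
        · intro k _ hk
          simp [Polynomial.coeff_X_pow, hk]
        · intro hi
          simp at hi
          omega
      | succ j ih =>
        intro i l h
        rw [hrec a j i l (by omega) χ, ih (i + 1) l (by omega), ih i (l + 1) (by omega),
          Finset.sum_mul, Finset.sum_mul, ← Finset.sum_add_distrib]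
        refine Finset.sum_congr rfl fun k _ => ?_
        have hp : Pol ^ (j + 1) * Polynomial.X ^ i =
            Pol ^ j * Polynomial.X ^ (i + 1) * Polynomial.C (e 0) +
              Pol ^ j * Polynomial.X ^ i * Polynomial.C (e 1) := by
          rw [pow_succ, mul_assoc, mul_assoc, mul_assoc, ← mul_add]
          congr 1
          simp only [Pol, add_mul, mul_assoc]
          rw [← pow_succ', Polynomial.X_pow_mul, Polynomial.X_pow_mul]
        rw [hp, Polynomial.coeff_add, Polynomial.coeff_mul_C, Polynomial.coeff_mul_C, mul_add,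
          mul_assoc, mul_assoc]
    have htop : ∀ χ, N a a 0 0 (by omega) χ =
        ∑ k ∈ Finset.range (a + 1), Z χ k *
          (∑ p : Fin (a + 1), Polynomial.C (algebraMap L C.E (g p)) *
            Polynomial.X ^ (p : ℕ) : Polynomial C.E).coeff k := by
      intro χ
      have hθ : elMap D g a 0 a 0 0 (by omega) = ∑ p : Fin (a + 1),
          (scalEnd (g p)).comp (elMap D g a 0 0 p (a - p) (by omega)) := by
        refine FR_ext ?_
        rw [elMap_gen, LinearMap.sum_apply]
        rw [el, pow_zero, one_smul, pow_zero, one_smul]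
        rw [(isGr_FR 0).pow, formEl, Finset.sum_smul]
        refine Finset.sum_congr rfl fun p _ => ?_
        rw [LinearMap.comp_apply, elMap_gen, el, pow_zero, one_smul, mul_smul, mul_smul]
        rfl
      refine ((congrArg (fun θ => C.val (X := frObj hgood a) θ χ) hθ).trans
        (C.val_sum (X := frObj hgood a) _ χ)).trans ?_
      rw [Finset.sum_range]
      refine Finset.sum_congr rfl fun p _ => ?_
      refine (C.val_scalar (X := frObj hgood a) (g p) (elMap D g a 0 0 p (a - p) (by omega)) _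
        (fun x => rfl) χ).trans ?_
      rw [Polynomial.finsetSum_coeff, Finset.sum_eq_single p]
      · simp [Z, Nat.le_of_lt_succ p.2, Algebra.commutes, N]
      · intro q _ hq
        simp [Polynomial.coeff_X_pow, Fin.val_ne_of_ne hq.symm]
      · simp
    ext k
    by_cases hk : k ≤ a
    swap
    · have hd : (Pol ^ a).natDegree ≤ a := by
        refine Polynomial.natDegree_pow_le.trans ?_
        exact (Nat.mul_le_mul_left a Polynomial.natDegree_linear_le).trans (mul_one a).le
      rw [Polynomial.coeff_eq_zero_of_natDegree_lt (lt_of_le_of_lt hd (by omega)),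
        Polynomial.finsetSum_coeff]
      refine (Finset.sum_eq_zero fun p _ => ?_).symm
      have := p.2
      simp [Polynomial.coeff_X_pow, show k ≠ (p : ℕ) by omega]
    obtain ⟨χ, hχ⟩ := exists_dual hgood C a ⟨a - k, by omega⟩
    have h1 := (hexp χ a 0 0 (by omega)).symm.trans (htop χ)
    have hZ : ∀ k', k' ≤ a → Z χ k' = if k' = k then 1 else 0 := by
      intro k' hk'
      have h2 := hχ ⟨a - k', by omega⟩ (by simp)
      simp only [Fin.mk.injEq] at h2
      rw [if_congr (show (a - k' = a - k) ↔ k' = k by omega) rfl rfl] at h2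
      simp only [Z, dif_pos hk', N]
      refine Eq.trans ?_ h2
      congr 2
      omega
    rw [pow_zero, mul_one] at h1
    rw [Finset.sum_eq_single k, Finset.sum_eq_single k, hZ k hk, if_pos rfl, one_mul, one_mul] at h1
    · exact h1
    all_goals first
      | (intro k' hk' hne; rw [Finset.mem_range] at hk'; rw [hZ k' (by omega), if_neg hne, zero_mul])
      | (intro hk'; simp at hk'; omega)
  · obtain ⟨T, hT, hT0⟩ := C.indep_val (Y := pObj hgood) hW (he 0) (he 1)
      (rmul g 0 d) (rmul g 0 d') (rmul g 0 d'') hdd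
    exact indep_aux hgood ha d d' d'' T hT hT0

end Vale.Agent.P200.Deg
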