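import Vale.Agent.P200.Deg.CalcSpec

/-!
Lemmas on an additive integer rank function: pushouts and quotients of rho-isos, and maps
from powers of the basic module (notes/P200_helper10_free_field_v2.md, section 1).
-/

namespace Vale.Agent.P200.Deg

open LinearMap

universe u

variable {L : Type u} [Field L] {Λ : Type u} [Ring Λ] [Algebra L Λ]

namespace RhoData

variable (R : RhoData L Λ) {M N : Type u} [AddCommGroup M] [Module Λ M] [AddCommGroup N]
  [Module Λ N]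

theorem rho_top : R.rho (⊤ : Submodule Λ M) = R.rho M :=
  R.rho_equiv _ _ Submodule.topEquiv

theorem rho_bot (h : R.Fn M) : R.rho (⊥ : Submodule Λ M) = 0 := by
  have h1 := R.rho_add M ⊥ h
  have h2 := R.rho_equiv _ _ (Submodule.quotEquivOfEqBot (⊥ : Submodule Λ M) rfl)
  omega

theorem rho_ker_add_range (f : M →ₗ[Λ] N) (h : R.Fn M) :
    R.rho M = R.rho (ker f) + R.rho (range f) := by
  rw [R.rho_add M (ker f) h, R.rho_equiv _ _ f.quotKerEquivRange]

theorem rho_map_inj (f : M →ₗ[Λ] N) (hf : Function.Injective f) (S : Submodule Λ M) :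
    R.rho (S.map f) = R.rho S :=
  (R.rho_equiv _ _ (Submodule.equivMapOfInjective f hf S)).symm

theorem rho_map (f : M →ₗ[Λ] N) (h : R.Fn M) (S : Submodule Λ M) :
    R.rho S = R.rho ↥(S ⊓ ker f) + R.rho (S.map f) := by
  rw [R.rho_ker_add_range (f ∘ₗ S.subtype) (R.fn_sub M S h), range_comp, Submodule.range_subtype,
    ker_comp, ← R.rho_map_inj S.subtype S.injective_subtype,
    Submodule.map_comap_subtype]

theorem rho_sup (h : R.Fn M) (S T : Submodule Λ M) :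
    R.rho ↥(S ⊔ T) + R.rho ↥(S ⊓ T) = R.rho S + R.rho T := by
  have h1 := R.rho_map T.mkQ h S
  have h2 := R.rho_map T.mkQ h (S ⊔ T)
  rw [Submodule.ker_mkQ] at h1 h2
  rw [Submodule.map_sup, Submodule.mkQ_map_self, sup_bot_eq, inf_eq_right.2 le_sup_right] at h2
  omega

theorem rho_comap (f : M →ₗ[Λ] N) (h : R.Fn M) (S : Submodule Λ N) :
    R.rho (S.comap f) = R.rho (ker f) + R.rho ↥(range f ⊓ S) := by
  rw [R.rho_map f h (S.comap f), inf_eq_right.2 (ker_le_comap f), Submodule.map_comap_eq]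

theorem rho_prod_sub (hM : R.Fn M) (hN : R.Fn N) (D : Submodule Λ (M × N)) :
    R.rho D = R.rho (D.map (fst Λ M N)) + R.rho (D.comap (inr Λ M N)) := by
  rw [R.rho_map (fst Λ M N) (R.fn_prod _ _ hM hN) D, ← R.rho_map_inj (inr Λ M N) inr_injective,
    Submodule.map_comap_eq, ker_fst, inf_comm D, add_comm]

theorem rho_prod (hM : R.Fn M) (hN : R.Fn N) : R.rho (M × N) = R.rho M + R.rho N := by
  rw [← R.rho_top, R.rho_prod_sub hM hN ⊤, Submodule.map_top, LinearMap.range_eq_top.2 fst_surjective, Submodule.comap_top,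
    R.rho_top, R.rho_top]

variable (X Y Z : R.Obj)

/-- A submodule as an object. -/
@[reducible] def subObj (S : Submodule Λ X.T) : R.Obj :=
  { T := S, fn := R.fn_sub _ S X.fn,
    nonneg := fun A => by
      rw [← R.rho_map_inj S.subtype S.injective_subtype A]; exact X.nonneg _ }

/-- The quotient by a submodule of value zero as an object. -/
@[reducible] def quotObj (S : Submodule Λ X.T) (h : R.rho S = 0) : R.Obj :=
  { T := X.T ⧸ S, fn := R.fn_quot _ S X.fn,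
    nonneg := fun A => by
      have h1 := R.rho_comap S.mkQ X.fn A
      rw [Submodule.ker_mkQ, Submodule.range_mkQ, top_inf_eq] at h1
      have h2 := X.nonneg (A.comap S.mkQ)
      omega }

/-- The second half of the definition of a rho-iso. -/
def Dense {X Y : R.Obj} (s : X.T →ₗ[Λ] Y.T) : Prop :=
  ∀ S : Submodule Λ Y.T, range s ≤ S → R.rho Y.T ≤ R.rho S

/-- The image has the least value among the submodules containing it. -/
def Sharp {X Y : R.Obj} (i : X.T →ₗ[Λ] Y.T) : Prop :=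
  ∀ A : Submodule Λ Y.T, range i ≤ A → R.rho X.T ≤ R.rho A

variable {X Y Z}

theorem rho_range_le (f : X.T →ₗ[Λ] Y.T) : R.rho (range f) ≤ R.rho X.T := by
  rw [R.rho_ker_add_range f X.fn]
  linarith [X.nonneg (ker f)]

theorem IsIso'.dense {R : RhoData L Λ} {X Y : R.Obj} {s : X.T →ₗ[Λ] Y.T} (h : R.IsIso' s) :
    R.Dense s :=
  h.2

theorem isIso_ker {s : X.T →ₗ[Λ] Y.T} (h : R.IsIso' s) : R.rho (ker s) = 0 := by
  have h1 := R.rho_ker_add_range s X.fn
  have h2 := h.2 _ le_rfl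
  have h3 := X.nonneg (ker s)
  have h4 := h.1
  omega

theorem dense_comp {s : X.T →ₗ[Λ] Y.T} {t : Y.T →ₗ[Λ] Z.T} (hs : R.Dense s) (ht : R.Dense t) :
    R.Dense (t ∘ₗ s) := by
  intro S hS
  have h1 := R.rho_sup Z.fn S (range t)
  have h2 := ht (S ⊔ range t) le_sup_right
  have h3 : R.rho Y.T ≤ R.rho (S.comap t) := by
    refine hs _ ?_
    rintro _ ⟨x, rfl⟩
    exact hS ⟨x, rfl⟩
  rw [R.rho_comap t Y.fn, inf_comm] at h3
  have h4 := R.rho_ker_add_range t Y.fn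
  omega

theorem isIso_comp {s : X.T →ₗ[Λ] Y.T} {t : Y.T →ₗ[Λ] Z.T} (hs : R.IsIso' s) (ht : R.IsIso' t) :
    R.IsIso' (t ∘ₗ s) :=
  ⟨hs.1.trans ht.1, R.dense_comp hs.2 ht.2⟩

theorem dense_of_surjective {s : X.T →ₗ[Λ] Y.T} (h : Function.Surjective s) : R.Dense s := by
  intro S hS
  rw [LinearMap.range_eq_top.2 h, top_le_iff] at hS
  rw [hS, R.rho_top]

theorem isIso_equiv (e : X.T ≃ₗ[Λ] Y.T) : R.IsIso' (e : X.T →ₗ[Λ] Y.T) :=
  ⟨R.rho_equiv _ _ e, R.dense_of_surjective e.surjective⟩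

theorem isIso_quot (S : Submodule Λ X.T) (h : R.rho S = 0) :
    R.IsIso' (Y := R.quotObj X S h) S.mkQ :=
  ⟨by rw [R.rho_add X.T S X.fn, h, zero_add],
    R.dense_of_surjective (Y := R.quotObj X S h) S.mkQ_surjective⟩

theorem cancel {s : X.T →ₗ[Λ] Y.T} (hs : R.IsIso' s) (f : Y.T →ₗ[Λ] Z.T) (hf : f ∘ₗ s = 0) :
    ∃ (P : R.Obj) (q : Z.T →ₗ[Λ] P.T), R.IsIso' q ∧ q ∘ₗ f = 0 := by
  have h1 := R.rho_ker_add_range f Y.fn
  have h2 := hs.2 (ker f) (range_le_ker_iff.2 hf)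
  have h3 := Z.nonneg (range f)
  have h0 : R.rho (range f) = 0 := by omega
  exact ⟨_, _, R.isIso_quot _ h0, range_mkQ_comp f⟩

theorem pushout {s : X.T →ₗ[Λ] Y.T} (hs : R.IsIso' s) (f : X.T →ₗ[Λ] Z.T) :
    ∃ (P : R.Obj) (g : Y.T →ₗ[Λ] P.T) (t : Z.T →ₗ[Λ] P.T), R.IsIso' t ∧ g ∘ₗ s = t ∘ₗ f ∧
      (Function.Injective f → Function.Injective g) ∧ (R.Sharp f → R.Sharp g) := by
  set N : Submodule Λ (Y.T × Z.T) := range (s.prod (-f)) with hN
  have hfn : R.Fn (Y.T × Z.T) := R.fn_prod _ _ Y.fn Z.fn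
  have hrN : R.rho N = R.rho X.T := by
    have h1 := R.rho_map f X.fn (ker s)
    have h2 := X.nonneg (ker s ⊓ ker f)
    have h3 := Z.nonneg ((ker s).map f)
    have h4 := R.isIso_ker hs
    have h5 := R.rho_ker_add_range (s.prod (-f)) X.fn
    have h6 : ker (s.prod (-f)) = ker s ⊓ ker f := by ext; simp
    rw [h6, ← hN] at h5
    omega
  have hsum : ∀ D : Submodule Λ ((Y.T × Z.T) ⧸ N), R.rho D + R.rho X.T =
      R.rho ((D.comap N.mkQ).map (fst Λ Y.T Z.T)) +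
        R.rho ((D.comap N.mkQ).comap (inr Λ Y.T Z.T)) := by
    intro D
    rw [← R.rho_prod_sub Y.fn Z.fn, R.rho_comap N.mkQ hfn, Submodule.ker_mkQ,
      Submodule.range_mkQ, top_inf_eq, hrN, add_comm]
  have hin : ∀ (D : Submodule Λ ((Y.T × Z.T) ⧸ N)) x, (s x, -f x) ∈ D.comap N.mkQ := fun D x =>
    (ker_le_comap N.mkQ) (by rw [Submodule.ker_mkQ]; exact ⟨x, rfl⟩)
  have hA : ∀ D : Submodule Λ ((Y.T × Z.T) ⧸ N),
      R.rho Y.T ≤ R.rho ((D.comap N.mkQ).map (fst Λ Y.T Z.T)) := by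
    intro D
    refine hs.2 _ ?_
    rintro _ ⟨x, rfl⟩
    exact ⟨_, hin D x, rfl⟩
  have hY := hs.1
  have h1 := R.rho_add _ N hfn
  have h2 := R.rho_prod Y.fn Z.fn
  have hd : ∀ D : Submodule Λ ((Y.T × Z.T) ⧸ N), range (N.mkQ ∘ₗ inr Λ Y.T Z.T) ≤ D →
      R.rho ((Y.T × Z.T) ⧸ N) ≤ R.rho D := by
    intro D hD
    have h3 : (D.comap N.mkQ).comap (inr Λ Y.T Z.T) = ⊤ :=
      eq_top_iff.2 fun z _ => hD ⟨z, rfl⟩
    have h4 := hsum D
    rw [h3, R.rho_top] at h4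
    have := hA D
    omega
  have hsh : R.Sharp f → ∀ D : Submodule Λ ((Y.T × Z.T) ⧸ N),
      range (N.mkQ ∘ₗ inl Λ Y.T Z.T) ≤ D → R.rho Y.T ≤ R.rho D := by
    intro hf D hD
    have h3 : (D.comap N.mkQ).map (fst Λ Y.T Z.T) = ⊤ :=
      eq_top_iff.2 fun y _ => ⟨(y, 0), hD ⟨y, rfl⟩, rfl⟩
    have h4 := hsum D
    rw [h3, R.rho_top] at h4
    have h5 : R.rho X.T ≤ R.rho ((D.comap N.mkQ).comap (inr Λ Y.T Z.T)) := by
      refine hf _ ?_
      rintro _ ⟨x, rfl⟩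
      have h6 : ((s x, 0) : Y.T × Z.T) ∈ D.comap N.mkQ := hD ⟨s x, rfl⟩
      simpa using (D.comap N.mkQ).sub_mem h6 (hin D x)
    omega
  refine ⟨{ T := (Y.T × Z.T) ⧸ N, fn := R.fn_quot _ N hfn, nonneg := fun D => ?_ },
    N.mkQ ∘ₗ inl Λ Y.T Z.T, N.mkQ ∘ₗ inr Λ Y.T Z.T, ⟨?_, hd⟩, ?_, ?_, hsh⟩
  · have := hsum D
    have := hA D
    have := Z.nonneg ((D.comap N.mkQ).comap (inr Λ Y.T Z.T))
    omega
  · change R.rho Z.T = R.rho ((Y.T × Z.T) ⧸ N)
    omega
  · ext x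
    exact (Submodule.Quotient.eq N).2 ⟨x, by simp⟩
  · intro hf y z hyz
    obtain ⟨x, hx⟩ := (Submodule.Quotient.eq N).1 hyz
    obtain ⟨hx1, hx2⟩ := Prod.mk.inj hx
    have h0 : x = 0 := hf (by simpa using hx2)
    subst h0
    simpa [sub_eq_zero, eq_comm] using hx1

theorem kill {g : X.T →ₗ[Λ] Y.T} {i : Y.T →ₗ[Λ] Z.T} (hi : Function.Injective i)
    (hsh : R.Sharp i) {W : R.Obj} {v : Z.T →ₗ[Λ] W.T} (hv : R.IsIso' v)
    (h : v ∘ₗ i ∘ₗ g = 0) :
    ∃ (P : R.Obj) (q : Y.T →ₗ[Λ] P.T), R.IsIso' q ∧ q ∘ₗ g = 0 := by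
  have h1 := R.rho_sup Z.fn (range i) (ker v)
  have h2 := hsh _ (le_sup_left : range i ≤ range i ⊔ ker v)
  have h3 := R.isIso_ker hv
  have h4 : R.rho (range i) = R.rho Y.T :=
    (R.rho_equiv _ _ (LinearEquiv.ofInjective i hi)).symm
  have h5 := R.rho_comap i Y.fn (ker v)
  rw [ker_eq_bot.2 hi, R.rho_bot Y.fn] at h5
  have h6 := Y.nonneg ((ker v).comap i)
  have h0 : R.rho ((ker v).comap i) = 0 := by omega
  refine ⟨_, _, R.isIso_quot _ h0, ?_⟩
  ext x
  exact (Submodule.Quotient.mk_eq_zero _).2 (LinearMap.congr_fun h x)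

theorem exists_min (f : X.T →ₗ[Λ] Y.T) :
    ∃ S : Submodule Λ Y.T, range f ≤ S ∧
      ∀ A : Submodule Λ Y.T, range f ≤ A → R.rho S ≤ R.rho A := by
  classical
  have hex : ∃ n : ℕ, ∃ S : Submodule Λ Y.T, range f ≤ S ∧ R.rho S = n :=
    ⟨(R.rho (range f)).toNat, _, le_rfl, (Int.toNat_of_nonneg (Y.nonneg _)).symm⟩
  obtain ⟨S, hS, hk⟩ := Nat.find_spec hex
  refine ⟨S, hS, fun A hA => ?_⟩
  have := Nat.find_min' hex ⟨A, hA, (Int.toNat_of_nonneg (Y.nonneg A)).symm⟩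
  have := Y.nonneg A
  omega

/-- The finite modules with nonnegative submodules and their values, for the powers of `O`. -/
theorem pow_spec : ∀ q : ℕ, R.Fn (Fin q → R.O) ∧
    (∀ S : Submodule Λ (Fin q → R.O), 0 ≤ R.rho S) ∧ R.rho (Fin q → R.O) = q
  | 0 => by
    have hf : R.Fn (Fin 0 → R.O) :=
      R.fn_equiv (⊥ : Submodule Λ R.O) _
        (LinearEquiv.ofSubsingleton _ _) (R.fn_sub _ _ R.fn_O)
    refine ⟨hf, fun S => ?_, ?_⟩
    · rw [Subsingleton.elim S ⊥, R.rho_bot hf]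
    · rw [← R.rho_top, Subsingleton.elim (⊤ : Submodule Λ (Fin 0 → R.O)) ⊥, R.rho_bot hf]
      rfl
  | q + 1 => by
    obtain ⟨hf, hn, hr⟩ := pow_spec q
    let e : (R.O × (Fin q → R.O)) ≃ₗ[Λ] (Fin (q + 1) → R.O) :=
      Fin.consLinearEquiv Λ (fun _ => R.O)
    refine ⟨R.fn_equiv _ _ e (R.fn_prod _ _ R.fn_O hf), fun S => ?_, ?_⟩
    · rw [← R.rho_map_inj e.symm.toLinearMap e.symm.injective S, R.rho_prod_sub R.fn_O hf]
      exact add_nonneg (R.sub_O _) (hn _)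
    · rw [← R.rho_equiv _ _ e, R.rho_prod R.fn_O hf, R.rho_O, hr]
      push_cast
      ring

/-- The powers of the basic object. -/
@[reducible] def pow (q : ℕ) : R.Obj :=
  { T := Fin q → R.O, fn := (R.pow_spec q).1, nonneg := (R.pow_spec q).2.1 }

theorem rho_pow (q : ℕ) : R.rho (R.pow q).T = q := (R.pow_spec q).2.2

theorem dense_rho_le {q : ℕ} {g : (R.pow q).T →ₗ[Λ] Z.T} (hg : R.Dense g) : R.rho Z.T ≤ q :=
  (hg _ le_rfl).trans ((R.rho_range_le g).trans_eq (R.rho_pow q))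

/-- The inclusion of the coordinates other than `j`. -/
def skip {q : ℕ} (j : Fin (q + 1)) : (R.pow q).T →ₗ[Λ] (R.pow (q + 1)).T :=
  ∑ i : Fin q, single Λ (fun _ => R.O) (j.succAbove i) ∘ₗ proj i

theorem skip_single {q : ℕ} (j : Fin (q + 1)) (i : Fin q) (x : R.O) :
    R.skip j (Pi.single i x) = Pi.single (j.succAbove i) x := by
  rw [skip, LinearMap.sum_apply, Finset.sum_eq_single i]
  · simp
  · intro b _ hb
    simp [Pi.single_eq_of_ne hb]
  · simp

theorem dense_skip {q : ℕ} {g : (R.pow (q + 1)).T →ₗ[Λ] Z.T} (hg : R.Dense g)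
    (hlt : R.rho Z.T ≤ q) : ∃ j, R.Dense (g ∘ₗ R.skip j) := by
  by_contra hno
  have key : ∀ m : ℕ, m ≤ q + 1 → ∀ T : Submodule Λ Z.T,
      (∀ i : Fin (q + 1), (i : ℕ) < m → ∀ x, g (Pi.single i x) ∈ T) → (m : ℤ) ≤ R.rho T := by
    intro m
    induction m with
    | zero => intro _ T _; exact_mod_cast Z.nonneg T
    | succ m ih =>
      intro hm T hT
      by_contra hlt'
      push Not at hlt'
      push_cast at hlt'
      set j : Fin (q + 1) := ⟨m, hm⟩
      refine hno ⟨j, fun D hD => ?_⟩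
      have hD' : ∀ i, i ≠ j → ∀ x, g (Pi.single i x) ∈ D := by
        intro i hi x
        obtain ⟨i', rfl⟩ := Fin.exists_succAbove_eq hi
        exact hD ⟨Pi.single i' x, by rw [LinearMap.comp_apply, R.skip_single]⟩
      have h1 := ih (by omega) (D ⊓ T) fun i hi x =>
        ⟨hD' i (fun h => by rw [h] at hi; exact lt_irrefl _ hi) x, hT i (by omega) x⟩
      have h2 := hg (D ⊔ T) (by
        rintro _ ⟨v, rfl⟩
        rw [← Finset.univ_sum_single v, map_sum]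
        refine Submodule.sum_mem _ fun i _ => ?_
        by_cases h : i = j
        · subst h; exact Submodule.mem_sup_right (hT j (Nat.lt_succ_self m) _)
        · exact Submodule.mem_sup_left (hD' i h _))
      have h3 := R.rho_sup Z.fn D T
      omega
  have := key (q + 1) le_rfl ⊤ fun _ _ _ => Submodule.mem_top
  rw [R.rho_top] at this
  omega

end RhoData

end Vale.Agent.P200.Deg
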