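import Mathlib

/-!
Interface of the calculus of fractions for an integer rank function on modules
(notes/P200_helper10_free_field_v2.md, section 1).
-/

namespace Vale.Agent.P200.Deg

open Module

universe u

/-- An additive integer function on the finite modules over an `L`-algebra, with a basic module of
value one all of whose submodules have nonnegative value. -/
structure RhoData (L : Type u) [Field L] (Λ : Type u) [Ring Λ] [Algebra L Λ] where
  /-- the finite modules -/
  Fn : ∀ (M : Type u) [AddCommGroup M] [Module Λ M], Prop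
  /-- the value -/
  rho : ∀ (M : Type u) [AddCommGroup M] [Module Λ M], ℤ
  noeth : ∀ (M : Type u) [AddCommGroup M] [Module Λ M], Fn M → IsNoetherian Λ M
  fn_equiv : ∀ (M N : Type u) [AddCommGroup M] [Module Λ M] [AddCommGroup N] [Module Λ N],
    (M ≃ₗ[Λ] N) → Fn M → Fn N
  fn_prod : ∀ (M N : Type u) [AddCommGroup M] [Module Λ M] [AddCommGroup N] [Module Λ N],
    Fn M → Fn N → Fn (M × N)
  fn_sub : ∀ (M : Type u) [AddCommGroup M] [Module Λ M] (S : Submodule Λ M), Fn M → Fn S
  fn_quot : ∀ (M : Type u) [AddCommGroup M] [Module Λ M] (S : Submodule Λ M), Fn M → Fn (M ⧸ S)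
  rho_equiv : ∀ (M N : Type u) [AddCommGroup M] [Module Λ M] [AddCommGroup N] [Module Λ N],
    (M ≃ₗ[Λ] N) → rho M = rho N
  rho_add : ∀ (M : Type u) [AddCommGroup M] [Module Λ M] (S : Submodule Λ M), Fn M →
    rho M = rho S + rho (M ⧸ S)
  /-- the basic module -/
  O : Type u
  grpO : AddCommGroup O
  modO : Module Λ O
  fn_O : Fn O
  rho_O : rho O = 1
  sub_O : ∀ S : Submodule Λ O, 0 ≤ rho S

attribute [instance] RhoData.grpO RhoData.modO

variable {L : Type u} [Field L] {Λ : Type u} [Ring Λ] [Algebra L Λ]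

namespace RhoData

variable (R : RhoData L Λ)

/-- Finite modules all of whose submodules have nonnegative value. -/
structure Obj where
  /-- the module -/
  T : Type u
  [grp : AddCommGroup T]
  [mod : Module Λ T]
  fn : R.Fn T
  nonneg : ∀ S : Submodule Λ T, 0 ≤ R.rho S

attribute [instance] RhoData.Obj.grp RhoData.Obj.mod

/-- The basic object. -/
def one : R.Obj := { T := R.O, fn := R.fn_O, nonneg := R.sub_O }

/-- Maps preserving the value such that no submodule containing the image has a smaller one. -/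
def IsIso' {X Y : R.Obj} (s : X.T →ₗ[Λ] Y.T) : Prop :=
  R.rho X.T = R.rho Y.T ∧ ∀ S : Submodule Λ Y.T, LinearMap.range s ≤ S → R.rho Y.T ≤ R.rho S

/-- The least value of a submodule containing the image. -/
def IsMinRho {X Y : R.Obj} (f : X.T →ₗ[Λ] Y.T) (k : ℤ) : Prop :=
  (∃ S : Submodule Λ Y.T, LinearMap.range f ≤ S ∧ R.rho S = k) ∧
    ∀ S : Submodule Λ Y.T, LinearMap.range f ≤ S → k ≤ R.rho S

/-- Objects reached from a power of the basic one. -/
def IsFree' (X : R.Obj) : Prop :=
  ∃ (q : ℕ) (h : R.Fn (Fin q → R.O)) (h' : ∀ S : Submodule Λ (Fin q → R.O), 0 ≤ R.rho S)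
    (s : (Fin q → R.O) →ₗ[Λ] X.T),
    R.IsIso' (X := { T := Fin q → R.O, fn := h, nonneg := h' }) s

/-- The localised functor: a division algebra `E` and vector spaces `F X`, where `F R.one` is the
line through `unit`; rho-isos become bijections and the rank of a map is the least value. -/
structure Frac where
  /-- the division ring -/
  E : Type u
  [div : DivisionRing E]
  [alg : Algebra L E]
  /-- the spaces -/
  F : R.Obj → Type u
  [grpF : ∀ X, AddCommGroup (F X)]
  [modF : ∀ X, Module E (F X)]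
  /-- the maps -/
  map : ∀ {X Y : R.Obj}, (X.T →ₗ[Λ] Y.T) → (F X →ₗ[E] F Y)
  map_id : ∀ X : R.Obj, map (LinearMap.id : X.T →ₗ[Λ] X.T) = LinearMap.id
  map_comp : ∀ {X Y Z : R.Obj} (f : X.T →ₗ[Λ] Y.T) (g : Y.T →ₗ[Λ] Z.T),
    map (g ∘ₗ f) = (map g).comp (map f)
  map_add : ∀ {X Y : R.Obj} (f g : X.T →ₗ[Λ] Y.T), map (f + g) = map f + map g
  map_scalar : ∀ {X Y : R.Obj} (c : L) (f h : X.T →ₗ[Λ] Y.T),
    (∀ x, h x = algebraMap L Λ c • f x) → ∀ φ, map h φ = algebraMap L E c • map f φ
  /-- the generator -/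
  unit : F R.one
  unit_bij : Function.Bijective fun e : E => e • unit
  iso_bij : ∀ {X Y : R.Obj} (s : X.T →ₗ[Λ] Y.T), R.IsIso' s → Function.Bijective (map s)
  frac : ∀ {X : R.Obj} (φ : F X), ∃ (Y : R.Obj) (f : R.one.T →ₗ[Λ] Y.T) (s : X.T →ₗ[Λ] Y.T),
    R.IsIso' s ∧ map s φ = map f unit
  free_finrank : ∀ {X : R.Obj}, R.IsFree' X →
    FiniteDimensional E (F X) ∧ (finrank E (F X) : ℤ) = R.rho X.T
  rank : ∀ {X Y : R.Obj} (f : X.T →ₗ[Λ] Y.T), R.IsFree' X → R.IsFree' Y →
    ∃ k, R.IsMinRho f k ∧ (finrank E (LinearMap.range (map f)) : ℤ) = k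

end RhoData

/-- Target of the calculus. -/
def CalcGoal : Prop :=
  ∀ (L : Type u) [Field L] (Λ : Type u) [Ring Λ] [Algebra L Λ] (R : RhoData L Λ),
    Nonempty R.Frac

end Vale.Agent.P200.Deg
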