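import Vale.Agent.P200.Deg.CalcRho

/-!
The calculus of fractions of the rho-isos: a division algebra and spaces in which the rank of a
map is the least value of a submodule containing its image
(notes/P200_helper10_free_field_v2.md, section 1).
-/

namespace Vale.Agent.P200.Deg

open Module CategoryTheory MorphismProperty

universe u

variable {L : Type u} [Field L] {Λ : Type u} [Ring Λ] [Algebra L Λ]

namespace RhoData

variable (R : RhoData L Λ)

/-- A small representative of an object: a quotient of a finite free module. -/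
structure Rep : Type u where
  /-- the number of generators -/
  q : ℕ
  /-- the relations -/
  N : Submodule Λ (Fin q → Λ)
  fn : R.Fn ((Fin q → Λ) ⧸ N)
  nonneg : ∀ S : Submodule Λ ((Fin q → Λ) ⧸ N), 0 ≤ R.rho S

/-- The object of a representative. -/
@[reducible] def Rep.obj {R : RhoData L Λ} (a : R.Rep) : R.Obj :=
  { T := (Fin a.q → Λ) ⧸ a.N, fn := a.fn, nonneg := a.nonneg }

theorem exists_rep (X : R.Obj) : ∃ a : R.Rep, Nonempty (a.obj.T ≃ₗ[Λ] X.T) := by
  have := R.noeth X.T X.fn
  obtain ⟨q, f, hf⟩ := Module.Finite.exists_fin' Λ X.T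
  let e := f.quotKerEquivOfSurjective hf
  refine ⟨⟨q, LinearMap.ker f, R.fn_equiv _ _ e.symm X.fn, fun S => ?_⟩, ⟨e⟩⟩
  rw [← R.rho_map_inj e.toLinearMap e.injective S]
  exact X.nonneg _

/-- A chosen representative. -/
noncomputable def rep (X : R.Obj) : R.Rep := (R.exists_rep X).choose

/-- The isomorphism with the chosen representative. -/
noncomputable def repEquiv (X : R.Obj) : (R.rep X).obj.T ≃ₗ[Λ] X.T :=
  (R.exists_rep X).choose_spec.some

instance repCategory : Category.{u} R.Rep where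
  Hom a b := a.obj.T →ₗ[Λ] b.obj.T
  id _ := LinearMap.id
  comp f g := g ∘ₗ f

instance repPreadditive : Preadditive R.Rep where
  homGroup a b := inferInstanceAs (AddCommGroup (a.obj.T →ₗ[Λ] b.obj.T))
  add_comp _ _ _ _ _ g := LinearMap.comp_add _ _ g
  comp_add _ _ _ _ _ _ := LinearMap.add_comp _ _ _

/-- A morphism as a linear map. -/
abbrev lin {a b : R.Rep} (f : a ⟶ b) : a.obj.T →ₗ[Λ] b.obj.T := f

/-- The rho-isos between representatives. -/
def isos : MorphismProperty R.Rep := fun a b s => R.IsIso' (X := a.obj) (Y := b.obj) s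

/-- A map into the representative of its target. -/
noncomputable def intoRep {X Y : R.Obj} (f : X.T →ₗ[Λ] Y.T) : X.T →ₗ[Λ] (R.rep Y).obj.T :=
  (R.repEquiv Y).symm.toLinearMap ∘ₗ f

theorem isIso_intoRep {X Y : R.Obj} {f : X.T →ₗ[Λ] Y.T} (h : R.IsIso' f) :
    R.IsIso' (R.intoRep f) :=
  R.isIso_comp h (R.isIso_equiv (R.repEquiv Y).symm)

/-- A map between representatives. -/
noncomputable def conj {X Y : R.Obj} (f : X.T →ₗ[Λ] Y.T) : R.rep X ⟶ R.rep Y :=
  R.intoRep f ∘ₗ (R.repEquiv X).toLinearMap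

theorem isos_conj {X Y : R.Obj} {f : X.T →ₗ[Λ] Y.T} (h : R.IsIso' f) : R.isos (R.conj f) :=
  R.isIso_comp (R.isIso_equiv (R.repEquiv X)) (R.isIso_intoRep h)

theorem conj_comp {X Y Z : R.Obj} (f : X.T →ₗ[Λ] Y.T) (g : Y.T →ₗ[Λ] Z.T) :
    R.conj (g ∘ₗ f) = R.conj f ≫ R.conj g := by
  refine LinearMap.ext fun x => ?_
  show (R.repEquiv Z).symm (g (f (R.repEquiv X x))) =
    (R.repEquiv Z).symm (g (R.repEquiv Y ((R.repEquiv Y).symm (f (R.repEquiv X x)))))
  rw [LinearEquiv.apply_symm_apply]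

theorem conj_id (X : R.Obj) : R.conj (LinearMap.id : X.T →ₗ[Λ] X.T) = 𝟙 (R.rep X) :=
  LinearMap.ext fun x => (R.repEquiv X).symm_apply_apply x

theorem conj_add {X Y : R.Obj} (f g : X.T →ₗ[Λ] Y.T) : R.conj (f + g) = R.conj f + R.conj g :=
  LinearMap.ext fun _ => map_add (R.repEquiv Y).symm _ _

instance : R.isos.IsMultiplicative where
  id_mem a := R.isIso_equiv (LinearEquiv.refl Λ a.obj.T)
  comp_mem _ _ hf hg := R.isIso_comp hf hg

instance : R.isos.HasLeftCalculusOfFractions where
  exists_leftFraction X Y φ := by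
    obtain ⟨P, g, t, ht, heq, -, -⟩ := R.pushout φ.hs φ.f
    refine ⟨⟨R.intoRep g, R.intoRep t, R.isIso_intoRep ht⟩, LinearMap.ext fun x => ?_⟩
    exact congrArg (R.repEquiv P).symm (LinearMap.congr_fun heq x).symm
  ext := fun X' X Y f₁ f₂ s hs h => by
    obtain ⟨P, q, hq, hqf⟩ := R.cancel hs (f₁ - f₂ : X.obj.T →ₗ[Λ] Y.obj.T)
      (LinearMap.ext fun x => sub_eq_zero.2 (LinearMap.congr_fun h x))
    refine ⟨R.rep P, R.intoRep q, R.isIso_intoRep hq, LinearMap.ext fun x => ?_⟩
    have h1 : q (R.lin f₁ x - R.lin f₂ x) = 0 := LinearMap.congr_fun hqf x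
    rw [map_sub, sub_eq_zero] at h1
    exact congrArg (R.repEquiv P).symm h1

/-- The functor to the localised category. -/
noncomputable abbrev loc : R.Rep ⥤ R.isos.Localization := R.isos.Q

/-- The image of the basic object. -/
noncomputable abbrev base : R.isos.Localization := R.loc.obj (R.rep R.one)

theorem loc_isIso {a b : R.Rep} (s : a ⟶ b) (hs : R.isos s) : CategoryTheory.IsIso (R.loc.map s) :=
  Localization.inverts R.loc R.isos s hs

theorem loc_eq_zero {a b : R.Rep} (f : a ⟶ b) {P : R.Obj} (q : b.obj.T →ₗ[Λ] P.T)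
    (hq : R.IsIso' q) (h : q ∘ₗ f = 0) : R.loc.map f = 0 := by
  rw [← R.loc.map_zero]
  refine (MorphismProperty.map_eq_iff_postcomp R.loc R.isos f 0).2
    ⟨R.rep P, R.intoRep q, R.isIso_intoRep hq, LinearMap.ext fun x => ?_⟩
  refine congrArg (R.repEquiv P).symm ?_
  exact (LinearMap.congr_fun h x).trans (map_zero q).symm

theorem rho_rep_one : R.rho (R.rep R.one).obj.T = 1 :=
  (R.rho_equiv _ _ (R.repEquiv R.one)).trans R.rho_O

theorem base_unit_or_zero (e : End R.base) : IsUnit e ∨ e = 0 := by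
  obtain ⟨φ, hφ⟩ := Localization.exists_leftFraction R.loc R.isos e
  have hs := R.loc_isIso φ.s φ.hs
  have hrho : R.rho (R.rep R.one).obj.T = R.rho φ.Y'.obj.T := φ.hs.1
  by_cases hd : R.Dense (X := (R.rep R.one).obj) (Y := φ.Y'.obj) φ.f
  · left
    have hf := R.loc_isIso φ.f ⟨hrho, hd⟩
    rw [CategoryTheory.isUnit_iff_isIso, hφ]
    exact IsIso.comp_isIso' hf (IsIso.inv_isIso)
  · right
    simp only [Dense, not_forall, not_le] at hd
    obtain ⟨S, hS, hlt⟩ := hd
    have h5 : R.rho S < 1 := lt_of_lt_of_eq hlt (hrho.symm.trans R.rho_rep_one)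
    have h6 : (0 : ℤ) ≤ R.rho S := φ.Y'.nonneg S
    have h0 : R.rho S = 0 := by omega
    have hz := R.loc_eq_zero φ.f (P := R.quotObj φ.Y'.obj S h0) S.mkQ
      (R.isIso_quot (X := φ.Y'.obj) S h0)
      (LinearMap.ext fun x => (Submodule.Quotient.mk_eq_zero S).2 (hS ⟨x, rfl⟩))
    rw [hφ, LeftFraction.map, hz]
    exact Limits.zero_comp

instance base_nontrivial : Nontrivial (End R.base) := by
  refine ⟨⟨𝟙 R.base, 0, fun h => ?_⟩⟩
  rw [← R.loc.map_id, ← R.loc.map_zero] at h
  obtain ⟨Z, s, hs, hz⟩ := (MorphismProperty.map_eq_iff_postcomp R.loc R.isos _ _).1 h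
  have h1 := hs.2 ⊥ (by
    rintro _ ⟨x, rfl⟩
    exact (LinearMap.congr_fun hz x).trans (map_zero (R.lin s)))
  rw [R.rho_bot Z.fn, ← hs.1, R.rho_rep_one] at h1
  omega

noncomputable instance baseDivisionRing : DivisionRing (End R.base) :=
  DivisionRing.ofIsUnitOrEqZero R.base_unit_or_zero

/-- The division ring. -/
abbrev divRing : Type u := (End R.base)ᵐᵒᵖ

noncomputable instance homModule (Z : R.isos.Localization) : Module R.divRing (R.base ⟶ Z) where
  smul e φ := e.unop ≫ φ
  one_smul φ := Category.id_comp φ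
  mul_smul e e' φ := Category.assoc e.unop e'.unop φ
  smul_zero _ := Limits.comp_zero
  smul_add _ _ _ := Preadditive.comp_add _ _ _ _ _ _
  add_smul _ _ _ := Preadditive.add_comp _ _ _ _ _ _
  zero_smul _ := Limits.zero_comp

/-- The space of an object. -/
abbrev space (X : R.Obj) : Type u := R.base ⟶ R.loc.obj (R.rep X)

/-- The map of spaces of a map. -/
noncomputable def push {X Y : R.Obj} (f : X.T →ₗ[Λ] Y.T) :
    R.space X →ₗ[R.divRing] R.space Y where
  toFun φ := φ ≫ R.loc.map (R.conj f)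
  map_add' _ _ := Preadditive.add_comp _ _ _ _ _ _
  map_smul' _ _ := Category.assoc _ _ _

theorem push_id (X : R.Obj) : R.push (LinearMap.id : X.T →ₗ[Λ] X.T) = LinearMap.id :=
  LinearMap.ext fun φ => show φ ≫ _ = φ by rw [R.conj_id, R.loc.map_id, Category.comp_id]

theorem push_comp {X Y Z : R.Obj} (f : X.T →ₗ[Λ] Y.T) (g : Y.T →ₗ[Λ] Z.T) :
    R.push (g ∘ₗ f) = (R.push g).comp (R.push f) :=
  LinearMap.ext fun φ => show φ ≫ _ = (φ ≫ _) ≫ _ by
    rw [R.conj_comp, R.loc.map_comp, Category.assoc]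

theorem push_add {X Y : R.Obj} (f g : X.T →ₗ[Λ] Y.T) : R.push (f + g) = R.push f + R.push g :=
  LinearMap.ext fun φ => show φ ≫ _ = φ ≫ _ + φ ≫ _ by
    rw [R.conj_add, R.loc.map_add, Preadditive.comp_add]

theorem push_sum {X Y : R.Obj} {ι : Type*} (s : Finset ι) (f : ι → (X.T →ₗ[Λ] Y.T)) :
    R.push (∑ i ∈ s, f i) = ∑ i ∈ s, R.push (f i) :=
  map_sum (AddMonoidHom.mk' (R.push (X := X) (Y := Y)) R.push_add) f s

theorem push_zero {X Y : R.Obj} : R.push (0 : X.T →ₗ[Λ] Y.T) = 0 :=
  map_zero (AddMonoidHom.mk' (R.push (X := X) (Y := Y)) R.push_add)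

theorem push_iso {X Y : R.Obj} (s : X.T →ₗ[Λ] Y.T) (hs : R.IsIso' s) :
    Function.Bijective (R.push s) := by
  have := R.loc_isIso _ (R.isos_conj hs)
  refine ⟨fun φ ψ h => ?_, fun ψ => ⟨ψ ≫ inv (R.loc.map (R.conj s)), ?_⟩⟩
  · exact (cancel_mono _).1 h
  · show (ψ ≫ _) ≫ _ = ψ
    simp

/-- The generator. -/
noncomputable def gen : R.space R.one := 𝟙 R.base

theorem gen_bij : Function.Bijective fun e : R.divRing => e • R.gen := by
  have h : (fun e : R.divRing => e • R.gen) = MulOpposite.unop :=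
    funext fun e => Category.comp_id _
  rw [h]
  exact MulOpposite.unop_bijective

theorem push_frac {X : R.Obj} (φ : R.space X) : ∃ (Y : R.Obj) (f : R.one.T →ₗ[Λ] Y.T)
    (s : X.T →ₗ[Λ] Y.T), R.IsIso' s ∧ R.push s φ = R.push f R.gen := by
  obtain ⟨z, rfl⟩ := Localization.exists_leftFraction R.loc R.isos φ
  let t : z.Y' ⟶ R.rep z.Y'.obj := (R.repEquiv z.Y'.obj).symm.toLinearMap
  let f : R.one.T →ₗ[Λ] z.Y'.obj.T :=
    R.lin z.f ∘ₗ (R.repEquiv R.one).symm.toLinearMap
  let s : X.T →ₗ[Λ] z.Y'.obj.T :=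
    R.lin z.s ∘ₗ (R.repEquiv X).symm.toLinearMap
  have hs : R.conj s = z.s ≫ t := LinearMap.ext fun x =>
    congrArg (fun y => (R.repEquiv z.Y'.obj).symm (R.lin z.s y))
      ((R.repEquiv X).symm_apply_apply x)
  have hf : R.conj f = z.f ≫ t := LinearMap.ext fun x =>
    congrArg (fun y => (R.repEquiv z.Y'.obj).symm (R.lin z.f y))
      ((R.repEquiv R.one).symm_apply_apply x)
  refine ⟨z.Y'.obj, f, s, R.isIso_comp (R.isIso_equiv (R.repEquiv X).symm) z.hs, ?_⟩
  show z.map R.loc (Localization.inverts R.loc R.isos) ≫ R.loc.map (R.conj s) =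
    𝟙 R.base ≫ R.loc.map (R.conj f)
  rw [hs, hf, R.loc.map_comp, R.loc.map_comp, LeftFraction.map_comp_map_s_assoc,
    Category.id_comp]

theorem push_injective {X Y : R.Obj} (i : X.T →ₗ[Λ] Y.T) (hi : Function.Injective i)
    (hsh : R.Sharp i) : Function.Injective (R.push i) := by
  rw [← LinearMap.ker_eq_bot, LinearMap.ker_eq_bot']
  intro φ h
  obtain ⟨z, rfl⟩ := Localization.exists_leftFraction R.loc R.isos φ
  let t : X.T →ₗ[Λ] z.Y'.obj.T :=
    R.lin z.s ∘ₗ (R.repEquiv X).symm.toLinearMap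
  obtain ⟨P, i', t', ht', heq, hinj, hsharp⟩ :=
    R.pushout (s := t) (R.isIso_comp (R.isIso_equiv (R.repEquiv X).symm) z.hs) i
  let p : z.Y' ⟶ R.rep P := R.intoRep i'
  have hp : z.s ≫ p = R.conj i ≫ R.conj t' := by
    rw [← R.conj_comp, ← heq]
    exact LinearMap.ext fun x => (congrArg (fun y => (R.repEquiv P).symm
      (i' (R.lin z.s y))) ((R.repEquiv X).symm_apply_apply x)).symm
  have h0 : R.loc.map (z.f ≫ p) = R.loc.map 0 := by
    rw [R.loc.map_comp, ← LeftFraction.map_comp_map_s z R.loc (Localization.inverts _ _),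
      Category.assoc, ← R.loc.map_comp, hp, R.loc.map_comp, ← Category.assoc,
      show _ ≫ R.loc.map (R.conj i) = 0 from h, Limits.zero_comp, R.loc.map_zero]
  obtain ⟨Z, v, hv, hvz⟩ := (MorphismProperty.map_eq_iff_postcomp R.loc R.isos _ _).1 h0
  obtain ⟨P', q, hq, hqg⟩ := R.kill (g := R.lin z.f)
    (hinj hi) (hsharp hsh) (W := Z.obj)
    (R.isIso_comp (R.isIso_equiv (R.repEquiv P).symm) hv)
    (LinearMap.ext fun x => (LinearMap.congr_fun hvz x).trans
      (map_zero (R.lin v)))
  rw [LeftFraction.map, R.loc_eq_zero z.f q hq hqg]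
  exact Limits.zero_comp

theorem free_pow (q : ℕ) : R.IsFree' (R.pow q) :=
  ⟨q, (R.pow q).fn, (R.pow q).nonneg, LinearMap.id,
    R.isIso_equiv (X := R.pow q) (Y := R.pow q) (LinearEquiv.refl Λ _)⟩

theorem dense_surjective : ∀ (q : ℕ) {Z : R.Obj} (g : (R.pow q).T →ₗ[Λ] Z.T), R.Dense g →
    Function.Surjective (R.push g) ∧ R.IsFree' Z := by
  intro q
  induction q with
  | zero =>
    intro Z g hg
    have hs : R.IsIso' g := ⟨by
      have h1 := R.dense_rho_le hg
      have h2 := R.rho_pow 0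
      have h3 := Z.nonneg ⊤
      rw [R.rho_top] at h3
      omega, hg⟩
    exact ⟨(R.push_iso g hs).2, ⟨0, _, _, g, hs⟩⟩
  | succ q ih =>
    intro Z g hg
    by_cases hz : R.rho Z.T = (q + 1 : ℕ)
    · have hs : R.IsIso' g := ⟨(R.rho_pow (q + 1)).trans hz.symm, hg⟩
      exact ⟨(R.push_iso g hs).2, ⟨q + 1, _, _, g, hs⟩⟩
    · have h1 := R.dense_rho_le hg
      obtain ⟨j, hj⟩ := R.dense_skip hg (by omega)
      obtain ⟨hsur, hfree⟩ := ih _ hj
      rw [R.push_comp, LinearMap.coe_comp] at hsur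
      exact ⟨hsur.of_comp, hfree⟩

/-- The coordinates on the space of an object that is a sum of copies of another one. -/
noncomputable def sumEquiv {P A : R.Obj} {q : ℕ} (p : Fin q → (P.T →ₗ[Λ] A.T))
    (ι : Fin q → (A.T →ₗ[Λ] P.T)) (hd : ∀ i j, j = i → p j ∘ₗ ι i = LinearMap.id)
    (ho : ∀ i j, j ≠ i → p j ∘ₗ ι i = 0) (hs : ∑ i, ι i ∘ₗ p i = LinearMap.id) :
    R.space P ≃ₗ[R.divRing] (Fin q → R.space A) :=
  LinearEquiv.ofLinearMap (LinearMap.pi fun i => R.push (p i))
    (∑ i, (R.push (ι i)).comp (LinearMap.proj i))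
    (LinearMap.ext fun v => funext fun j => by
      rw [LinearMap.comp_apply, LinearMap.pi_apply, LinearMap.sum_apply, map_sum,
        Finset.sum_eq_single j]
      · show ((R.push (p j)).comp (R.push (ι j))) (v j) = v j
        rw [← R.push_comp, hd j j rfl, R.push_id]
        rfl
      · intro i _ hi
        show ((R.push (p j)).comp (R.push (ι i))) (v i) = 0
        rw [← R.push_comp, ho i j hi.symm, R.push_zero]
        rfl
      · simp)
    (by
      rw [show (∑ i, (R.push (ι i)).comp (LinearMap.proj i)).comp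
          (LinearMap.pi fun i => R.push (p i)) = ∑ i, R.push (ι i ∘ₗ p i) from
        LinearMap.ext fun x => by simp [R.push_comp], ← R.push_sum, hs, R.push_id])

/-- A coordinate of a power of the basic object. -/
def coord (q : ℕ) (i : Fin q) : (R.pow q).T →ₗ[Λ] R.one.T :=
  (LinearMap.proj (φ := fun _ : Fin q => R.O) (R := Λ) i :)

/-- The inclusion of a coordinate of a power of the basic object. -/
def incl (q : ℕ) (i : Fin q) : R.one.T →ₗ[Λ] (R.pow q).T :=
  (LinearMap.single Λ (fun _ : Fin q => R.O) i :)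

/-- The coordinates on the space of a power. -/
noncomputable def powEquiv (q : ℕ) : R.space (R.pow q) ≃ₗ[R.divRing] (Fin q → R.space R.one) :=
  R.sumEquiv (R.coord q) (R.incl q)
    (fun i j h => by
      subst h
      exact LinearMap.ext fun x => Pi.single_eq_same (M := fun _ : Fin q => R.O) j x)
    (fun i j h => LinearMap.ext fun x =>
      Pi.single_eq_of_ne (M := fun _ : Fin q => R.O) h x)
    (LinearMap.ext fun v => by
      rw [LinearMap.sum_apply]
      exact (Finset.univ_sum_single (M := fun _ : Fin q => R.O) v))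

theorem free_finrank {X : R.Obj} (hX : R.IsFree' X) :
    FiniteDimensional R.divRing (R.space X) ∧
      (finrank R.divRing (R.space X) : ℤ) = R.rho X.T := by
  obtain ⟨q, h, h', s, hs⟩ := hX
  let e1 : R.divRing ≃ₗ[R.divRing] R.space R.one :=
    LinearEquiv.ofBijective (LinearMap.toSpanSingleton R.divRing _ R.gen) R.gen_bij
  let e : R.space X ≃ₗ[R.divRing] (Fin q → R.divRing) :=
    ((LinearEquiv.ofBijective (R.push (X := R.pow q) s) (R.push_iso (X := R.pow q) s hs)).symm.trans
      (R.powEquiv q)).trans (LinearEquiv.piCongrRight fun _ => e1.symm)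
  refine ⟨Module.Finite.equiv e.symm, ?_⟩
  rw [e.finrank_eq, finrank_fin_fun, ← hs.1, ← R.rho_pow q]

theorem push_rank {X Y : R.Obj} (f : X.T →ₗ[Λ] Y.T) (hX : R.IsFree' X) :
    ∃ k, R.IsMinRho f k ∧ (finrank R.divRing (LinearMap.range (R.push f)) : ℤ) = k := by
  obtain ⟨q, h, h', s, hs⟩ := hX
  obtain ⟨S, hS, hmin⟩ := R.exists_min f
  refine ⟨R.rho S, ⟨⟨S, hS, rfl⟩, hmin⟩, ?_⟩
  let f' : X.T →ₗ[Λ] (R.subObj Y S).T := f.codRestrict S fun x => hS ⟨x, rfl⟩
  let i : (R.subObj Y S).T →ₗ[Λ] Y.T := S.subtype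
  have hf' : R.Dense f' := by
    intro A hA
    change R.rho S ≤ R.rho A
    rw [← R.rho_map_inj S.subtype S.injective_subtype A]
    refine hmin _ ?_
    rintro _ ⟨x, rfl⟩
    exact ⟨f' x, hA ⟨x, rfl⟩, rfl⟩
  have hd : R.Dense (X := R.pow q) (f' ∘ₗ s) := R.dense_comp (X := R.pow q) hs.dense hf'
  obtain ⟨hsur, hfree⟩ := R.dense_surjective q _ hd
  rw [R.push_comp (X := R.pow q), LinearMap.coe_comp] at hsur
  have hinj : Function.Injective (R.push i) := R.push_injective i S.injective_subtype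
    fun A hA => hmin A (le_trans (fun y hy => hA ⟨⟨y, hS hy⟩, rfl⟩) le_rfl)
  have hfac : R.push f = (R.push i).comp (R.push f') := R.push_comp f' i
  rw [hfac, LinearMap.range_comp, LinearMap.range_eq_top.2 hsur.of_comp, Submodule.map_top,
    LinearMap.finrank_range_of_inj hinj]
  exact (R.free_finrank hfree).2

/-- The scalar endomorphism of a representative. -/
def scal (a : R.Rep) (c : L) : a ⟶ a :=
  show a.obj.T →ₗ[Λ] a.obj.T from
  { toFun := fun x => algebraMap L Λ c • x
    map_add' := smul_add _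
    map_smul' := fun l x => by
      simp only [RingHom.id_apply, ← mul_smul, Algebra.commutes c l] }

theorem scal_natural {a b : R.Rep} (c : L) (f : a ⟶ b) : R.scal a c ≫ f = f ≫ R.scal b c :=
  LinearMap.ext fun x => LinearMap.map_smul (f : a.obj.T →ₗ[Λ] b.obj.T) (algebraMap L Λ c) x

theorem loc_scal_natural {a b : R.Rep} (c : L) (φ : R.loc.obj a ⟶ R.loc.obj b) :
    R.loc.map (R.scal a c) ≫ φ = φ ≫ R.loc.map (R.scal b c) := by
  obtain ⟨z, rfl⟩ := Localization.exists_leftFraction R.loc R.isos φ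
  have := R.loc_isIso z.s z.hs
  rw [← cancel_mono (R.loc.map z.s), Category.assoc, Category.assoc, ← R.loc.map_comp,
    R.scal_natural, R.loc.map_comp, LeftFraction.map_comp_map_s,
    LeftFraction.map_comp_map_s_assoc, ← R.loc.map_comp, ← R.loc.map_comp, R.scal_natural]

/-- The scalars in the division ring. -/
noncomputable def scalHom : L →+* R.divRing where
  toFun c := MulOpposite.op (R.loc.map (R.scal (R.rep R.one) c))
  map_one' := by
    refine congrArg MulOpposite.op ((congrArg R.loc.map (?_ : R.scal _ 1 = 𝟙 _)).trans (R.loc.map_id _))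
    exact LinearMap.ext fun x => (congrArg (· • x) (map_one (algebraMap L Λ))).trans (one_smul _ _)
  map_mul' c d := by
    refine congrArg MulOpposite.op ((congrArg R.loc.map (?_ : _ = R.scal _ c ≫ R.scal _ d)).trans
      (R.loc.map_comp _ _))
    refine LinearMap.ext fun x => ?_
    show algebraMap L Λ (c * d) • x = algebraMap L Λ d • algebraMap L Λ c • x
    rw [mul_comm, map_mul, mul_smul]
  map_zero' := by
    refine congrArg MulOpposite.op ((congrArg R.loc.map (?_ : R.scal _ 0 = 0)).trans (R.loc.map_zero _ _))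
    exact LinearMap.ext fun x => (congrArg (· • x) (map_zero (algebraMap L Λ))).trans (zero_smul _ _)
  map_add' c d := by
    refine congrArg MulOpposite.op ((congrArg R.loc.map (?_ : _ = R.scal _ c + R.scal _ d)).trans
      R.loc.map_add)
    exact LinearMap.ext fun x => (congrArg (· • x) (map_add (algebraMap L Λ) c d)).trans (add_smul _ _ _)

theorem scalHom_central (c : L) (e : R.divRing) : R.scalHom c * e = e * R.scalHom c :=
  MulOpposite.unop_injective (R.loc_scal_natural c e.unop)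

noncomputable instance divAlgebra : Algebra L R.divRing :=
  R.scalHom.toAlgebra' R.scalHom_central

theorem push_scalar {X Y : R.Obj} (c : L) (f h : X.T →ₗ[Λ] Y.T)
    (hh : ∀ x, h x = algebraMap L Λ c • f x) (φ : R.space X) :
    R.push h φ = algebraMap L R.divRing c • R.push f φ := by
  have h1 : R.conj h = R.conj f ≫ R.scal (R.rep Y) c := LinearMap.ext fun x => by
    show (R.repEquiv Y).symm (h _) = algebraMap L Λ c • (R.repEquiv Y).symm (f _)
    rw [hh, map_smul]
  show φ ≫ R.loc.map (R.conj h) = R.loc.map (R.scal _ c) ≫ φ ≫ R.loc.map (R.conj f)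
  rw [h1, R.loc.map_comp, ← Category.assoc, R.loc_scal_natural]

end RhoData

/-- The calculus of fractions. -/
theorem calcGoal : CalcGoal.{u} := fun _ _ _ _ _ R =>
  ⟨{ E := R.divRing
     F := R.space
     map := R.push
     map_id := R.push_id
     map_comp := R.push_comp
     map_add := R.push_add
     map_scalar := R.push_scalar
     unit := R.gen
     unit_bij := R.gen_bij
     iso_bij := R.push_iso
     frac := R.push_frac
     free_finrank := R.free_finrank
     rank := fun f hX _ => R.push_rank f hX }⟩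

end Vale.Agent.P200.Deg
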