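import Vale.Agent.P200.Deg.Block

/-!
Common denominators, powers of an object of value one, and ranks of matrices.
-/

namespace Vale.Agent.P200.Deg

open Module

universe u

attribute [local instance] RhoData.Frac.div RhoData.Frac.alg RhoData.Frac.grpF RhoData.Frac.modF

variable {L : Type u} [Field L] {Λ : Type u} [Ring Λ] [Algebra L Λ] {R : RhoData L Λ}

namespace RhoData.Frac

variable (C : R.Frac)

/-- Finitely many elements have one denominator. -/
theorem exists_denom : ∀ (m : ℕ) (c : Fin m → C.E), ∃ (Y : R.Obj) (t : R.one.T →ₗ[Λ] Y.T)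
    (f : Fin m → (R.one.T →ₗ[Λ] Y.T)), R.IsIso' t ∧
      ∀ i, C.map (f i) C.unit = c i • C.map t C.unit
  | 0, _ => ⟨R.one, LinearMap.id, Fin.elim0, ⟨rfl, fun S hS => by
      rw [LinearMap.range_id, top_le_iff] at hS
      rw [hS, R.rho_top]⟩, fun i => i.elim0⟩
  | m + 1, c => by
    obtain ⟨Y, t, f, ht, hf⟩ := exists_denom m (fun i => c i.succ)
    obtain ⟨Y', f0, s, hs, hf0⟩ := C.frac (c 0 • C.map t C.unit)
    refine ⟨Y', s ∘ₗ t, Fin.cons f0 (fun i => s ∘ₗ f i), R.isIso_comp ht hs, fun i => ?_⟩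
    induction i using Fin.cases with
    | zero =>
      rw [Fin.cons_zero, ← hf0, _root_.map_smul, C.map_comp, LinearMap.comp_apply]
    | succ i =>
      rw [Fin.cons_succ, C.map_comp, LinearMap.comp_apply, hf i, _root_.map_smul, C.map_comp,
        LinearMap.comp_apply]

end RhoData.Frac

variable {Y : R.Obj} {t : R.one.T →ₗ[Λ] Y.T}

/-- The powers of an object reached from the basic one. -/
theorem powY_spec (ht : R.IsIso' t) : ∀ q : ℕ, R.Fn (Fin q → Y.T) ∧
    (∀ S : Submodule Λ (Fin q → Y.T), 0 ≤ R.rho S) ∧ R.rho (Fin q → Y.T) = q ∧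
    ∀ S : Submodule Λ (Fin q → Y.T), LinearMap.range (t.compLeft (Fin q)) ≤ S → (q : ℤ) ≤ R.rho S
  | 0 => by
    have hf : R.Fn (Fin 0 → Y.T) :=
      R.fn_equiv (⊥ : Submodule Λ Y.T) _ (LinearEquiv.ofSubsingleton _ _) (R.fn_sub _ _ Y.fn)
    have h0 : ∀ S : Submodule Λ (Fin 0 → Y.T), R.rho S = 0 := fun S => by
      rw [Subsingleton.elim S ⊥, R.rho_bot hf]
    refine ⟨hf, fun S => (h0 S).ge, ?_, fun S _ => by rw [h0]; rfl⟩
    rw [← R.rho_top, h0]
    rfl
  | q + 1 => by
    obtain ⟨hf, hn, hr, hd⟩ := powY_spec ht q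
    let e : (Y.T × (Fin q → Y.T)) ≃ₗ[Λ] (Fin (q + 1) → Y.T) :=
      Fin.consLinearEquiv Λ (fun _ => Y.T)
    have hY : R.rho Y.T = 1 := ht.1.symm.trans R.rho_O
    refine ⟨R.fn_equiv _ _ e (R.fn_prod _ _ Y.fn hf), fun S => ?_, ?_, fun S hS => ?_⟩
    · rw [← R.rho_map_inj e.symm.toLinearMap e.symm.injective S, R.rho_prod_sub Y.fn hf]
      exact add_nonneg (Y.nonneg _) (hn _)
    · rw [← R.rho_equiv _ _ e, R.rho_prod Y.fn hf, hY, hr]
      push_cast
      ring
    · rw [← R.rho_map_inj e.symm.toLinearMap e.symm.injective S, R.rho_prod_sub Y.fn hf]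
      have hmem : ∀ (z : R.O) (w : Fin q → R.O),
          ((t z, t.compLeft (Fin q) w) : Y.T × (Fin q → Y.T)) ∈ S.map e.symm.toLinearMap := by
        intro z w
        refine ⟨t.compLeft (Fin (q + 1)) (Fin.cons z w), hS ⟨_, rfl⟩, ?_⟩
        refine Prod.ext ?_ (funext fun i => ?_)
        · exact congrArg t (Fin.cons_zero (α := fun _ : Fin (q + 1) => R.O) z w)
        · exact congrArg t (Fin.cons_succ (α := fun _ : Fin (q + 1) => R.O) z w i)
      have h1 : R.rho Y.T ≤ R.rho ((S.map e.symm.toLinearMap).map (LinearMap.fst Λ Y.T _)) := by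
        refine ht.2 _ ?_
        rintro _ ⟨z, rfl⟩
        exact ⟨_, hmem z 0, rfl⟩
      have h2 := hd ((S.map e.symm.toLinearMap).comap (LinearMap.inr Λ Y.T _)) (by
        rintro _ ⟨w, rfl⟩
        have := hmem 0 w
        show ((0 : Y.T), t.compLeft (Fin q) w) ∈ S.map e.symm.toLinearMap
        have h0 : t (0 : R.O) = 0 := t.map_zero
        rwa [h0] at this)
      push_cast
      linarith

section pi

variable (ht : R.IsIso' t) (B : Type) [Fintype B]

/-- Reindexing by the number of indices. -/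
noncomputable def reix (V : Type u) [AddCommGroup V] [Module Λ V] :
    (B → V) ≃ₗ[Λ] (Fin (Fintype.card B) → V) :=
  LinearEquiv.funCongrLeft Λ V (Fintype.equivFin B).symm

include ht in
lemma piY_spec : R.Fn (B → Y.T) ∧ (∀ S : Submodule Λ (B → Y.T), 0 ≤ R.rho S) ∧
    R.rho (B → Y.T) = Fintype.card B := by
  obtain ⟨hf, hn, hr, -⟩ := powY_spec ht (Fintype.card B)
  refine ⟨R.fn_equiv _ _ (reix B Y.T).symm hf, fun S => ?_, ?_⟩
  · rw [← R.rho_map_inj (reix B Y.T).toLinearMap (reix B Y.T).injective S]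
    exact hn _
  · rw [R.rho_equiv _ _ (reix B Y.T), hr]

/-- The power of an object as an object. -/
@[reducible] def piObj : R.Obj :=
  { T := B → Y.T, fn := (piY_spec ht B).1, nonneg := (piY_spec ht B).2.1 }

lemma isFree_piObj : R.IsFree' (piObj ht B) := by
  obtain ⟨hf, hn, hr⟩ := R.pow_spec (Fintype.card B)
  obtain ⟨-, -, hr', hd⟩ := powY_spec ht (Fintype.card B)
  refine ⟨Fintype.card B, hf, hn,
    (reix B Y.T).symm.toLinearMap ∘ₗ t.compLeft (Fin (Fintype.card B)), ?_, fun S hS => ?_⟩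
  · exact hr.trans (piY_spec ht B).2.2.symm
  · show R.rho (B → Y.T) ≤ R.rho S
    rw [(piY_spec ht B).2.2, ← R.rho_map_inj (reix B Y.T).toLinearMap (reix B Y.T).injective S]
    refine hd _ ?_
    rintro _ ⟨z, rfl⟩
    exact ⟨_, hS ⟨z, rfl⟩, (reix B Y.T).apply_symm_apply _⟩

variable (C : R.Frac)

include ht in
/-- The least value of a submodule containing given columns is the rank of their matrix. -/
theorem exists_min_columns {k : ℕ} (f : Fin k → B → (R.one.T →ₗ[Λ] Y.T)) (c : Fin k → B → C.E)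
    (hf : ∀ i p, C.map (f i p) C.unit = c i p • C.map t C.unit) :
    ∃ T0 : Submodule Λ (B → Y.T), (∀ i x, (fun p => f i p x) ∈ T0) ∧
      R.rho T0 = finrank C.E (Submodule.span C.E (Set.range c)) ∧
      ∀ T : Submodule Λ (B → Y.T), (∀ i x, (fun p => f i p x) ∈ T) → R.rho T0 ≤ R.rho T := by
  classical
  obtain ⟨hf', hn', -⟩ := R.pow_spec k
  let Φ : (R.pow k).T →ₗ[Λ] (piObj ht B).T :=
    LinearMap.pi fun p => ∑ i : Fin k, (f i p) ∘ₗ (LinearMap.proj i : (Fin k → R.O) →ₗ[Λ] R.O)
  have hΦ : ∀ i x, Φ (Pi.single i x) = fun p => f i p x := by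
    intro i x
    funext p
    show (∑ j : Fin k, (f j p) ∘ₗ (LinearMap.proj j : (Fin k → R.O) →ₗ[Λ] R.O)) (Pi.single i x) = _
    rw [LinearMap.sum_apply, Finset.sum_eq_single i]
    · exact congrArg (f i p) (Pi.single_eq_same (M := fun _ : Fin k => R.O) i x)
    · intro j _ hj
      exact (congrArg (f j p) (Pi.single_eq_of_ne (M := fun _ : Fin k => R.O) hj x)).trans
        (f j p).map_zero
    · exact fun h => absurd (Finset.mem_univ i) h
  have hfree : R.IsFree' (R.pow k) :=
    ⟨k, hf', hn', LinearMap.id, rfl, fun S hS => by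
      rw [LinearMap.range_id, top_le_iff] at hS
      rw [hS, R.rho_top]⟩
  obtain ⟨k', ⟨⟨T0, hT0, hT0k⟩, hmin⟩, hk'⟩ :=
    C.rank (X := R.pow k) (Y := piObj ht B) Φ hfree (isFree_piObj ht B)
  have hle : ∀ T : Submodule Λ (B → Y.T), (∀ i x, (fun p => f i p x) ∈ T) →
      LinearMap.range Φ ≤ T := by
    intro T hT
    rintro _ ⟨x, rfl⟩
    rw [← Finset.univ_sum_single x, _root_.map_sum]
    exact sum_mem fun i _ => by rw [hΦ]; exact hT i _
  refine ⟨T0, fun i x => hT0 ⟨Pi.single i x, hΦ i x⟩, ?_,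
    fun T hT => hT0k ▸ hmin T (hle T hT)⟩
  rw [hT0k, ← hk']
  -- the coordinates
  let ηe : C.F Y ≃ₗ[C.E] C.E :=
    ((LinearEquiv.ofBijective (C.map t) (C.iso_bij t ht)).symm).trans C.coord
  have hηe : ∀ e : C.E, ηe (e • C.map t C.unit) = e := by
    intro e
    show C.coord ((LinearEquiv.ofBijective (C.map t) (C.iso_bij t ht)).symm _) = e
    rw [← _root_.map_smul]
    exact (congrArg C.coord ((LinearEquiv.ofBijective (C.map t)
      (C.iso_bij t ht)).symm_apply_apply (e • C.unit))).trans (C.coord_smul_unit e)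
  let G : C.F (piObj ht B) →ₗ[C.E] (B → C.E) := LinearMap.pi fun p =>
    ηe.toLinearMap ∘ₗ C.map (X := piObj ht B) (Y := Y) (LinearMap.proj p)
  have hG : Function.Injective G := by
    rw [← LinearMap.ker_eq_bot, eq_bot_iff]
    intro ψ hψ
    have hid : (LinearMap.id : (piObj ht B).T →ₗ[Λ] (piObj ht B).T) =
        ∑ p : B, (LinearMap.single Λ (fun _ => Y.T) p) ∘ₗ
          (LinearMap.proj p : (B → Y.T) →ₗ[Λ] Y.T) :=
      LinearMap.ext fun x => by simp [LinearMap.sum_apply, Finset.univ_sum_single]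
    have h1 : C.map (LinearMap.id : (piObj ht B).T →ₗ[Λ] (piObj ht B).T) ψ = 0 := by
      rw [hid, C.map_sum, LinearMap.sum_apply]
      refine Finset.sum_eq_zero fun p _ => ?_
      rw [C.map_comp (X := piObj ht B) (Y := Y) (Z := piObj ht B), LinearMap.comp_apply]
      have h2 : C.map (X := piObj ht B) (Y := Y) (LinearMap.proj p) ψ = 0 :=
        ηe.injective (by rw [_root_.map_zero]; exact congrFun hψ p)
      rw [h2, _root_.map_zero]
    rw [C.map_id] at h1
    exact h1
  let col : Fin k → C.F (piObj ht B) := fun i =>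
    C.map (X := R.one) (Y := piObj ht B) (Φ ∘ₗ LinearMap.single Λ (fun _ => R.O) i) C.unit
  have hcol : ∀ i, G (col i) = c i := by
    intro i
    funext p
    show ηe (C.map (X := piObj ht B) (Y := Y) (LinearMap.proj p) (col i)) = c i p
    have h1 : (LinearMap.proj p : (B → Y.T) →ₗ[Λ] Y.T) ∘ₗ
        (Φ ∘ₗ LinearMap.single Λ (fun _ => R.O) i) = f i p :=
      LinearMap.ext fun x => congrFun (hΦ i x) p
    have h2 := LinearMap.congr_fun (C.map_comp (X := R.one) (Y := piObj ht B) (Z := Y)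
      (Φ ∘ₗ LinearMap.single Λ (fun _ => R.O) i) (LinearMap.proj p)) C.unit
    refine (congrArg ηe (h2.symm.trans ?_)).trans (hηe (c i p))
    exact (congrArg (fun θ => C.map (X := R.one) (Y := Y) θ C.unit) h1).trans (hf i p)
  have hrange : LinearMap.range (C.map Φ) = Submodule.span C.E (Set.range col) := by
    refine le_antisymm ?_ (Submodule.span_le.2 ?_)
    · rintro _ ⟨χ, rfl⟩
      have hid : (LinearMap.id : (R.pow k).T →ₗ[Λ] (R.pow k).T) =
          ∑ i : Fin k, (LinearMap.single Λ (fun _ => R.O) i) ∘ₗ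
            (LinearMap.proj i : (Fin k → R.O) →ₗ[Λ] R.O) :=
        LinearMap.ext fun x => by simp [LinearMap.sum_apply, Finset.univ_sum_single]
      have h1 : C.map Φ χ = ∑ i : Fin k,
          C.val (X := R.pow k) (LinearMap.proj i) χ • col i := by
        have h2 : C.map (LinearMap.id : (R.pow k).T →ₗ[Λ] (R.pow k).T) χ = χ := by rw [C.map_id]; rfl
        conv_lhs => rw [← h2, hid, C.map_sum, LinearMap.sum_apply, _root_.map_sum]
        refine Finset.sum_congr rfl fun i _ => ?_
        refine (congrArg (C.map Φ) (C.map_val (X := R.pow k) (Y := R.pow k) (LinearMap.proj i)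
          (LinearMap.single Λ (fun _ => R.O) i) χ)).trans ?_
        refine ((C.map Φ).map_smul _ _).trans (congrArg _ ?_)
        exact (LinearMap.congr_fun (C.map_comp (X := R.one) (Y := R.pow k) (Z := piObj ht B)
          (LinearMap.single Λ (fun _ => R.O) i) Φ) C.unit).symm
      rw [h1]
      exact sum_mem fun i _ => Submodule.smul_mem _ _ (Submodule.subset_span ⟨i, rfl⟩)
    · rintro _ ⟨i, rfl⟩
      refine ⟨C.map (X := R.one) (Y := R.pow k) (LinearMap.single Λ (fun _ => R.O) i) C.unit, ?_⟩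
      exact (LinearMap.congr_fun (C.map_comp (X := R.one) (Y := R.pow k) (Z := piObj ht B)
        (LinearMap.single Λ (fun _ => R.O) i) Φ) C.unit).symm
  rw [hrange, LinearEquiv.finrank_eq (Submodule.equivMapOfInjective G hG _), Submodule.map_span,
    ← Set.range_comp, show (⇑G ∘ col) = c from funext hcol]

end pi

end Vale.Agent.P200.Deg
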