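import Vale.Agent.P200.Deg.Tower
import Vale.Agent.P200.Cyc.Blocks
import Vale.Agent.P200.Cyc.Model
import Vale.Agent.P200.Cyc.Factor
import Vale.Agent.P200.Skew.TwoLow
import Vale.Agent.P200.Avg.Gauss

/-!
Linear factorisations for forms of one degree, from the base and the tower of division rings.
-/

namespace Vale.Agent.P200.Deg

open MvPolynomial Module
open scoped TensorProduct

universe u

/-- The output of the base: a division ring with twisted units and good Hilbert functions. -/
def BaseOut : Prop :=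
  ∀ (K : Type u) [Field K] [IsAlgClosed K] {a b m : ℕ}, 0 < a → ∀ {w : K}, IsPrimitiveRoot w a →
    ∀ (c : Fin b → Fin m → Fin (a + 1) → K),
    (∀ (F : Type u) [Field F] [Algebra K F] (x : Fin b → Fin 2 → F), (∀ r, x r ≠ 0) →
      LinearIndependent F fun r l =>
        ∑ p : Fin (a + 1), algebraMap K F (c r l p) * x r 0 ^ (p : ℕ) * x r 1 ^ (a - (p : ℕ))) →
    ∃ (L : Type u) (_ : Field L) (_ : Algebra K L) (E : Type u) (_ : DivisionRing E)
      (_ : Algebra L E) (_ : Algebra K E) (_ : IsScalarTower K L E) (t : Fin b → E) (z : Fin m → L)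
      (g : Fin b → Fin (a + 1) → L),
      (∀ r, t r ≠ 0) ∧ (∀ r s, r < s → t r * t s = algebraMap K E w * (t s * t r)) ∧
      (∀ r p, t r ^ a * algebraMap L E (g r p) =
        ∑ l, algebraMap K E (c r l p) * algebraMap L E (z l)) ∧
      Good E a g Set.univ

variable {K : Type u} [Field K] {a : ℕ}

lemma exists_root_of_unity [IsAlgClosed K] (ha : 0 < a) (h : (a : K) ≠ 0) :
    ∃ w : K, IsPrimitiveRoot w a := by
  have : NeZero (a : K) := ⟨h⟩
  obtain ⟨w, hw⟩ := IsAlgClosed.exists_root (Polynomial.cyclotomic a K) (by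
    rw [Polynomial.degree_cyclotomic]
    exact_mod_cast (Nat.totient_pos.2 ha).ne')
  exact ⟨w, Polynomial.isRoot_cyclotomic_iff.1 hw⟩

/-- The exponent of a monomial of a binary form. -/
noncomputable def binExp (a : ℕ) (p : Fin (a + 1)) : Fin 2 →₀ ℕ :=
  Finsupp.equivFunOnFinite.symm ![(p : ℕ), a - (p : ℕ)]

/-- The coefficients of a binary form. -/
noncomputable def binCoeff (a : ℕ) (G : MvPolynomial (Fin 2) K) (p : Fin (a + 1)) : K :=
  coeff (binExp a p) G

lemma bin_expand {G : MvPolynomial (Fin 2) K} (hG : G.IsHomogeneous a) {A : Type*} [CommRing A]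
    [Algebra K A] (x : Fin 2 → A) :
    aeval x G = ∑ p : Fin (a + 1), algebraMap K A (binCoeff a G p) * x 0 ^ (p : ℕ) *
      x 1 ^ (a - (p : ℕ)) := by
  classical
  have hGs : G = ∑ p : Fin (a + 1), monomial (binExp a p) (binCoeff a G p) := by
    ext e
    simp only [coeff_sum, coeff_monomial, binCoeff]
    by_cases he : e 0 + e 1 = a
    · rw [Finset.sum_eq_single (⟨e 0, by omega⟩ : Fin (a + 1))]
      · have : binExp a ⟨e 0, by omega⟩ = e := Finsupp.ext fun i => by
          fin_cases i <;> simp [binExp]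
          omega
        rw [if_pos this, this]
      · intro p _ hp
        refine if_neg fun h => hp (Fin.ext ?_)
        show (p : ℕ) = e 0
        rw [← h]
        simp [binExp]
      · simp
    · rw [hG.coeff_eq_zero (by rw [Finsupp.degree_eq_sum, Fin.sum_univ_two]; exact he)]
      refine (Finset.sum_eq_zero fun p _ => if_neg fun h => he ?_).symm
      rw [← h]
      have := p.2
      simp [binExp]
      omega
  conv_lhs => rw [hGs]
  rw [map_sum]
  refine Finset.sum_congr rfl fun p _ => ?_
  rw [aeval_monomial, Finsupp.prod_fintype _ _ fun i => pow_zero _, Fin.prod_univ_two, mul_assoc]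
  simp [binExp]

/-- Regular sums of binary forms have independent coefficient vectors at every point. -/
lemma indep_points {b : ℕ} (ha : 0 < a) (Bin : Fin b × Fin 2 → Fin b → MvPolynomial (Fin 2) K)
    (hBin : ∀ l r, (Bin l r).IsHomogeneous a) (lst : List (Fin b × Fin 2)) (hnd : lst.Nodup)
    (hmem : ∀ q, q ∈ lst)
    (hreg : RegList ⊥ (lst.map fun l => ∑ r, rename (Prod.mk r) (Bin l r)))
    (e : Fin (b * 2) ≃ Fin b × Fin 2) (F : Type u) [Field F] [Algebra K F]
    (x : Fin b → Fin 2 → F) (hx : ∀ r, x r ≠ 0) :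
    LinearIndependent F fun r l => ∑ p : Fin (a + 1),
      algebraMap K F (binCoeff a (Bin (e l) r) p) * x r 0 ^ (p : ℕ) * x r 1 ^ (a - (p : ℕ)) := by
  classical
  let P : Fin b × Fin 2 → MvPolynomial (Fin b × Fin 2) K :=
    fun l => ∑ r, rename (Prod.mk r) (Bin l r)
  have hP : ∀ l, (P l).IsHomogeneous a := fun l =>
    (homogeneousSubmodule _ K a).sum_mem fun r _ => (hBin l r).rename_isHomogeneous
  obtain ⟨-, hdim⟩ := Cyc.regular_glue ha hP hnd hmem hreg
  refine Fintype.linearIndependent_iff.2 fun c hc => ?_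
  by_contra hcon
  push Not at hcon
  obtain ⟨r0, hr0⟩ := hcon
  -- a common zero over the algebraic closure
  let G := AlgebraicClosure F
  have hroot : ∀ r, ∃ s : G, s ^ a = algebraMap F G (c r) := fun r =>
    IsAlgClosed.exists_pow_nat_eq _ ha
  choose s hs using hroot
  let y : Fin b × Fin 2 → G := fun q => s q.1 * algebraMap F G (x q.1 q.2)
  have hy : ∀ l, aeval y (P l) = 0 := by
    intro l
    have h1 : aeval y (P l) = ∑ r, algebraMap F G (c r * ∑ p : Fin (a + 1),
        algebraMap K F (binCoeff a (Bin l r) p) * x r 0 ^ (p : ℕ) * x r 1 ^ (a - (p : ℕ))) := by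
      simp only [P, map_sum, aeval_rename]
      refine Finset.sum_congr rfl fun r _ => ?_
      rw [bin_expand (hBin l r), map_mul, ← hs r, map_sum, Finset.mul_sum]
      refine Finset.sum_congr rfl fun p _ => ?_
      have hp : (p : ℕ) + (a - (p : ℕ)) = a := by omega
      rw [show s r ^ a = s r ^ (p : ℕ) * s r ^ (a - (p : ℕ)) by rw [← pow_add, hp],
        IsScalarTower.algebraMap_apply K F G]
      simp only [Function.comp_apply, y, map_mul, map_pow, mul_pow]
      ring
    rw [h1, ← map_sum]
    have h2 := congrFun hc (e.symm l)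
    simp only [Finset.sum_apply, Pi.smul_apply, smul_eq_mul, Equiv.apply_symm_apply,
      Pi.zero_apply] at h2
    rw [h2, map_zero]
  -- but a high power of every variable lies in the ideal
  obtain ⟨d, hd⟩ : ∃ d : ℕ, Cyc.boxCoeff a (Fintype.card (Fin b × Fin 2)) d = 0 := by
    let Q : Polynomial ℤ := (∑ i ∈ Finset.range a, Polynomial.X ^ i) ^
      Fintype.card (Fin b × Fin 2)
    exact ⟨Q.natDegree + 1, Polynomial.coeff_eq_zero_of_natDegree_lt (Nat.lt_succ_self _)⟩
  have hq : Cyc.qDeg P d = ⊥ := by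
    have := Cyc.finite_qDeg P d
    have h := hdim d
    rw [hd] at h
    exact Submodule.finrank_eq_zero.1 (by exact_mod_cast h)
  have hy0 : ∀ q, y q = 0 := by
    intro q
    have hmemI : (X q : MvPolynomial (Fin b × Fin 2) K) ^ d ∈ Ideal.span (Set.range P) := by
      have h1 : Ideal.Quotient.mkₐ K (Ideal.span (Set.range P)) ((X q) ^ d) ∈ Cyc.qDeg P d :=
        ⟨_, isHomogeneous_X_pow q d, rfl⟩
      rw [hq, Submodule.mem_bot] at h1
      exact Ideal.Quotient.eq_zero_iff_mem.1 h1
    have hker : Ideal.span (Set.range P) ≤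
        RingHom.ker ((aeval y : MvPolynomial (Fin b × Fin 2) K →ₐ[K] G).toRingHom) :=
      Ideal.span_le.2 fun u ⟨l, hl⟩ => hl ▸ hy l
    have h0 := hker hmemI
    rw [RingHom.mem_ker] at h0
    have h1 : y q ^ d = 0 := by simpa using h0
    exact eq_zero_of_pow_eq_zero h1
  obtain ⟨j, hj⟩ := Function.ne_iff.1 (hx r0)
  have := hy0 (r0, j)
  simp only [y, mul_eq_zero] at this
  rcases this with h | h
  · have h2 := hs r0
    rw [h, zero_pow ha.ne'] at h2
    exact hr0 ((map_eq_zero _).1 h2.symm)
  · exact hj ((map_eq_zero _).1 h)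

/-- A power of a binary linear form with commuting variables. -/
lemma tensor_pow {E A : Type*} [Ring E] [Algebra K E] [CommRing A] [Algebra K A] (e e' : E)
    (u v : A) : ∀ n : ℕ, ((e ⊗ₜ[K] u + e' ⊗ₜ[K] v : E ⊗[K] A)) ^ n =
      ∑ p ∈ Finset.range (n + 1),
        ((Polynomial.C e * Polynomial.X + Polynomial.C e') ^ n).coeff p ⊗ₜ[K]
          (u ^ p * v ^ (n - p)) := by
  intro n
  induction n with
  | zero => simp [Algebra.TensorProduct.one_def]
  | succ n ih =>
    set P := (Polynomial.C e * Polynomial.X + Polynomial.C e') ^ n with hP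
    have hzero : P.coeff (n + 1) = 0 := by
      refine Polynomial.coeff_eq_zero_of_natDegree_lt (Nat.lt_succ_of_le ?_)
      refine Polynomial.natDegree_pow_le.trans ?_
      exact (Nat.mul_le_mul_left n Polynomial.natDegree_linear_le).trans (mul_one n).le
    have hc : ∀ p, ((Polynomial.C e * Polynomial.X + Polynomial.C e') ^ (n + 1)).coeff p =
        (P * Polynomial.X).coeff p * e + P.coeff p * e' := fun p => by
      rw [pow_succ, ← hP, mul_add, ← Polynomial.X_mul_C, ← mul_assoc, Polynomial.coeff_add,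
        Polynomial.coeff_mul_C, Polynomial.coeff_mul_C]
    simp only [hc, TensorProduct.add_tmul, Finset.sum_add_distrib]
    rw [pow_succ, ih, mul_add, Finset.sum_mul, Finset.sum_mul]
    congr 1
    · rw [Finset.sum_range_succ' _ (n + 1), Polynomial.coeff_mul_X_zero, zero_mul,
        TensorProduct.zero_tmul, add_zero]
      refine Finset.sum_congr rfl fun p _ => ?_
      rw [Algebra.TensorProduct.tmul_mul_tmul, Polynomial.coeff_mul_X,
        show n + 1 - (p + 1) = n - p by omega]
      congr 1
      ring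
    · rw [Finset.sum_range_succ _ (n + 1), hzero, zero_mul, TensorProduct.zero_tmul, add_zero]
      refine Finset.sum_congr rfl fun p hp => ?_
      rw [Finset.mem_range] at hp
      rw [Algebra.TensorProduct.tmul_mul_tmul, show n + 1 - p = n - p + 1 by omega]
      congr 1
      ring

/-- A power of a sum of blocks with twisted units. -/
lemma blocks_pow {E A : Type*} [Ring E] [Algebra K E] [CommRing A] [Algebra K A] {ι : Type*}
    [LinearOrder ι] {ω : K} (ha : 0 < a) (hω : IsPrimitiveRoot ω a) (T : ι → E)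
    (e : ι → Fin 2 → E) (u : ι → Fin 2 → A) (g : ι → Fin (a + 1) → E)
    (heT : ∀ r j, Commute (e r j) (T r))
    (heps : ∀ r s, r < s → ∀ i j, T r * e r i * (T s * e s j) = ω • (T s * e s j * (T r * e r i)))
    (hpoly : ∀ r, (Polynomial.C (e r 0) * Polynomial.X + Polynomial.C (e r 1)) ^ a =
      ∑ p : Fin (a + 1), Polynomial.C (g r p) * Polynomial.X ^ (p : ℕ))
    (S : Finset ι) :
    (∑ r ∈ S, ∑ j, (T r * e r j) ⊗ₜ[K] u r j : E ⊗[K] A) ^ a =
      ∑ r ∈ S, ∑ p : Fin (a + 1),
        (T r ^ a * g r p) ⊗ₜ[K] (u r 0 ^ (p : ℕ) * u r 1 ^ (a - (p : ℕ))) := by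
  classical
  let Z : ι → E ⊗[K] A := fun r => ∑ j, (T r * e r j) ⊗ₜ[K] u r j
  have hZ : ∀ r s, r < s → Z r * Z s = ω • (Z s * Z r) := fun r s hrs => by
    simp only [Z, Finset.mul_sum, Finset.sum_mul, Finset.smul_sum]
    rw [Finset.sum_comm]
    refine Finset.sum_congr rfl fun i _ => Finset.sum_congr rfl fun j _ => ?_
    rw [Algebra.TensorProduct.tmul_mul_tmul, Algebra.TensorProduct.tmul_mul_tmul,
      TensorProduct.smul_tmul', heps r s hrs, mul_comm (u r _)]
  induction S using Finset.induction_on_max with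
  | empty => simp [ha.ne']
  | insert s S hlts ih =>
    have hsS : s ∉ S := fun h => lt_irrefl s (hlts s h)
    rw [Finset.sum_insert hsS, Finset.sum_insert hsS, ← ih]
    change (Z s + ∑ r ∈ S, Z r) ^ a = _ + (∑ r ∈ S, Z r) ^ a
    rw [Avg.add_pow_of_root ha (hω.isRoot_cyclotomic ha) (q := ω) ?_]
    · congr 1
      have hfac : Z s = (T s ⊗ₜ 1) * (e s 0 ⊗ₜ u s 0 + e s 1 ⊗ₜ u s 1) := by
        simp only [Z, Fin.sum_univ_two, mul_add, Algebra.TensorProduct.tmul_mul_tmul, one_mul]
      have hcm : Commute (T s ⊗ₜ[K] (1 : A)) (e s 0 ⊗ₜ u s 0 + e s 1 ⊗ₜ u s 1) := by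
        refine Commute.add_right ?_ ?_ <;>
          simp only [Commute, SemiconjBy, Algebra.TensorProduct.tmul_mul_tmul, one_mul, mul_one,
            (heT s _).eq]
      rw [hfac, hcm.mul_pow, Algebra.TensorProduct.tmul_pow, one_pow, tensor_pow, hpoly,
        Finset.mul_sum, Finset.sum_range]
      refine Finset.sum_congr rfl fun p _ => ?_
      rw [Algebra.TensorProduct.tmul_mul_tmul, one_mul, Polynomial.finsetSum_coeff,
        Finset.sum_eq_single p]
      · simp
      · intro q _ hq
        simp [Polynomial.coeff_X_pow, Fin.val_ne_of_ne hq.symm]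
      · simp
    · rw [Finset.sum_mul, Finset.mul_sum, Finset.smul_sum]
      exact Finset.sum_congr rfl fun r hr => hZ r s (hlts r hr)

/-- Linear factorisations of forms of degree `a`. -/
theorem factorises_of (hstep : StepGoal.{u}) (hbase : BaseOut.{u}) (K : Type u) [Field K]
    [IsAlgClosed K] {a n : ℕ} (ha : 2 ≤ a) (hchar : ∀ i : ℕ, 0 < i → i ≤ a → (i : K) ≠ 0) :
    Skew.Factorises K n a := by
  classical
  intro f hf hreg
  rcases Nat.eq_zero_or_pos n with rfl | hn
  · exact ⟨K, inferInstance, inferInstance, fun k => k.elim0, fun k => k.elim0, fun k => k.elim0,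
      fun k => k.elim0, fun k => k.elim0, fun k => k.elim0, fun k => k.elim0⟩
  have ha0 : 0 < a := by omega
  obtain ⟨ω, hω⟩ := exists_root_of_unity ha0 (hchar a ha0 le_rfl)
  obtain ⟨b, cp, Λ, Bin, -, hcp, hBin, hunit, ⟨lst, hnd, hmem, hregF⟩, hpull⟩ :=
    Cyc.exists_blocks ha0 hn hchar hf hreg
  let eq : Fin (b * 2) ≃ Fin b × Fin 2 := finProdFinEquiv.symm
  obtain ⟨L, iL, iKL, E0, iE0, iLE0, iKE0, iT0, t, z, g, ht, htt, hg, hgood⟩ :=
    hbase K ha0 hω (fun r l => binCoeff a (Bin (eq l) r))
      (fun F _ _ x hx => indep_points ha0 Bin hBin lst hnd hmem hregF eq F x hx)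
  obtain ⟨E, iE, iLE, ψ, e, O, -, hmono, -, hψ, hemem, hecomm, hpoly, hind⟩ :=
    towerAt hstep ha E0 g hgood b le_rfl
  letI iKE : Algebra K E :=
    ((algebraMap L E).comp (algebraMap K L)).toAlgebra' fun c x => Algebra.commutes _ x
  haveI : IsScalarTower K L E := IsScalarTower.of_algebraMap_eq fun c => rfl
  let T : Fin b → E := fun r => ψ (t r)
  let eps : Fin b → Fin 2 → E := fun r j => T r * e r j
  have hTmem : ∀ (r : Fin b) (i : ℕ), T r ∈ O i := fun r i => hmono (Nat.zero_le i) (hψ _)
  have hepsmem : ∀ (r : Fin b) j i, (r : ℕ) < i → eps r j ∈ O i := fun r j i h =>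
    mul_mem (hTmem r i) (hmono h (hemem r r.2 j))
  have hψK : ∀ c : K, ψ (algebraMap K E0 c) = algebraMap K E c := fun c => by
    rw [IsScalarTower.algebraMap_apply K L E0, AlgHom.commutes,
      ← IsScalarTower.algebraMap_apply K L E]
  have hKmem : ∀ (c : K) (i : ℕ), algebraMap K E c ∈ O i := fun c i => by
    rw [← hψK]
    exact hmono (Nat.zero_le i) (hψ _)
  have hTT : ∀ r s, r < s → T r * T s = algebraMap K E ω * (T s * T r) := fun r s h => by
    simp only [T, ← map_mul, htt r s h]
    rw [map_mul, hψK, map_mul]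
  have heT : ∀ r s j, Commute (e r j) (T s) := fun r s j => hecomm r r.2 j _ (hTmem s _)
  have heps : ∀ r s, r < s → ∀ i j, eps r i * eps s j = ω • (eps s j * eps r i) := by
    intro r s hrs i j
    have hee : Commute (e s j) (e r i) := hecomm s s.2 j _ (hmono hrs (hemem r r.2 i))
    calc T r * e r i * (T s * e s j) = T r * T s * (e r i * e s j) := by
          rw [mul_assoc, ← mul_assoc (e r i), (heT r s i).eq]
          simp only [mul_assoc]
      _ = algebraMap K E ω * (T s * T r * (e s j * e r i)) := by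
          rw [hTT r s hrs, hee.eq, mul_assoc]
      _ = ω • (T s * e s j * (T r * e r i)) := by
          rw [Algebra.smul_def, mul_assoc (T s) (e s j), ← mul_assoc (e s j), (heT s r j).eq]
          simp only [mul_assoc]
  let grp : Fin n → Finset (Fin b) := fun k => Finset.univ.filter fun r => cp r = k
  let G : Fin n → Fin n → E := fun k i => ∑ r ∈ grp k, ∑ j, Λ (r, j) i • eps r j
  have hlt : ∀ k l, k < l → ∀ r ∈ grp k, ∀ s ∈ grp l, r < s := by
    intro k l hkl r hr s hs
    by_contra hle
    have h := hcp (not_lt.1 hle)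
    rw [(Finset.mem_filter.1 hr).2, (Finset.mem_filter.1 hs).2] at h
    exact absurd h (not_le.2 hkl)
  have hcomm : ∀ k l, k < l → ∀ i j, G k i * G l j = ω • (G l j * G k i) := by
    intro k l hkl i j
    let B : Fin b → Fin n → E := fun r i => ∑ j, Λ (r, j) i • eps r j
    have hB : ∀ r s, r < s → B r i * B s j = ω • (B s j * B r i) := by
      intro r s hrs
      simp only [B, Finset.sum_mul, Finset.mul_sum, Finset.smul_sum]
      rw [Finset.sum_comm]
      refine Finset.sum_congr rfl fun c _ => Finset.sum_congr rfl fun d _ => ?_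
      rw [smul_mul_smul_comm, smul_mul_smul_comm, heps r s hrs, smul_smul, smul_smul]
      congr 1
      ring
    rw [show G k i = ∑ r ∈ grp k, B r i from rfl, show G l j = ∑ s ∈ grp l, B s j from rfl,
      Finset.sum_mul_sum, Finset.sum_mul_sum, Finset.smul_sum, Finset.sum_comm]
    refine Finset.sum_congr rfl fun s hs => ?_
    rw [Finset.smul_sum]
    exact Finset.sum_congr rfl fun r hr => hB r s (hlt k l hkl r hr s hs)
  have hω0 : ω ≠ 0 := hω.ne_zero ha0.ne'
  -- powers
  have hpow : ∀ k, (∑ i, G k i ⊗ₜ[K] Quad.mkA f (X i)) ^ a = 0 := by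
    intro k
    let π := Ideal.Quotient.mkₐ K (Ideal.span (Set.range f))
    let u : Fin b → Fin 2 → MvPolynomial (Fin n) K ⧸ Ideal.span (Set.range f) :=
      fun r j => π (Cyc.lin (Λ (r, j)))
    have hsum : ∑ i, G k i ⊗ₜ[K] Quad.mkA f (X i) =
        ∑ r ∈ grp k, ∑ j, (T r * e r j) ⊗ₜ[K] u r j := by
      simp only [G, TensorProduct.sum_tmul]
      rw [Finset.sum_comm]
      refine Finset.sum_congr rfl fun r _ => ?_
      rw [Finset.sum_comm]
      refine Finset.sum_congr rfl fun j _ => ?_
      simp only [u, π, Cyc.lin, map_sum, map_smul, TensorProduct.tmul_sum,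
        TensorProduct.smul_tmul]
      rfl
    rw [hsum, blocks_pow ha0 hω T e u (fun r p => algebraMap L E (g r p))
      (fun r j => heT r r j) heps (fun r => hpoly r r.2) (grp k)]
    have hgT : ∀ r p, T r ^ a * algebraMap L E (g r p) = ∑ l,
        binCoeff a (Bin l r) p • algebraMap L E (z (eq.symm l)) := fun r p => by
      have h := congrArg ψ (hg r p)
      simp only [map_mul, map_pow, map_sum, hψK, AlgHom.commutes] at h
      rw [h]
      exact Fintype.sum_equiv eq _ _ fun l => by simp [Algebra.smul_def]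
    simp only [hgT, TensorProduct.sum_tmul, TensorProduct.smul_tmul]
    rw [Finset.sum_congr rfl fun r _ => Finset.sum_comm, Finset.sum_comm]
    refine Finset.sum_eq_zero fun l _ => ?_
    have h1 : ∀ r, π (Cyc.pullBin (fun j => Λ (r, j)) (Bin l r)) = ∑ p : Fin (a + 1),
        binCoeff a (Bin l r) p • (u r 0 ^ (p : ℕ) * u r 1 ^ (a - (p : ℕ))) := fun r => by
      rw [Cyc.pullBin, ← AlgHom.comp_apply π, comp_aeval, bin_expand (hBin l r)]
      refine Finset.sum_congr rfl fun p _ => ?_
      exact (mul_assoc _ _ _).trans (Algebra.smul_def _ _).symm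
    simp only [← TensorProduct.tmul_sum, ← h1, ← map_sum]
    rw [show π _ = 0 from Ideal.Quotient.eq_zero_iff_mem.2 (hpull k l), TensorProduct.tmul_zero]
  -- the rows are independent
  let thr : Fin n → ℕ := fun k => (Finset.univ.filter fun s => cp s < k).card
  have hold : ∀ k l, l < k → ∀ i, G l i ∈ O (thr k) := fun k l hlk i =>
    sum_mem fun r hr => sum_mem fun j _ => by
      rw [Algebra.smul_def]
      refine mul_mem (hKmem _ _) (hepsmem r j _ ?_)
      exact (Cyc.lt_card_filter_iff hcp k r).2 (by rw [(Finset.mem_filter.1 hr).2]; exact hlk)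
  have hsep : ∀ (t0 : ℕ) (U : Fin b → Fin 2 → E), (∀ r j, U r j ∈ O t0) →
      (∀ r : Fin b, (r : ℕ) < t0 → ∀ j, U r j = 0) →
      ∀ S : Finset (Fin b), ∑ r ∈ S, ∑ j, eps r j * U r j = 0 → ∀ r ∈ S, ∀ j, U r j = 0 := by
    intro t0 U hU hU0 S
    induction S using Finset.induction_on_max with
    | empty => intro _ r hr; simp at hr
    | insert s S hlts ih =>
      have hsS : s ∉ S := fun h => lt_irrefl s (hlts s h)
      intro h0
      rw [Finset.sum_insert hsS] at h0
      have hs0 : ∀ j, U s j = 0 := by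
        by_cases hst : (s : ℕ) < t0
        · exact hU0 s hst
        have hUs : ∀ j, U s j ∈ O s := fun j => hmono (not_lt.1 hst) (hU s j)
        have hX : ∑ r ∈ S, ∑ j, eps r j * U r j ∈ O s := sum_mem fun r hr => sum_mem fun j _ =>
          mul_mem (hepsmem r j _ (hlts r hr)) (hmono (not_lt.1 hst) (hU r j))
        have hm : ∀ j, T s * U s j ∈ O s := fun j => mul_mem (hTmem s _) (hUs j)
        have hre : ∀ j, eps s j * U s j = T s * U s j * e s j := fun j => by
          rw [mul_assoc (T s) (U s j), ← (hecomm s s.2 j _ (hUs j)).eq]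
          exact mul_assoc _ _ _
        rw [Fin.sum_univ_two, hre, hre] at h0
        obtain ⟨h1, h2, -⟩ := hind s s.2 _ (hm 0) _ (hm 1) _ hX h0
        have hT0 : T s ≠ 0 := (map_ne_zero ψ).2 (ht s)
        intro j
        fin_cases j
        · exact (mul_eq_zero.1 h1).resolve_left hT0
        · exact (mul_eq_zero.1 h2).resolve_left hT0
      rw [show ∑ j, eps s j * U s j = 0 from Finset.sum_eq_zero fun j _ => by rw [hs0, mul_zero],
        zero_add] at h0
      intro r hr j
      rcases Finset.mem_insert.1 hr with rfl | hr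
      · exact hs0 j
      · exact ih h0 r hr j
  have hinj : ∀ k (w : Fin n → E), (∀ i, w i ∈ O (thr k)) → ∑ i, G k i * w i = 0 → w = 0 := by
    intro k w hw h
    let U : Fin b → Fin 2 → E := fun r j => if cp r = k then ∑ i, Λ (r, j) i • w i else 0
    have hU := hsep (thr k) U (fun r j => by
      simp only [U]
      split_ifs
      · exact sum_mem fun i _ => by rw [Algebra.smul_def]; exact mul_mem (hKmem _ _) (hw i)
      · exact zero_mem _) (fun r hr j => if_neg fun hk => by
        have := (Cyc.lt_card_filter_iff hcp k r).1 hr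
        rw [hk] at this
        exact lt_irrefl k this) (grp k) (by
      rw [← h]
      simp only [G, Finset.sum_mul]
      conv_rhs => rw [Finset.sum_comm]
      refine Finset.sum_congr rfl fun r hr => ?_
      conv_rhs => rw [Finset.sum_comm]
      refine Finset.sum_congr rfl fun j _ => ?_
      simp only [U, if_pos (Finset.mem_filter.1 hr).2, Finset.mul_sum, mul_smul_comm,
        smul_mul_assoc])
    funext i
    obtain ⟨q, hq, hΛ⟩ := hunit k i
    have := hU q.1 (Finset.mem_filter.2 ⟨Finset.mem_univ _, hq⟩) q.2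
    simp only [U, if_pos hq, Prod.mk.eta, hΛ] at this
    rw [Finset.sum_eq_single i (fun j _ hj => by simp [hj]) (by simp)] at this
    simpa using this
  have hrows : ∀ c : Fin n → E, (∀ i, ∑ l, c l * G l i = 0) → c = 0 := by
    intro c hc
    by_contra hne
    obtain ⟨l₀, hl₀⟩ := Function.ne_iff.1 hne
    obtain ⟨k, hk, hmax⟩ := (Finset.univ.filter fun l => c l ≠ 0).exists_max_image id
      ⟨l₀, by simpa using hl₀⟩
    simp only [Finset.mem_filter, Finset.mem_univ, true_and, id] at hk hmax
    let col : Fin n → ({l : Fin n // l < k} → (O (thr k))ᵐᵒᵖ) := fun i l =>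
      MulOpposite.op ⟨G l.1 i, hold k l.1 l.2 i⟩
    have hdep : ¬LinearIndependent (O (thr k))ᵐᵒᵖ col := fun hli => by
      have h1 := hli.fintype_card_le_finrank
      rw [Module.finrank_fintype_fun_eq_card, Fintype.card_fin, Fintype.card_subtype,
        Finset.filter_gt_eq_Iio, Fin.card_Iio] at h1
      exact absurd h1 (not_le.2 k.2)
    obtain ⟨v, hv, i0, hi0⟩ := Fintype.not_linearIndependent_iff.1 hdep
    let w : Fin n → E := fun i => ((v i).unop : O (thr k))
    have hlow : ∀ l, l < k → ∑ i, G l i * w i = 0 := by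
      intro l hl
      have h2 := congrArg (fun y => ((MulOpposite.unop (y ⟨l, hl⟩) : O (thr k)) : E)) hv
      simpa [col, w, Finset.sum_apply, Finset.unop_sum] using h2
    have hk0 : c k * ∑ i, G k i * w i = 0 := by
      calc c k * ∑ i, G k i * w i = ∑ l, c l * ∑ i, G l i * w i := by
            symm
            refine Finset.sum_eq_single k ?_ ?_
            · intro l _ hne'
              rcases lt_or_gt_of_ne hne' with h | h
              · rw [hlow l h, mul_zero]
              · rw [show c l = 0 from by_contra fun h' => not_lt.2 (hmax l h') h, zero_mul]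
            · simp
        _ = ∑ i, (∑ l, c l * G l i) * w i := by
            simp only [Finset.mul_sum, Finset.sum_mul, mul_assoc]
            exact Finset.sum_comm
        _ = 0 := Finset.sum_eq_zero fun i _ => by rw [hc i, zero_mul]
    have hw0 := hinj k w (fun i => ((v i).unop : O (thr k)).2) ((mul_eq_zero.1 hk0).resolve_left hk)
    exact hi0 (MulOpposite.unop_injective (Subtype.ext (congrFun hw0 i0)))
  obtain ⟨Em, hEm⟩ := Quad.exists_inverse G hrows
  refine ⟨E, iE, iKE, G, fun k l => if k < l then ω else ω⁻¹, Em, fun k l => ?_,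
    fun k l hkl i j => ?_, hpow, hEm⟩
  · dsimp only
    split_ifs
    exacts [hω0, inv_ne_zero hω0]
  · dsimp only
    rcases lt_or_gt_of_ne hkl with h | h
    · rw [if_pos h]
      exact hcomm k l h i j
    · rw [if_neg (not_lt.2 h.le), hcomm l k h j i, inv_smul_smul₀ hω0]

end Vale.Agent.P200.Deg
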