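import Vale.Agent.P200.Deg.Free

/-!
Monomials with values in a graded module of one block: a graded module of one more block, and the
submodules given by families of submodules in every degree.
-/

namespace Vale.Agent.P200.Deg

open Module

universe u

variable {L : Type u} [Field L] {D : Type u} [DivisionRing D] [Algebra L D] {J : Type}
  [DecidableEq J] {a : ℕ}

section natural

variable {R : Type u} [Ring R] [Algebra L R] {V : Type u} [AddCommGroup V] [Module R V]
  {R' : Type u} [Ring R'] [Algebra L R'] {V' : Type u} [AddCommGroup V'] [Module R' V']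
  (g : J → Fin (a + 1) → L) {ι : Type} (d : ι → J → ℕ)

/-- The operators commute with maps of the values respecting the scalars. -/
lemma mapRange_newOp (f : V →+ V')
    (hf : ∀ (c : L) v, f (algebraMap L R c • v) = algebraMap L R' c • f v) (o : Op J)
    (x : (ι × Mon J a) →₀ V) :
    Finsupp.mapRange f f.map_zero (newOp R V g d o x) =
      newOp R' V' g d o (Finsupp.mapRange f f.map_zero x) := by
  classical
  induction x using Finsupp.induction_linear with
  | zero => simp
  | add x y hx hy =>
    simp only [map_add, Finsupp.mapRange_add f.map_add, hx, hy]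
  | single p v =>
    rw [Finsupp.mapRange_single]
    cases o with
    | x r b => simp only [newOp, moveAt_single, Finsupp.mapRange_single]
    | w r =>
      by_cases h : (p.2.1 r : ℕ) + 1 < a
      · simp only [newOp, rootAct_single_lt g r p _ h, Finsupp.mapRange_single]
      · simp only [newOp, rootAct_single_top g r p _ h]
        rw [← Finsupp.mapRange.addMonoidHom_apply, map_sum]
        refine Finset.sum_congr rfl fun i _ => ?_
        rw [Finsupp.mapRange.addMonoidHom_apply, Finsupp.mapRange_single, hf]
    | pi n =>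
      simp only [newOp, keep_single]
      split_ifs <;> simp

lemma res_op [Finite ι] [Fintype J] (n : J → ℕ) (o : Op J) (ho : ¬o.IsPi)
    (x : (ι × Mon J a) →₀ V) :
    res R V d (n + opDeg o) (newOp R V g d o x) =
      res R V d (n + opDeg o) (newOp R V g d o (emb R V d n (res R V d n x))) := by
  rw [emb_res]
  conv_lhs => rw [← res_keep]
  conv_rhs => rw [← res_keep]
  have h := LinearMap.congr_fun ((laws_newOp (ι := ι) (V := V) (D := R) g d).shift o ho n)
  simp only [Module.End.mul_apply] at h
  rw [show keep R V d (n + opDeg o) = newOp R V g d (.pi (n + opDeg o)) from rfl, h, h]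
  congr 2
  exact (LinearMap.congr_fun ((laws_newOp (ι := ι) (V := V) (D := R) g d).proj n) x).symm

lemma res_op_below [Finite ι] [Fintype J] (m : J → ℕ) (o : Op J) (ho : ¬o.IsPi) (hm : ¬opDeg o ≤ m)
    (x : (ι × Mon J a) →₀ V) : res R V d m (newOp R V g d o x) = 0 := by
  rw [← res_keep]
  have h := LinearMap.congr_fun ((laws_newOp (ι := ι) (V := V) (D := R) g d).below o ho m hm) x
  simp only [Module.End.mul_apply, LinearMap.zero_apply] at h
  exact (congrArg (res R V d m) h).trans (map_zero _)

lemma res_keep_ne {m n : J → ℕ} (h : m ≠ n) (x : (ι × Mon J a) →₀ V) :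
    res R V d m (keep R V d n x) = 0 := by
  classical
  funext p
  rw [res_apply, keep_apply, if_neg fun e => h (p.2.symm.trans e)]
  rfl

end natural

section laws

variable {g0 : Fin (a + 1) → L} {Y : Type u} [AddCommGroup Y] [Module (Lam D Unit) Y]

/-- Finitely supported families of values in a graded module satisfy the laws. -/
lemma laws_finsupp (hY : IsGr D a (fun _ : Unit => g0) Y) (α : Type)
    [Module D (α →₀ Y)] [CoefTower D Unit (α →₀ Y)] :
    Laws (R := D) a (fun _ : Unit => g0)
      fun o => (opL (D := D) o : Module.End D (α →₀ Y)) := by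
  classical
  refine ⟨?_, ?_, ?_, ?_, ?_, ?_, ?_⟩
  · intro o o' ho ho'
    exact LinearMap.ext fun v => Finsupp.ext fun p => hY.comm o o' ho ho' _
  · intro r v
    rw [opL_pow]
    refine Finsupp.ext fun p => ?_
    rw [Finsupp.smul_apply, hY.pow, formEl, Finset.sum_smul, Finsupp.finsetSum_apply]
    refine Finset.sum_congr rfl fun i _ => ?_
    rw [opL_pow, opL_pow, ← algebraMap_smul_eq (J := Unit), mul_smul, mul_smul, Finsupp.smul_apply,
      Finsupp.smul_apply, Finsupp.smul_apply]
  · exact fun n => LinearMap.ext fun v => Finsupp.ext fun p => hY.proj n _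
  · exact fun n n' h => LinearMap.ext fun v => Finsupp.ext fun p => hY.orth n n' h _
  · exact fun o ho n => LinearMap.ext fun v => Finsupp.ext fun p => hY.shift o ho n _
  · exact fun o ho n h => LinearMap.ext fun v => Finsupp.ext fun p => hY.below o ho n h _
  · intro v
    choose s hs using fun p => hY.complete (v p)
    refine ⟨v.support.biUnion s, Finsupp.ext fun p => ?_⟩
    simp only [Finsupp.finsetSum_apply, opL_apply, Finsupp.smul_apply]
    by_cases hp : p ∈ v.support
    · rw [← Finset.sum_subset (Finset.subset_biUnion_of_mem s hp), hs p]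
      intro n _ hn
      rw [← hs p, Finset.smul_sum]
      exact Finset.sum_eq_zero fun n' hn' => hY.orth n n' (fun e => hn (e ▸ hn')) _
    · rw [Finsupp.notMem_support_iff.1 hp]
      simp

end laws

/-- The monomials of the blocks `J` with values in a module of one block. -/
def Ext (D : Type u) [DivisionRing D] [Algebra L D] (g : J → Fin (a + 1) → L) {ι : Type}
    (d : ι → J → ℕ) (Y : Type u) [AddCommGroup Y] : Type u :=
  let _ := g
  let _ := d
  let _ := D
  (ι × Mon J a) →₀ Y

namespace Ext

variable {g : J → Fin (a + 1) → L} {ι : Type} {d : ι → J → ℕ} {Y : Type u} [AddCommGroup Y]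
  [Module (Lam D Unit) Y] [Module D Y] [CoefTower D Unit Y]

noncomputable instance : AddCommGroup (Ext D g d Y) :=
  inferInstanceAs (AddCommGroup ((ι × Mon J a) →₀ Y))

noncomputable instance : Module (Lam D Unit) (Ext D g d Y) :=
  inferInstanceAs (Module (Lam D Unit) ((ι × Mon J a) →₀ Y))

noncomputable instance : Module D (Ext D g d Y) :=
  inferInstanceAs (Module D ((ι × Mon J a) →₀ Y))

instance : CoefTower D Unit (Ext D g d Y) :=
  ⟨fun c (x : (ι × Mon J a) →₀ Y) => Finsupp.ext fun p => CoefTower.smul_eq c (x p)⟩

/-- The operators of the blocks `J`. -/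
noncomputable def ops (o : Op J) : Module.End (Lam D Unit) (Ext D g d Y) :=
  newOp (ι := ι) (Lam D Unit) Y g d o

noncomputable instance : Module (Lam D (Option J)) (Ext D g d Y) :=
  mkMod (optOp (N := Ext D g d Y) (ops (D := D) (g := g) (d := d)))

instance : CoefTower D (Option J) (Ext D g d Y) :=
  ⟨fun c x => (mkMod_coef (optOp (N := Ext D g d Y) (ops (D := D) (g := g) (d := d))) c x).symm⟩

lemma op_smul (o : Op (Option J)) (x : Ext D g d Y) :
    (op D o : Lam D (Option J)) • x = optOp (ops (D := D) (g := g) (d := d)) o x :=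
  mkMod_op _ o x

/-- A single term. -/
noncomputable def sg (p : ι × Mon J a) (v : Y) : Ext D g d Y := Finsupp.single p v

variable [Finite ι] [Fintype J] [NeZero a] {g0 : Fin (a + 1) → L}

lemma isGr (hY : IsGr D a (fun _ : Unit => g0) Y) :
    IsGr D a (fun o : Option J => o.elim g0 g) (Ext D g d Y) := by
  classical
  have hA : Laws (R := Lam D Unit) a g (ops (D := D) (g := g) (d := d) (Y := Y)) :=
    laws_newOp (ι := ι) (V := Y) (D := Lam D Unit) g d
  have hN : Laws (R := D) a (fun _ : Unit => g0)
      fun o => (opL (D := D) o : Module.End D (Ext D g d Y)) :=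
    @laws_finsupp L _ D _ _ a g0 Y _ _ hY (ι × Mon J a) (inferInstanceAs (Module D (Ext D g d Y)))
      (inferInstanceAs (CoefTower D Unit (Ext D g d Y)))
  refine (hA.opt hN).isGr ?_
  obtain ⟨t, ht⟩ := hY.fg
  let G : Set (Ext D g d Y) := Set.range fun z : ι × (t : Set Y) => sg (z.1, 0) z.2.1
  refine ⟨⟨(Set.finite_range fun z : ι × (t : Set Y) =>
    (sg (z.1, 0) z.2.1 : Ext D g d Y)).toFinset, ?_⟩⟩
  rw [Set.Finite.coe_toFinset]
  set P : Submodule (Lam D (Option J)) (Ext D g d Y) := Submodule.span (Lam D (Option J)) G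
  have h0 : ∀ i y, sg (i, 0) y ∈ P := by
    intro i y
    let Z : Submodule D Y := (toD (D := D) P).comap
      (Finsupp.lsingle (i, 0) : Y →ₗ[D] ((ι × Mon J a) →₀ Y))
    have hst : ∀ o : Op Unit, ∀ z ∈ Z, opL (D := D) o z ∈ Z := by
      intro o z hz
      have key : ∃ o' : Op (Option J), optOp (ops (D := D) (g := g) (d := d)) o' (sg (i, 0) z) =
          (sg (i, 0) ((op D o : Lam D Unit) • z) : Ext D g d Y) := by
        cases o with
        | x r b => exact ⟨.x none b, Finsupp.smul_single (op D (.x () b) : Lam D Unit) (i, 0) z⟩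
        | w r => exact ⟨.w none, Finsupp.smul_single (op D (.w ()) : Lam D Unit) (i, 0) z⟩
        | pi n =>
          refine ⟨.pi fun o => o.elim (n ()) (d i), ?_⟩
          show (op D (.pi (noneDeg fun o : Option J => o.elim (n ()) (d i))) : Lam D Unit) •
            keep (Lam D Unit) Y d (someDeg fun o : Option J => o.elim (n ()) (d i))
              (Finsupp.single (i, 0) z) = _
          rw [keep_single, if_pos (funext fun r => by simp [someDeg, Mon.deg])]
          exact Finsupp.smul_single _ _ _
      obtain ⟨o', ho'⟩ := key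
      show sg (i, 0) ((op D o : Lam D Unit) • z) ∈ P
      rw [← ho', ← op_smul]
      exact P.smul_mem _ hz
    have htop : toLam (J := Unit) Z hst = ⊤ := by
      rw [eq_top_iff, ← ht, Submodule.span_le]
      intro z hz
      exact Submodule.subset_span ⟨(i, ⟨z, hz⟩), rfl⟩
    have : y ∈ toLam (J := Unit) Z hst := by rw [htop]; trivial
    exact this
  have h1 : ∀ μ i y, sg (i, μ) y ∈ P := by
    intro μ
    induction μ using Mon.induct with
    | h0 => exact h0
    | hx r b q ih =>
      intro i y
      have := P.smul_mem (op D (.x (some r) b) : Lam D (Option J)) (ih i y)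
      rw [op_smul] at this
      convert this using 1
      exact (moveAt_single (D := Lam D Unit) (Mon.upX r b) (i, q) y).symm
    | hw r q h ih =>
      intro i y
      have := P.smul_mem (op D (.w (some r)) : Lam D (Option J)) (ih i y)
      rw [op_smul] at this
      convert this using 1
      exact (rootAct_single_lt g r (i, q) y h).symm
  rw [eq_top_iff]
  intro x _
  refine Finsupp.induction_linear (motive := fun x => x ∈ P) x (zero_mem P)
    (fun u v hu hv => add_mem hu hv) ?_
  rintro ⟨i, μ⟩ y
  exact h1 μ i y

variable (D g d Y) in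
/-- The coordinates of one degree. -/
noncomputable def rs (n : J → ℕ) : Ext D g d Y →ₗ[Lam D Unit] (Slot a d n → Y) :=
  res (Lam D Unit) Y d n

variable (D g d Y) in
/-- The element with given coordinates in one degree. -/
noncomputable def em (n : J → ℕ) : (Slot a d n → Y) →ₗ[Lam D Unit] Ext D g d Y :=
  emb (Lam D Unit) Y d n

variable (D g d Y) in
/-- The part of one degree. -/
noncomputable def kp (n : J → ℕ) : Ext D g d Y →ₗ[Lam D Unit] Ext D g d Y :=
  keep (Lam D Unit) Y d n

lemma rs_kp (n : J → ℕ) (x : Ext D g d Y) : rs D g d Y n (kp D g d Y n x) = rs D g d Y n x :=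
  res_keep d n x

lemma rs_kp_ne {m n : J → ℕ} (h : m ≠ n) (x : Ext D g d Y) :
    rs D g d Y m (kp D g d Y n x) = 0 :=
  res_keep_ne d h x

lemma rs_em (n : J → ℕ) (z : Slot a d n → Y) : rs D g d Y n (em D g d Y n z) = z :=
  res_emb d n z

lemma em_rs (n : J → ℕ) (x : Ext D g d Y) : em D g d Y n (rs D g d Y n x) = kp D g d Y n x :=
  emb_res d n x

lemma rs_ops (n : J → ℕ) (o : Op J) (ho : ¬o.IsPi) (x : Ext D g d Y) :
    rs D g d Y (n + opDeg o) (ops o x) =
      rs D g d Y (n + opDeg o) (ops o (em D g d Y n (rs D g d Y n x))) :=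
  res_op g d n o ho x

lemma rs_below (m : J → ℕ) (o : Op J) (ho : ¬o.IsPi) (hm : ¬opDeg o ≤ m) (x : Ext D g d Y) :
    rs D g d Y m (ops o x) = 0 :=
  res_op_below g d m o ho hm x

/-- A family of submodules stable under the operators gives a submodule. -/
noncomputable def famSub (T : ∀ n, Submodule (Lam D Unit) (Slot a d n → Y))
    (hT : ∀ o : Op J, ¬o.IsPi → ∀ n (x : Ext D g d Y), rs D g d Y n x ∈ T n →
      rs D g d Y (n + opDeg o) (ops o x) ∈ T (n + opDeg o)) :
    Submodule (Lam D (Option J)) (Ext D g d Y) :=
  toLam (J := Option J)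
    { carrier := {x | ∀ n, rs D g d Y n x ∈ T n}
      zero_mem' := fun n => by rw [map_zero]; exact zero_mem _
      add_mem' := fun {x y} hx hy n => by
        rw [map_add]
        exact add_mem (hx n) (hy n)
      smul_mem' := fun c x hx n => by
        rw [CoefTower.smul_eq (J := Unit) c x, map_smul]
        exact (T n).smul_mem _ (hx n) }
    (by
      intro o x hx m
      simp only [opL_apply, op_smul]
      have hold : ∀ (o1 : Op Unit) (y : Ext D g d Y), rs D g d Y m y ∈ T m →
          rs D g d Y m ((op D o1 : Lam D Unit) • y) ∈ T m := fun o1 y hy => by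
        rw [map_smul]
        exact (T m).smul_mem _ hy
      have hnew : ∀ o1 : Op J, ¬o1.IsPi → rs D g d Y m (ops o1 x) ∈ T m := by
        intro o1 ho1
        by_cases h : opDeg o1 ≤ m
        · have := hT o1 ho1 (m - opDeg o1) x (hx _)
          rwa [show m - opDeg o1 + opDeg o1 = m from
            funext fun r => Nat.sub_add_cancel (h r)] at this
        · rw [rs_below m o1 ho1 h x]
          exact zero_mem _
      cases o with
      | x r b =>
        cases r with
        | none => exact hold _ x (hx m)
        | some r => exact hnew _ (not_isPi_x r b)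
      | w r =>
        cases r with
        | none => exact hold _ x (hx m)
        | some r => exact hnew _ (not_isPi_w r)
      | pi n =>
        refine hold _ _ ?_
        show rs D g d Y m (kp D g d Y (someDeg n) x) ∈ T m
        rcases eq_or_ne m (someDeg n) with rfl | h
        · rw [rs_kp]; exact hx _
        · rw [rs_kp_ne h]; exact zero_mem _)

variable {T : ∀ n, Submodule (Lam D Unit) (Slot a d n → Y)}
  {hT : ∀ o : Op J, ¬o.IsPi → ∀ n (x : Ext D g d Y), rs D g d Y n x ∈ T n →
      rs D g d Y (n + opDeg o) (ops o x) ∈ T (n + opDeg o)}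

lemma mem_famSub {x : Ext D g d Y} :
    x ∈ famSub T hT ↔ ∀ n, rs D g d Y n x ∈ T n := Iff.rfl

lemma pi_smul (n : Option J → ℕ) (x : Ext D g d Y) :
    (op D (.pi n) : Lam D (Option J)) • x = (op D (.pi (noneDeg n)) : Lam D Unit) •
      kp D g d Y (someDeg n) x :=
  op_smul (.pi n) x

lemma hdim_famSub (hY : IsGr D a (fun _ : Unit => g0) Y) (n : Option J → ℕ) :
    hdim D (famSub T hT) n = hdim D (T (someDeg n)) (noneDeg n) := by
  have hE : IsGr D a (fun o : Option J => o.elim g0 g) (Ext D g d Y) := isGr hY
  letI : Module D (famSub T hT) := Module.compHom _ (coef D (J := Option J))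
  haveI : CoefTower D (Option J) (famSub T hT) := coefTower_compHom
  set m := someDeg n
  letI : Module D (T m) := Module.compHom _ (coef D (J := Unit))
  haveI : CoefTower D Unit (T m) := coefTower_compHom
  let f : famSub T hT →ₗ[D] T m :=
    { toFun := fun x => ⟨rs D g d Y m x.1, x.2 m⟩
      map_add' := fun x y => Subtype.ext (map_add (rs D g d Y m) x.1 y.1)
      map_smul' := fun c x => by
        refine Subtype.ext ?_
        show rs D g d Y m ((coef D (J := Option J) c) • x.1) =
          (coef D (J := Unit) c) • rs D g d Y m x.1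
        rw [← CoefTower.smul_eq (J := Option J) c x.1, CoefTower.smul_eq (J := Unit) c x.1,
          map_smul] }
  have hrec : ∀ x : Ext D g d Y, (op D (.pi n) : Lam D (Option J)) • x = x →
      x = (op D (.pi (noneDeg n)) : Lam D Unit) •
        em D g d Y m (rs D g d Y m x) := fun x hx => by
    rw [em_rs]
    exact hx.symm.trans (pi_smul n x)
  have hfix : ∀ x : pc D (famSub T hT) n, (op D (.pi n) : Lam D (Option J)) • x.1.1 = x.1.1 := by
    rintro ⟨x, x', rfl⟩
    exact hE.proj n x'.1
  have hpc : ∀ x : pc D (famSub T hT) n, f x.1 ∈ pc D (T m) (noneDeg n) := by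
    intro x
    refine ⟨f x.1, Subtype.ext ?_⟩
    show (op D (.pi (noneDeg n)) : Lam D Unit) • rs D g d Y m x.1.1 =
      rs D g d Y m x.1.1
    conv_rhs => rw [← hfix x, pi_smul]
    rw [← rs_kp m (x.1.1)]
    exact (map_smul (rs D g d Y m) _ _).symm
  let F : pc D (famSub T hT) n →ₗ[D] pc D (T m) (noneDeg n) :=
    (f.comp (pc D (famSub T hT) n).subtype).codRestrict _ hpc
  rw [hdim_eq, hdim_eq]
  congr 1
  refine LinearEquiv.finrank_eq (LinearEquiv.ofBijective F ⟨?_, ?_⟩)
  · intro x y h
    have h1 : rs D g d Y m x.1.1 = rs D g d Y m y.1.1 :=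
      congrArg (fun z : pc D (T m) (noneDeg n) => z.1.1) h
    refine Subtype.ext (Subtype.ext ?_)
    rw [hrec _ (hfix x), hrec _ (hfix y), h1]
  · rintro ⟨z, z', hz'⟩
    set e : Ext D g d Y := em D g d Y m z'.1 with he
    have he' : e ∈ famSub T hT := by
      intro k
      rcases eq_or_ne k m with rfl | hk
      · rw [he, rs_em]
        exact z'.2
      · have hkeep : kp D g d Y m e = e := by
          rw [← em_rs, he, rs_em]
        rw [← hkeep, rs_kp_ne hk]
        exact zero_mem _
    refine ⟨⟨_, ⟨⟨e, he'⟩, rfl⟩⟩, Subtype.ext (Subtype.ext ?_)⟩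
    show rs D g d Y m ((op D (.pi n) : Lam D (Option J)) • e) = z.1
    rw [pi_smul, map_smul, rs_kp, he, rs_em, ← hz']
    rfl

end Ext

end Vale.Agent.P200.Deg
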