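import Vale.Agent.P200.Deg.Cols
import Vale.Agent.P200.Deg.Ext
import Vale.Agent.P200.Deg.Calculus

/-!
The step: the Hilbert functions over the larger division ring are again combinations of the free
ones (notes/P200_helper10_free_field_v2.md, section 3).
-/

namespace Vale.Agent.P200.Deg

open Module

universe u

attribute [local instance] RhoData.Frac.div RhoData.Frac.alg RhoData.Frac.grpF RhoData.Frac.modF

section span

variable {a : ℕ} [NeZero a] {J : Type} [Fintype J]

lemma InSpan.sub {f1 f2 : (J → ℕ) → ℤ} (h1 : InSpan a f1) (h2 : InSpan a f2) :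
    InSpan a fun n => f1 n - f2 n := by
  obtain ⟨c1, N1, h1⟩ := h1
  obtain ⟨c2, N2, h2⟩ := h2
  refine ⟨c1 - c2, max N1 N2, fun n hn => ?_⟩
  show f1 n - f2 n = _
  rw [h1 n fun r => le_trans (le_max_left _ _) (hn r), h2 n fun r => le_trans (le_max_right _ _) (hn r),
    Finsupp.sum_sub_index]
  intro d b b'
  ring

/-- Passing to the value of the first block. -/
lemma slice_span {f : (Option J → ℕ) → ℤ} (hf : InSpan a f) (v : (J → ℕ) → ℤ)
    (hv : ∀ n p, Lin a (fun t => f fun o : Option J => o.elim (t ()) n) p → v n = p.1 - p.2) :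
    InSpan a v := by
  classical
  obtain ⟨c, N, hc⟩ := hf
  refine ⟨c.sum fun d k => Finsupp.single (fun r => d (some r)) (k * (1 - d none)), N,
    fun n hn => ?_⟩
  rw [hv n (c.sum fun d k => k * ∏ r, hfree a ((n r : ℤ) + d (some r)),
    c.sum fun d k => d none * (k * ∏ r, hfree a ((n r : ℤ) + d (some r)))) ⟨N, fun t ht => ?_⟩]
  · simp only
    rw [Finsupp.sum_sum_index (fun _ => zero_mul _) (fun d b b' => add_mul _ _ _), ← Finsupp.sum_sub]
    refine Finsupp.sum_congr fun d _ => ?_
    rw [Finsupp.sum_single_index (zero_mul _)]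
    ring
  · show f (fun o : Option J => o.elim t n) = _
    rw [hc _ (fun o => by cases o <;> simp [ht, hn])]
    simp only [Finsupp.sum, Finset.sum_mul, Finset.mul_sum, ← Finset.sum_add_distrib]
    refine Finset.sum_congr rfl fun d _ => ?_
    rw [Fintype.prod_option]
    simp only [Option.elim, hfree_add]
    ring

end span

variable {L : Type u} [Field L] {D : Type u} [DivisionRing D] [Algebra L D] {a : ℕ} [NeZero a]
  {J : Type} [Fintype J] [DecidableEq J] {g0 : Fin (a + 1) → L} {g : J → Fin (a + 1) → L}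

/-- The coordinates of one degree on a free module. -/
noncomputable def Free.rsF {E : Type u} [DivisionRing E] [Algebra L E] {ι : Type} {d : ι → J → ℕ}
    (n : J → ℕ) : Free E g d →ₗ[E] (Slot a d n → E) :=
  res E E d n

/-- The minimisers over all degrees. -/
theorem exists_family {R : RhoData L (Lam D Unit)} {ι : Type} [Finite ι] {d : ι → J → ℕ} {Y : R.Obj}
    {t : R.one.T →ₗ[Lam D Unit] Y.T} (ht : R.IsIso' t) [Module D Y.T] [CoefTower D Unit Y.T]
    (gens : ∀ n, Set (Slot a d n → Y.T)) (v : (J → ℕ) → ℤ)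
    (hv : ∀ n, ∃ T0 : Submodule (Lam D Unit) (Slot a d n → Y.T), gens n ⊆ T0 ∧ R.rho T0 = v n ∧
      ∀ T : Submodule (Lam D Unit) (Slot a d n → Y.T), gens n ⊆ T → R.rho T0 ≤ R.rho T)
    (hgens : ∀ o : Op J, ¬o.IsPi → ∀ n, ∀ z ∈ gens n,
      Ext.rs D g d Y.T (n + opDeg o) (Ext.ops o (Ext.em D g d Y.T n z)) ∈ gens (n + opDeg o)) :
    ∃ T : ∀ n, Submodule (Lam D Unit) (Slot a d n → Y.T), (∀ n, R.rho (T n) = v n) ∧
      ∀ o : Op J, ¬o.IsPi → ∀ n (x : Ext D g d Y.T), Ext.rs D g d Y.T n x ∈ T n →
        Ext.rs D g d Y.T (n + opDeg o) (Ext.ops o x) ∈ T (n + opDeg o) := by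
  classical
  have hmax : ∀ n, ∃ T : Submodule (Lam D Unit) (Slot a d n → Y.T),
      gens n ⊆ T ∧ R.rho T = v n ∧ ∀ T' : Submodule (Lam D Unit) (Slot a d n → Y.T),
        gens n ⊆ T' → R.rho T' ≤ v n → T' ≤ T := by
    intro n
    obtain ⟨T0, hT0, hT0v, hmin⟩ := hv n
    have hfn := (piY_spec ht (Slot a d n)).1
    have := R.noeth _ hfn
    obtain ⟨T, ⟨hT, hTv⟩, hTmax⟩ := set_has_maximal_iff_noetherian.2 this
      {T : Submodule (Lam D Unit) (Slot a d n → Y.T) | gens n ⊆ T ∧ R.rho T = v n}
      ⟨T0, hT0, hT0v⟩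
    refine ⟨T, hT, hTv, fun T' hT' hT'v => ?_⟩
    have h1 := R.rho_sup hfn T T'
    have h2 := hmin (T ⊓ T') fun z hz => ⟨hT hz, hT' hz⟩
    have h3 := hmin (T ⊔ T') fun z hz => Submodule.mem_sup_left (hT hz)
    have h4 : R.rho ↥(T ⊔ T') = v n := by omega
    have h5 : T = T ⊔ T' := by
      by_contra hne
      exact hTmax (T ⊔ T') ⟨fun z hz => Submodule.mem_sup_left (hT hz), h4⟩
        (lt_of_le_of_ne le_sup_left hne)
    rw [h5]
    exact le_sup_right
  choose T hTg hTv hTmax using hmax
  refine ⟨T, hTv, fun o ho n x hx => ?_⟩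
  obtain ⟨T0, hT0, hT0v, hmin⟩ := hv n
  obtain ⟨T1, hT1, hT1v, hmin1⟩ := hv (n + opDeg o)
  set m := n + opDeg o
  let φ : (Slot a d n → Y.T) →ₗ[Lam D Unit] (Slot a d m → Y.T) :=
    (Ext.rs D g d Y.T m).comp ((Ext.ops o).comp (Ext.em D g d Y.T n))
  suffices hsub : (T n).map φ ≤ T m by
    rw [Ext.rs_ops n o ho x]
    exact hsub ⟨_, hx, rfl⟩
  have hfn := (piY_spec ht (Slot a d n)).1
  have hfm := (piY_spec ht (Slot a d m)).1
  have h1 := R.rho_sup hfm ((T n).map φ) (T m)
  have h2 := R.rho_map φ hfn (T n)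
  have h3 := R.rho_map φ hfn (T n ⊓ (T m).comap φ)
  have h4 : T n ⊓ (T m).comap φ ⊓ LinearMap.ker φ = T n ⊓ LinearMap.ker φ := by
    rw [inf_assoc, inf_eq_right.2 (LinearMap.ker_le_comap φ)]
  have h5 : (T n ⊓ (T m).comap φ).map φ = (T n).map φ ⊓ T m := by
    apply le_antisymm
    · rintro _ ⟨z, hz, rfl⟩
      exact ⟨⟨z, hz.1, rfl⟩, hz.2⟩
    · rintro _ ⟨⟨z, hz, rfl⟩, hzm⟩
      exact ⟨z, ⟨hz, hzm⟩, rfl⟩
  rw [h4, h5] at h3
  have h6 : v n ≤ R.rho ↥(T n ⊓ (T m).comap φ) := hT0v ▸ hmin _ fun z hz =>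
    ⟨hTg n hz, hTg m (hgens o ho n z hz)⟩
  have h7 := hTv n
  have h8 := hTv m
  exact le_sup_left.trans (hTmax m ((T n).map φ ⊔ T m)
    (fun z hz => Submodule.mem_sup_right (hTg m hz)) (by omega))

/-- Scalars combine maps. -/
lemma val_combo {Λ : Type u} [Ring Λ] [Algebra L Λ] {R : RhoData L Λ} (C : R.Frac) {Y : R.Obj}
    (t : R.one.T →ₗ[Λ] Y.T) {m : ℕ} (f : Fin m → (R.one.T →ₗ[Λ] Y.T)) (c : Fin m → C.E)
    (hf : ∀ i, C.map (f i) C.unit = c i • C.map t C.unit) (r : Fin m → L)
    (h : R.one.T →ₗ[Λ] Y.T) (hh : ∀ x, h x = ∑ i, algebraMap L Λ (r i) • f i x) :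
    C.map h C.unit = (∑ i, algebraMap L C.E (r i) * c i) • C.map t C.unit := by
  let sc : L → (Y.T →ₗ[Λ] Y.T) := fun l =>
    { toFun := fun y => algebraMap L Λ l • y
      map_add' := smul_add _
      map_smul' := fun s y => by simp only [RingHom.id_apply, smul_smul, Algebra.commutes] }
  have h1 : h = ∑ i, sc (r i) ∘ₗ f i := LinearMap.ext fun x => by
    rw [hh, LinearMap.sum_apply]; rfl
  rw [h1, C.map_sum, LinearMap.sum_apply, Finset.sum_smul]
  refine Finset.sum_congr rfl fun i _ => ?_
  rw [C.map_scalar (r i) (f i) (sc (r i) ∘ₗ f i) (fun x => rfl), hf, smul_smul]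

variable (hgood : Good1 D a g0) (C : (oneData hgood).Frac)

include hgood in
/-- The induction step, for one finitely generated graded module over the larger division ring. -/
theorem inSpan_step (hD : ∀ (N : Type u) [AddCommGroup N] [Module (Lam D (Option J)) N],
      IsGr D a (fun o : Option J => o.elim g0 g) N → InSpan a (hdim D (J := Option J) N))
    (M : Type u) [AddCommGroup M] [Module (Lam C.E J) M] (hM : IsGr C.E a g M) :
    InSpan a (hdim C.E (J := J) M) := by
  classical
  letI : Module C.E M := Module.compHom M (coef C.E (J := J))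
  haveI : CoefTower C.E J M := coefTower_compHom
  -- a presentation
  obtain ⟨s, hs, hstop⟩ := hM.exists_gens
  choose! dd hdd using hs
  let e := s.equivFin
  let y : Fin s.card → M := fun i => (e.symm i).1
  let d : Fin s.card → J → ℕ := fun i => dd (y i)
  have hy : ∀ i, (op C.E (.pi (d i)) : Lam C.E J) • y i = y i :=
    fun i => hM.mem_pc.1 (hdd _ (e.symm i).2)
  let π := Free.lift hM y hy
  have hπ : Function.Surjective π := by
    refine Free.lift_surjective hM y hy fun x => ?_
    have hx : x ∈ cl ((allOps J).map fun o => (opL (D := C.E) (M := M) o : Module.End C.E M))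
        (↑s : Set M) := hstop ▸ trivial
    refine cl_mono ?_ hx
    intro z hz
    exact ⟨e ⟨z, hz⟩, by simp [y]⟩
  set K := LinearMap.ker π
  have hF : IsGr C.E a g (Free C.E g d) := Free.isGr
  haveI := hF.isNoetherian
  obtain ⟨t, htK⟩ := IsNoetherian.noetherian K
  -- the coefficients and their common denominator
  let cs : Finset C.E := t.biUnion fun k =>
    (show (Fin s.card × Mon J a) →₀ C.E from k).support.image
      (show (Fin s.card × Mon J a) →₀ C.E from k)
  let W : Submodule L C.E := Submodule.span L ↑cs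
  haveI : FiniteDimensional L W := FiniteDimensional.span_finset L cs
  let bW := Module.finBasis L W
  obtain ⟨Y, t1, f, ht1, hf⟩ := C.exists_denom (finrank L W) fun i => (bW i : C.E)
  letI : Module D Y.T := Module.compHom Y.T (coef D (J := Unit))
  haveI : CoefTower D Unit Y.T := coefTower_compHom
  let ev : (oneData hgood).one.T → (W →+ Y.T) := fun x =>
    { toFun := fun w => ∑ i, algebraMap L (Lam D Unit) (bW.repr w i) • f i x
      map_zero' := by simp
      map_add' := fun w w' => by simp [add_smul, Finset.sum_add_distrib] }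
  have hevs : ∀ x (l : L) (w : W),
      ev x (algebraMap L L l • w) = algebraMap L (Lam D Unit) l • ev x w := by
    intro x l w
    show ∑ i : Fin (finrank L W), _ = algebraMap L (Lam D Unit) l • ∑ i : Fin (finrank L W), _
    rw [Finset.smul_sum]
    refine Finset.sum_congr rfl fun i _ => ?_
    rw [Algebra.algebraMap_self, RingHom.id_apply, map_smul, Finsupp.smul_apply, smul_eq_mul,
      map_mul, mul_smul]
  let fW : W → ((oneData hgood).one.T →ₗ[Lam D Unit] Y.T) := fun w =>
    { toFun := fun x => ev x w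
      map_add' := fun x x' => by
        show ∑ i : Fin (finrank L W), algebraMap L (Lam D Unit) (bW.repr w i) • f i (x + x') =
          (∑ i : Fin (finrank L W), algebraMap L (Lam D Unit) (bW.repr w i) • f i x) +
            ∑ i : Fin (finrank L W), algebraMap L (Lam D Unit) (bW.repr w i) • f i x'
        rw [← Finset.sum_add_distrib]
        exact Finset.sum_congr rfl fun i _ => by rw [map_add, smul_add]
      map_smul' := fun l x => by
        show ∑ i : Fin (finrank L W), algebraMap L (Lam D Unit) (bW.repr w i) • f i (l • x) =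
          l • ∑ i : Fin (finrank L W), algebraMap L (Lam D Unit) (bW.repr w i) • f i x
        rw [Finset.smul_sum]
        exact Finset.sum_congr rfl fun i _ => by
          rw [map_smul, smul_smul, smul_smul, Algebra.commutes] }
  have hfW : ∀ w : W, C.map (fW w) C.unit = (w : C.E) • C.map t1 C.unit := by
    intro w
    rw [val_combo C t1 f (fun i => (bW i : C.E)) hf (fun i => bW.repr w i) (fW w) fun x => rfl]
    congr 1
    conv_rhs => rw [← bW.sum_repr w, Submodule.coe_sum]
    exact Finset.sum_congr rfl fun i _ => by rw [Submodule.coe_smul, Algebra.smul_def]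
  -- vectors over `W`
  let inc : ((Fin s.card × Mon J a) →₀ W) →+ Free C.E g d :=
    Finsupp.mapRange.addMonoidHom W.subtype.toAddMonoidHom
  have hincop : ∀ o x, inc (newOp L W g d o x) = (op C.E o : Lam C.E J) • inc x := fun o x => by
    rw [Free.op_smul]
    exact mapRange_newOp (R := L) (R' := C.E) g d W.subtype.toAddMonoidHom
      (fun l w => by simp [Algebra.smul_def]) o x
  let 𝒦 : Submodule L ((Fin s.card × Mon J a) →₀ W) :=
    sInf {P | (∀ z, inc z ∈ (↑t : Set (Free C.E g d)) → z ∈ P) ∧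
      ∀ o, ∀ z ∈ P, newOp L W g d o z ∈ P}
  have h𝒦op : ∀ o, ∀ z ∈ 𝒦, newOp L W g d o z ∈ 𝒦 := fun o z hz => by
    simp only [𝒦, Submodule.mem_sInf] at hz ⊢
    exact fun P hP => hP.2 o z (hz P hP)
  have h𝒦t : ∀ z, inc z ∈ (↑t : Set (Free C.E g d)) → z ∈ 𝒦 := fun z hz => by
    simp only [𝒦, Submodule.mem_sInf]
    exact fun P hP => hP.1 z hz
  have hincl : ∀ (l : L) z, inc (l • z) = algebraMap L (Lam C.E J) l • inc z := by
    intro l z
    rw [algebraMap_smul_eq]
    refine Finsupp.ext fun p => ?_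
    show ((l • z p : W) : C.E) = algebraMap L C.E l * ((z p : W) : C.E)
    rw [Submodule.coe_smul, Algebra.smul_def]
  have h𝒦K : ∀ z ∈ 𝒦, inc z ∈ K := by
    intro z hz
    let P0 : Submodule L ((Fin s.card × Mon J a) →₀ W) :=
      { carrier := {z | inc z ∈ K}
        zero_mem' := by show inc 0 ∈ K; rw [map_zero]; exact zero_mem _
        add_mem' := fun {u v} hu hv => by show inc (u + v) ∈ K; rw [map_add]; exact add_mem hu hv
        smul_mem' := fun l u hu => by show inc (l • u) ∈ K; rw [hincl]; exact K.smul_mem _ hu }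
    simp only [𝒦, Submodule.mem_sInf] at hz
    exact hz P0 ⟨fun u hu => (show inc u ∈ K by rw [← htK]; exact Submodule.subset_span hu),
      fun o u hu => by show inc _ ∈ K; rw [hincop]; exact K.smul_mem _ hu⟩
  have hKspan : ∀ x ∈ K, x ∈ Submodule.span C.E (inc '' (𝒦 : Set _)) := by
    let P := Submodule.span C.E (inc '' (𝒦 : Set _))
    have hst : ∀ o : Op J, ∀ x ∈ P, opL (D := C.E) o x ∈ P := fun o x hx => by
      refine Submodule.span_le (p := P.comap (opL (D := C.E) o)).2 ?_ hx
      rintro _ ⟨z, hz, rfl⟩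
      exact Submodule.subset_span ⟨_, h𝒦op o z hz, hincop o z⟩
    intro x hx
    have hle : K ≤ toLam (J := J) P hst := by
      rw [← htK, Submodule.span_le]
      intro k hk
      let kf : (Fin s.card × Mon J a) →₀ C.E := k
      have hmem : ∀ p, kf p ∈ W := by
        intro p
        by_cases hp : p ∈ kf.support
        · exact Submodule.subset_span (Finset.mem_coe.2 (Finset.mem_biUnion.2
            ⟨k, hk, Finset.mem_image.2 ⟨p, hp, rfl⟩⟩))
        · rw [Finsupp.notMem_support_iff.1 hp]
          exact zero_mem _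
      let z : (Fin s.card × Mon J a) →₀ W :=
        Finsupp.onFinset kf.support (fun p => ⟨kf p, hmem p⟩) fun p hp => by
          simpa [Subtype.ext_iff] using hp
      have hz : inc z = k := Finsupp.ext fun p => rfl
      exact Submodule.subset_span ⟨z, h𝒦t z (hz ▸ hk), hz⟩
    exact hle hx
  -- the families
  let gens : ∀ n, Set (Slot a d n → Y.T) := fun n =>
    {z | ∃ w ∈ 𝒦, ∃ x, z = fun p => ev x (w p.1)}
  have hgens : ∀ o : Op J, ¬o.IsPi → ∀ n, ∀ z ∈ gens n,
      Ext.rs D g d Y.T (n + opDeg o) (Ext.ops o (Ext.em D g d Y.T n z)) ∈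
        gens (n + opDeg o) := by
    rintro o ho n _ ⟨w, hw, x, rfl⟩
    refine ⟨newOp L W g d o w, h𝒦op o w hw, x, ?_⟩
    let u : Ext D g d Y.T := Finsupp.mapRange (ev x) (ev x).map_zero w
    have hu : Ext.rs D g d Y.T n u = fun p => ev x (w p.1) := rfl
    rw [← hu, ← Ext.rs_ops n o ho u]
    have hnat : (Ext.ops o u : Ext D g d Y.T) =
        (Finsupp.mapRange (ev x) (ev x).map_zero (newOp L W g d o w) :) :=
      (mapRange_newOp (R := L) (R' := Lam D Unit) g d (ev x) (hevs x) o w).symm
    rw [hnat]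
    rfl
  let v : (J → ℕ) → ℤ := fun n => hdim C.E (J := J) K n
  have hv : ∀ n, ∃ T0 : Submodule (Lam D Unit) (Slot a d n → Y.T), gens n ⊆ T0 ∧
      (oneData hgood).rho T0 = v n ∧ ∀ T : Submodule (Lam D Unit) (Slot a d n → Y.T),
        gens n ⊆ T → (oneData hgood).rho T0 ≤ (oneData hgood).rho T := by
    intro n
    set 𝒦n := 𝒦.map (res L W d n) with h𝒦n
    obtain ⟨k, w, hw⟩ := Submodule.fg_iff_exists_fin_generating_family.1
      (IsNoetherian.noetherian 𝒦n)
    obtain ⟨T0, hT0, hT0r, hmin⟩ := exists_min_columns ht1 (Slot a d n) C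
      (fun i p => fW (w i p)) (fun i p => (w i p : C.E)) (fun i p => hfW (w i p))
    have hgensub : ∀ T : Submodule (Lam D Unit) (Slot a d n → Y.T),
        (∀ i x, (fun p => fW (w i p) x) ∈ T) → gens n ⊆ T := by
      rintro T hT _ ⟨z, hz, x, rfl⟩
      let Q : Submodule L (Slot a d n → W) :=
        { carrier := {q | (fun p => ev x (q p)) ∈ T}
          zero_mem' := by
            show (fun p => ev x ((0 : Slot a d n → W) p)) ∈ T
            simp only [Pi.zero_apply, map_zero]
            exact zero_mem T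
          add_mem' := fun {q q'} hq hq' => by
            show (fun p => ev x ((q + q') p)) ∈ T
            simp only [Pi.add_apply, map_add]
            exact add_mem hq hq'
          smul_mem' := fun l q hq => by
            show (fun p => ev x (l • q p)) ∈ T
            have : ∀ p, ev x (l • q p) = algebraMap L (Lam D Unit) l • ev x (q p) :=
              fun p => hevs x l (q p)
            simp only [this]
            exact T.smul_mem _ hq }
      have : res L W d n z ∈ Q := by
        have h1 : res L W d n z ∈ Submodule.span L (Set.range w) := hw ▸ ⟨z, hz, rfl⟩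
        refine Submodule.span_le.2 ?_ h1
        rintro _ ⟨i, rfl⟩
        exact hT i x
      exact this
    refine ⟨T0, hgensub T0 hT0, ?_, fun T hT => hmin T fun i x => ?_⟩
    · rw [hT0r]
      -- the rank is the dimension of the piece of `K`
      letI : Module C.E K := Module.compHom K (coef C.E (J := J))
      haveI : CoefTower C.E J K := coefTower_compHom
      show _ = hdim C.E (J := J) K n
      rw [hdim_eq]
      congr 1
      let ψ : pc C.E K n →ₗ[C.E] (Slot a d n → C.E) :=
        ((Free.rsF (g := g) (d := d) n).comp (linD K.subtype)).comp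
          (pc C.E K n).subtype
      have hfix : ∀ x : pc C.E K n, emb C.E C.E d n (ψ x) = x.1.1 := by
        rintro ⟨x, x', rfl⟩
        refine (emb_res d n _).trans ?_
        exact ((Free.op_smul (g := g) (d := d) (.pi n) _).symm.trans
          (hF.proj n x'.1) :)
      have hψ : Function.Injective ψ := fun x x' h => by
        refine Subtype.ext (Subtype.ext ?_)
        rw [← hfix x, ← hfix x', h]
      rw [← LinearMap.finrank_range_of_inj hψ]
      suffices hsr : Submodule.span C.E (Set.range fun i p => (w i p : C.E)) =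
          LinearMap.range ψ by rw [hsr]
      refine le_antisymm (Submodule.span_le.2 ?_) ?_
      · rintro _ ⟨i, rfl⟩
        have hwi : w i ∈ 𝒦n := hw ▸ Submodule.subset_span ⟨i, rfl⟩
        obtain ⟨z, hz, hzw⟩ := hwi
        have hzK : (op C.E (.pi n) : Lam C.E J) • inc z ∈ K := K.smul_mem _ (h𝒦K z hz)
        refine ⟨⟨⟨_, hzK⟩, ⟨⟨inc z, h𝒦K z hz⟩, rfl⟩⟩, ?_⟩
        show Free.rsF (g := g) (d := d) n ((op C.E (.pi n) : Lam C.E J) • inc z) = _
        rw [Free.op_smul]
        refine (res_keep d n _).trans (funext fun p => ?_)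
        show ((z p.1 : W) : C.E) = (w i p : C.E)
        rw [← hzw]
        rfl
      · rintro _ ⟨x, rfl⟩
        have hx := hKspan x.1.1 x.1.2
        show Free.rsF (g := g) (d := d) n x.1.1 ∈ _
        let Q := (Submodule.span C.E (Set.range fun i => fun p => (w i p : C.E))).comap
          (Free.rsF (g := g) (d := d) n)
        refine (Submodule.span_le (p := Q)).2 ?_ hx
        rintro _ ⟨z, hz, rfl⟩
        have h1 : res L W d n z ∈ Submodule.span L (Set.range w) := hw ▸ ⟨z, hz, rfl⟩
        let Q' : Submodule L (Slot a d n → W) :=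
          ((Submodule.span C.E (Set.range fun i => fun p => (w i p : C.E))).restrictScalars L).comap
            ((W.subtype).compLeft (Slot a d n))
        have h2 : res L W d n z ∈ Q' := by
          refine Submodule.span_le.2 ?_ h1
          rintro _ ⟨i, rfl⟩
          exact Submodule.subset_span ⟨i, rfl⟩
        exact h2
    · have hwi : w i ∈ 𝒦n := hw ▸ Submodule.subset_span ⟨i, rfl⟩
      obtain ⟨z, hz, hzw⟩ := hwi
      exact hT ⟨z, hz, x, funext fun p => by rw [← hzw]; rfl⟩
  obtain ⟨T, hTv, hT⟩ := exists_family (g := g) ht1 gens v hv hgens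
  -- the modules over the smaller division ring
  have hY : IsGr D a (fun _ : Unit => g0) Y.T := Y.fn
  have hN : IsGr D a (fun o : Option J => o.elim g0 g) (Ext D g d Y.T) := Ext.isGr hY
  have hpiece : ∀ (T' : ∀ n, Submodule (Lam D Unit) (Slot a d n → Y.T))
      (_hT' : ∀ o : Op J, ¬o.IsPi → ∀ n (x : Ext D g d Y.T), Ext.rs D g d Y.T n x ∈ T' n →
        Ext.rs D g d Y.T (n + opDeg o) (Ext.ops o x) ∈ T' (n + opDeg o)),
      InSpan a fun n => (oneData hgood).rho (T' n) := by
    intro T' hT'
    refine slice_span (hD _ (hN.sub (Ext.famSub T' hT'))) _ fun n p hp => ?_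
    refine rhoOne_eq (D := D) ?_
    obtain ⟨N0, hN0⟩ := hp
    refine ⟨N0, fun t ht => ?_⟩
    exact (Ext.hdim_famSub hY fun o : Option J => o.elim t n).symm.trans (hN0 t ht)
  have hsub := hpiece T hT
  have htot := hpiece (fun _ => ⊤) (fun _ _ _ _ _ => trivial)
  have key : ∀ n, hdim C.E (J := J) M n =
      (oneData hgood).rho (⊤ : Submodule (Lam D Unit) (Slot a d n → Y.T)) -
        (oneData hgood).rho (T n) := by
    intro n
    rw [hTv n, (oneData hgood).rho_top, (piY_spec ht1 (Slot a d n)).2.2]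
    show _ = _ - hdim C.E (J := J) K n
    rw [← Free.hdim_free (D := C.E) (g := g) (d := d) n, hF.hdim_add K n,
      hdim_congr (LinearMap.quotKerEquivOfSurjective π hπ) n]
    ring
  obtain ⟨c, N, h⟩ := htot.sub hsub
  exact ⟨c, N, fun n hn => (key n).trans (h n hn)⟩

/-- The step of the induction. -/
theorem stepGoal (hcalc : CalcGoal.{u}) : StepGoal.{u} := by
  intro L _ D _ _ a b g S r ha hr hgd
  haveI : NeZero a := ⟨by omega⟩
  have hone : Good1 D a (g r) := fun M _ _ hM =>
    (hgd Unit (fun _ => r) (fun _ _ _ => rfl) (by rintro _ ⟨_, rfl⟩; exact hr) M hM).2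
  obtain ⟨C⟩ := hcalc L (Lam D Unit) (oneData hone)
  obtain ⟨φ, e, hc, hpoly, hind⟩ := exists_block hone C ha
  refine ⟨C.E, C.div, C.alg, φ, e, hc, hpoly, hind, ?_⟩
  intro J _ _ ι hι hιS M _ _ hM
  refine ⟨hM.finPieces, inSpan_step hone C (fun N _ _ hN => ?_) M hM⟩
  have heq : (fun o : Option J => o.elim (g r) fun j => g (ι j)) =
      fun o : Option J => g (o.elim r ι) := funext fun o => by cases o <;> rfl
  rw [heq] at hN
  refine (hgd (Option J) (fun o => o.elim r ι) ?_ ?_ N hN).2
  · rintro (_ | i) (_ | j) h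
    · rfl
    · exact absurd h.symm (hιS ⟨j, rfl⟩).2
    · exact absurd h (hιS ⟨i, rfl⟩).2
    · exact congrArg some (hι h)
  · rintro _ ⟨_ | i, rfl⟩
    · exact hr
    · exact (hιS ⟨i, rfl⟩).1

end Vale.Agent.P200.Deg
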