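import Vale.Agent.P200.Deg.Index
import Vale.Agent.P200.Deg.Torus.Twist
import Vale.Agent.P200.Deg.Torus.Extend

/-!
The base of the induction: the quantum torus over `K(T)`, extended by the variables `z_l`.
-/

noncomputable section

namespace Vale.Agent.P200.Deg

open Module MvPolynomial TensorProduct

universe u

/-- The starting division algebra, with the blocks twisted into central coefficients. -/
theorem exists_base (K : Type u) [Field K] [IsAlgClosed K] {a b m : ℕ} (ha : 0 < a) {w : K}
    (hw : IsPrimitiveRoot w a) (c : Fin b → Fin m → Fin (a + 1) → K)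
    (hc : ∀ (F : Type u) [Field F] [Algebra K F] (x : Fin b → Fin 2 → F), (∀ r, x r ≠ 0) →
      LinearIndependent F fun r l =>
        ∑ p : Fin (a + 1), algebraMap K F (c r l p) * x r 0 ^ (p : ℕ) * x r 1 ^ (a - (p : ℕ))) :
    ∃ (L : Type u) (_ : Field L) (_ : Algebra K L) (E : Type u) (_ : DivisionRing E)
      (_ : Algebra L E) (_ : Algebra K E) (_ : IsScalarTower K L E) (t : Fin b → E)
      (z : Fin m → L) (g : Fin b → Fin (a + 1) → L),
      (∀ r, t r ≠ 0) ∧ (∀ r s, r < s → t r * t s = algebraMap K E w * (t s * t r)) ∧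
      (∀ r p, t r ^ a * algebraMap L E (g r p) =
        ∑ l, algebraMap K E (c r l p) * algebraMap L E (z l)) ∧
      Good E a g Set.univ := by
  classical
  have : NeZero a := ⟨ha.ne'⟩
  have hwa : w ^ a = 1 := hw.pow_eq_one
  obtain ⟨D, iD, iAD, iFD, t, ht0, htc, htp⟩ := Torus.exists_torus (K := K) (b := b) hwa
  obtain ⟨E, iE, iLE, iKE, iTow, φ, hspan⟩ := Torus.exists_ext (Torus.Base K b) D m
  let L : Type u := Torus.Zf (Torus.Base K b) m
  let : Algebra K E := ((algebraMap L E).comp (algebraMap K L)).toAlgebra' fun k x =>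
    Algebra.commutes (algebraMap K L k) x
  have : IsScalarTower K L E := IsScalarTower.of_algebraMap_eq fun _ => rfl
  -- the twisted coefficients
  let Tv : Fin b → Torus.Base K b := fun r => algebraMap (MvPolynomial (Fin b) K) _ (X r)
  have hT : ∀ r, Tv r ≠ 0 := fun r =>
    (map_ne_zero_iff _ (IsFractionRing.injective _ (Torus.Base K b))).2 (X_ne_zero r)
  let c' : Fin b → Fin m → Fin (a + 1) → Torus.Base K b := fun r l p =>
    algebraMap K _ (c r l p) * (Tv r)⁻¹
  have hind : ∀ x : Fin b → Fin 2 → AlgebraicClosure (Torus.Base K b), (∀ r, x r ≠ 0) →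
      LinearIndependent (AlgebraicClosure (Torus.Base K b)) fun r l =>
        ∑ p : Fin (a + 1), algebraMap (Torus.Base K b) (AlgebraicClosure (Torus.Base K b))
          (c' r l p) * x r 0 ^ (p : ℕ) * x r 1 ^ (a - (p : ℕ)) := by
    intro x hx
    have h := (hc (AlgebraicClosure (Torus.Base K b)) x hx).units_smul fun r =>
      Units.mk0 (algebraMap (Torus.Base K b) (AlgebraicClosure (Torus.Base K b)) (Tv r)⁻¹)
        ((map_ne_zero _).2 (inv_ne_zero (hT r)))
    convert h using 1
    funext r l
    simp only [Pi.smul_apply', Units.smul_def, Units.val_mk0, Pi.smul_apply, smul_eq_mul,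
      Finset.mul_sum]
    refine Finset.sum_congr rfl fun p _ => ?_
    simp only [c', map_mul, ← IsScalarTower.algebraMap_apply]
    ring
  have hgood := baseGoal (Torus.Base K b) D a b m c' ha hind E ⟨φ, hspan⟩
  refine ⟨L, inferInstance, inferInstance, E, inferInstance, inferInstance, inferInstance,
    inferInstance, fun r => φ (t r), fun l => algebraMap _ L (X l : MvPolynomial (Fin m) (Torus.Base K b)), _, ?_, ?_, ?_, hgood⟩
  · exact fun r => (map_ne_zero φ.toRingHom).2 (ht0 r)
  · intro r s h
    rw [← map_mul φ, ← map_mul φ, htc r s h, map_mul φ, AlgHom.commutes]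
    congr 1
    rw [IsScalarTower.algebraMap_apply (Torus.Base K b) L E,
      IsScalarTower.algebraMap_apply K L E,
      IsScalarTower.algebraMap_apply K (Torus.Base K b) L]
  · intro r p
    rw [← map_pow φ, htp, AlgHom.commutes, map_sum, Finset.mul_sum]
    refine Finset.sum_congr rfl fun l _ => ?_
    rw [IsScalarTower.algebraMap_apply (Torus.Base K b) L E,
      IsScalarTower.algebraMap_apply K L E, ← map_mul (algebraMap L E), ← map_mul (algebraMap L E)]
    congr 1
    rw [map_mul, ← mul_assoc, ← MvPolynomial.algebraMap_eq,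
      ← IsScalarTower.algebraMap_apply (Torus.Base K b) (MvPolynomial (Fin m) (Torus.Base K b)) L,
      ← map_mul]
    congr 1
    rw [IsScalarTower.algebraMap_apply K (Torus.Base K b) L]
    congr 1
    simp only [c', Tv]
    rw [mul_comm, mul_assoc, inv_mul_cancel₀ (hT r), mul_one]

end Vale.Agent.P200.Deg
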