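import Vale.Agent.P200.Betti.Free.PrimePower
import Vale.Agent.P200.Betti.Tri.LPP
import Vale.Agent.P200.Betti.Tri.Rows
import Vale.Agent.P200.PMix.HasRows

/-!
From linear factorisations to lex-plus-powers for one degree.
-/

namespace Vale.Agent.P200.Deg

open MvPolynomial Module
open Vale.Agent.P200.Betti (betti setIdeal)

universe u

/-- Factorisations in every equal degree below the characteristic give the theorem. -/
theorem lpp_equal
    (H : ∀ (F : Type u) [Field F] [IsAlgClosed F] (q n : ℕ), 2 ≤ q →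
      (∀ i : ℕ, 0 < i → i ≤ q → (i : F) ≠ 0) → Vale.Agent.P200.Skew.Factorises F n q)
    (K : Type u) [Field K] {n c q : ℕ} (hcn : c ≤ n) (hq : 2 ≤ q)
    (hchar : ringChar K = 0 ∨ q < ringChar K)
    {f : Fin c → MvPolynomial (Fin n) K} (hf : ∀ i, (f i).IsHomogeneous q)
    (hreg : RegList ⊥ (List.ofFn f)) {I : Ideal (MvPolynomial (Fin n) K)} (hI : HomogI I)
    (hfI : ∀ i, f i ∈ I) :
    ∃ T : ℕ → Finset (Fin n →₀ ℕ), (∀ d,
      (∀ e ∈ T d, e.degree = d) ∧
      (∀ e : Fin n →₀ ℕ, e.degree = d → (∃ i : Fin c, q ≤ e (Fin.castLE hcn i)) → e ∈ T d) ∧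
      (∀ e ∈ T d, ∀ e' : Fin n →₀ ℕ, e'.degree = d →
        (∀ i : Fin c, e (Fin.castLE hcn i) < q) → (∀ i : Fin c, e' (Fin.castLE hcn i) < q) →
        toLex e < toLex e' → e' ∈ T d) ∧
      (T d).card = finrank K ↥(homogeneousSubmodule (Fin n) K d ⊓ I.restrictScalars K) ∧
      ∀ e ∈ T d, ∀ v : Fin n, e + Finsupp.single v 1 ∈ T (d + 1)) ∧
    ∀ p j, betti I p j ≤
      betti (Ideal.span ((fun e => monomial e (1 : K)) '' {e | ∃ d, e ∈ T d})) p j := by
  have hne : ∀ i : ℕ, 0 < i → i ≤ q → (i : AlgebraicClosure K) ≠ 0 := by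
    intro i h1 h2 h
    have hK : (i : K) = 0 := (algebraMap K (AlgebraicClosure K)).injective (by
      rw [map_natCast, map_zero]; exact h)
    have hd : ringChar K ∣ i := ringChar.dvd hK
    rcases hchar with h0 | hlt
    · rw [h0] at hd
      have := zero_dvd_iff.1 hd
      omega
    · have := Nat.le_of_dvd h1 hd
      omega
  obtain ⟨S, hdeg, hpow, hcl, hcard, hle⟩ :=
    Vale.Agent.P200.Betti.Skew.exists_monomial_betti_of_factorises (by omega)
      (H (AlgebraicClosure K) q n hq hne) hcn hf hreg hI hfI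
  obtain ⟨T, hT, hle2⟩ := Vale.Agent.P200.Betti.exists_lpp_monomial_powers K hcn
    monotone_const (fun _ => hq) hdeg hpow hcl
  exact ⟨T, fun d => ⟨(hT d).1, (hT d).2.1, (hT d).2.2.1,
    (hT d).2.2.2.1.trans (hcard d), (hT d).2.2.2.2⟩, fun p j => (hle p j).trans (hle2 p j)⟩

end Vale.Agent.P200.Deg
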