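import Vale.Agent.P200.PMix.Models
import Vale.Agent.P200.Deg.Final
import Vale.Agent.P200.Deg.Wrap
import Vale.Agent.P200.Deg.Torus
import Vale.Agent.P200.Deg.Induct
import Vale.Agent.P200.Deg.Calculus

/-!
Cores of forms of degree at most `q` for every degree `q` below the characteristic.
-/

namespace Vale.Agent.P200.Deg

open MvPolynomial Module

universe u

/-- Linear factorisations in every degree below the characteristic. -/
theorem factorises (F : Type u) [Field F] [IsAlgClosed F] (q n : ℕ) (hq : 2 ≤ q)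
    (hchar : ∀ i : ℕ, 0 < i → i ≤ q → (i : F) ≠ 0) : Skew.Factorises F n q :=
  factorises_of (stepGoal calcGoal) (fun K _ _ => exists_base K) F hq hchar

/-- Good growth for two forms of degree at most `q` and forms of degree `q`. -/
lemma goodCore_large {K : Type u} [Field K] {q : ℕ} (hq : 2 ≤ q)
    (hchar : ∀ i : ℕ, 0 < i → i ≤ q → (i : K) ≠ 0) : Split.GoodCore K q := by
  intro m a ha h2 h1 htail f hf hreg I hI hfI d
  have hchar' : ∀ i : ℕ, 0 < i → i ≤ q → (i : AlgebraicClosure K) ≠ 0 := fun i h1 h2 => by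
    rw [← map_natCast (algebraMap K (AlgebraicClosure K))]
    exact fun h => hchar i h1 h2 ((map_eq_zero _).1 h)
  have hpos : ∀ i, 0 < a i := fun i => by linarith [h2 i]
  obtain ⟨s, hs, hd⟩ := Cyc.exists_monomialIdeal hpos
    (Skew.models_two_low (factorises (AlgebraicClosure K) q (m + 2) hq hchar') hpos
      (ha (Fin.zero_le _)) h1 htail) le_rfl hf hreg hI hfI
  obtain ⟨T, hT⟩ := Box.exists_lpp K le_rfl ha s hs
  exact Split.good_of_sets (T := T) (fun t => (hT t).1)
    (fun t e he ⟨i, hi⟩ => (hT t).2.1 e he ⟨i, by simpa using hi⟩)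
    (fun t e he e' hd' h h' => (hT t).2.2.1 e he e' hd' (fun i => by simpa using h i)
      (fun i => by simpa using h' i))
    (fun t => (hT t).2.2.2.1.trans (hd t)) (fun t => (hT t).2.2.2.2) d

/-- Lex-plus-powers spaces on cores, for every degree `q` below the characteristic, or a power of
the characteristic, or two. -/
theorem coreForms (K : Type u) [Field K] (n c : ℕ)
    (hc : c ≤ n) (a : Fin c → ℕ) (q : ℕ)
    (hq : q = 2 ∨ (2 ≤ q ∧ (ringChar K = 0 ∨ q < ringChar K)) ∨ IsPrimePow q ∧ ringChar K ∣ q)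
    (hn : 3 ≤ n ∨ (∀ i, a i = q) ∨ ∀ i, IsPrimePow (a i) ∧ ringChar K ∣ a i) (ha : Monotone a)
    (ha2 : ∀ i, 2 ≤ a i) (f : Fin c → MvPolynomial (Fin n) K) (hf : ∀ i, (f i).IsHomogeneous (a i))
    (hreg : ∀ i, ∀ u, f i * u ∈ Ideal.span (f '' Set.Iio i) → u ∈ Ideal.span (f '' Set.Iio i))
    (hsplit : ∃ E : Finset (Fin c),
      (E.card ≤ 3 ∨ ((∀ i ∈ E, a i ≤ q) ∧ (E.filter fun i => a i < q).card ≤ 2) ∨
        ∀ i ∈ E, IsPrimePow (a i) ∧ ringChar K ∣ a i) ∧ ∀ i, i ∉ E →
      ∃ ls : List (MvPolynomial (Fin n) (AlgebraicClosure K)), ls.length = a i ∧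
        (∀ l ∈ ls, l.IsHomogeneous 1) ∧ map (algebraMap K (AlgebraicClosure K)) (f i) = ls.prod)
    (I : Ideal (MvPolynomial (Fin n) K)) (hI : ∀ u ∈ I, ∀ d, homogeneousComponent d u ∈ I)
    (hfI : ∀ i, f i ∈ I) :
    ∃ T : ℕ → Finset (Fin n →₀ ℕ), ∀ d,
      (∀ e ∈ T d, e.degree = d) ∧
      (∀ e : Fin n →₀ ℕ, e.degree = d → (∃ i, a i ≤ e (Fin.castLE hc i)) → e ∈ T d) ∧
      (∀ e ∈ T d, ∀ e' : Fin n →₀ ℕ, e'.degree = d →
        (∀ i, e (Fin.castLE hc i) < a i) → (∀ i, e' (Fin.castLE hc i) < a i) →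
        toLex e < toLex e' → e' ∈ T d) ∧
      (T d).card = finrank K ↥(homogeneousSubmodule (Fin n) K d ⊓ I.restrictScalars K) ∧
      ∀ e ∈ T d, ∀ v, e + Finsupp.single v 1 ∈ T (d + 1) := by
  have old := PMix.coreForms (fun p hp => PMix.allModels p hp) K n c hc a
  rcases hq with h | ⟨hq2, hchar⟩ | h
  · exact old q (Or.inl h) hn ha ha2 f hf hreg hsplit I hI hfI
  · by_cases h3 : 3 ≤ n
    · obtain ⟨E, hE, hE'⟩ := hsplit
      rcases hE with h | h | h
      · exact old 2 (Or.inl rfl) (Or.inl h3) ha ha2 f hf hreg ⟨E, Or.inl h, hE'⟩ I hI hfI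
      · refine Split.exists_lpp_split (goodCore_large hq2 fun i h1 h2 => ?_) h3 hc ha ha2 hf hreg
          ⟨E, Or.inr h, hE'⟩ hI hfI
        rw [← map_natCast (algebraMap K (AlgebraicClosure K))]
        intro h
        have h0 := (map_eq_zero _).1 h
        rw [ringChar.spec] at h0
        have := Nat.le_of_dvd h1 h0
        rcases hchar with h | h
        · rw [h, zero_dvd_iff] at h0; omega
        · omega
      · exact old 2 (Or.inl rfl) (Or.inl h3) ha ha2 f hf hreg ⟨E, Or.inr (Or.inr h), hE'⟩ I hI hfI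
    · rcases hn.resolve_left h3 with heq | hall
      · obtain rfl : a = fun _ => q := funext heq
        obtain ⟨T, hT, -⟩ := lpp_equal (fun F _ _ q n hq hne => factorises F q n hq hne) K hc hq2
          hchar hf (Quad.regList_ofFn hreg) hI hfI
        exact ⟨T, hT⟩
      · obtain ⟨E, -, hE'⟩ := hsplit
        have hE3 : E.card ≤ 3 := (Finset.card_le_univ E).trans (by
          rw [Fintype.card_fin]
          omega)
        exact old 2 (Or.inl rfl) (Or.inr (Or.inr hall)) ha ha2 f hf hreg ⟨E, Or.inl hE3, hE'⟩ I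
          hI hfI
  · exact old q (Or.inr (Or.inr h)) hn ha ha2 f hf hreg hsplit I hI hfI

end Vale.Agent.P200.Deg
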