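import Mathlib

/-!
Interfaces for equal degrees by division rings obtained from rank functions
(see notes/P200_helper10_free_field_v2.md).

A graded module with operators for a set `J` of blocks over a division ring `D` is a left module
over `Lam D J`, the monoid algebra of the free monoid on the operators `x r b`, `w r` and the
projections `pi n` on the homogeneous pieces, satisfying `IsGr`.
-/

namespace Vale.Agent.P200.Deg

open Module

universe u

/-- The operators: two variables and one root for every block, and projections on the pieces. -/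
inductive Op (J : Type) where
  | x (r : J) (b : Fin 2)
  | w (r : J)
  | pi (n : J → ℕ)

/-- The ring acting on graded modules with operators. -/
abbrev Lam (D : Type u) [Semiring D] (J : Type) : Type u := MonoidAlgebra D (FreeMonoid (Op J))

/-- An operator as an element of the ring. -/
noncomputable def op (D : Type u) [Semiring D] {J : Type} (o : Op J) : Lam D J :=
  MonoidAlgebra.of D _ (FreeMonoid.of o)

/-- The degree of an operator that is not a projection. -/
def opDeg {J : Type} [DecidableEq J] : Op J → J → ℕ
  | .x r _ => Pi.single r 1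
  | .w r => Pi.single r 1
  | .pi _ => 0

/-- Whether an operator is a projection. -/
def Op.IsPi {J : Type} : Op J → Prop
  | .pi _ => True
  | _ => False

section

variable {L : Type u} [Field L] (D : Type u) [DivisionRing D] [Algebra L D] {J : Type}
  [DecidableEq J] [Fintype J] (a : ℕ) (g : J → Fin (a + 1) → L)

/-- The binary form of a block in the ring of operators: the coefficient `g r p` goes with
`x r 0 ^ p * x r 1 ^ (a - p)`. -/
noncomputable def formEl (r : J) : Lam D J :=
  ∑ p : Fin (a + 1), algebraMap L (Lam D J) (g r p) *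
    (op D (.x r 0) ^ (p : ℕ) * op D (.x r 1) ^ (a - (p : ℕ)))

/-- Finitely generated graded modules with commuting operators satisfying `w r ^ a = formEl r`. -/
structure IsGr (M : Type u) [AddCommGroup M] [Module (Lam D J) M] : Prop where
  comm : ∀ o o' : Op J, ¬o.IsPi → ¬o'.IsPi → ∀ m : M,
    op D o • op D o' • m = op D o' • op D o • m
  pow : ∀ r (m : M), (op D (.w r) ^ a) • m = formEl D a g r • m
  proj : ∀ n : J → ℕ, ∀ m : M, op D (.pi n) • op D (.pi n) • m = op D (.pi n) • m
  orth : ∀ n n' : J → ℕ, n ≠ n' → ∀ m : M, op D (.pi n) • op D (.pi n') • m = 0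
  shift : ∀ o : Op J, ¬o.IsPi → ∀ n (m : M),
    op D (.pi (n + opDeg o)) • op D o • m = op D o • op D (.pi n) • m
  below : ∀ o : Op J, ¬o.IsPi → ∀ n, ¬opDeg o ≤ n → ∀ m : M, op D (.pi n) • op D o • m = 0
  complete : ∀ m : M, ∃ s : Finset (J → ℕ), ∑ n ∈ s, op D (.pi n) • m = m
  fg : Module.Finite (Lam D J) M

/-- The coefficients as a subring of the operators. -/
noncomputable def coef : D →+* Lam D J := MonoidAlgebra.singleOneRingHom

/-- The piece of degree `n`, a subspace over `D`. -/
noncomputable def piece (M : Type u) [AddCommGroup M] [Module (Lam D J) M] (n : J → ℕ) :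
    letI := Module.compHom M (coef D (J := J))
    Submodule D M :=
  letI := Module.compHom M (coef D (J := J))
  { carrier := {m | ∃ m', (op D (.pi n) : Lam D J) • m' = m}
    zero_mem' := ⟨0, smul_zero _⟩
    add_mem' := fun ⟨a, ha⟩ ⟨b, hb⟩ => ⟨a + b, by rw [smul_add, ha, hb]⟩
    smul_mem' := fun d _ ⟨b, hb⟩ => ⟨coef D (J := J) d • b, by
      have h : (op D (.pi n) : Lam D J) * coef D d = coef D d * op D (.pi n) := by
        simp [op, coef, MonoidAlgebra.single_mul_single]
      show (op D (.pi n) : Lam D J) • coef D (J := J) d • b = coef D (J := J) d • _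
      rw [← hb, ← mul_smul, ← mul_smul, h]⟩ }

/-- The dimension of a piece. -/
noncomputable def hdim (M : Type u) [AddCommGroup M] [Module (Lam D J) M] (n : J → ℕ) : ℤ :=
  letI := Module.compHom M (coef D (J := J))
  (finrank D (piece (J := J) D M n) : ℤ)

/-- The pieces are finite dimensional. -/
def FinPieces (M : Type u) [AddCommGroup M] [Module (Lam D J) M] : Prop :=
  ∀ n, letI := Module.compHom M (coef D (J := J))
    FiniteDimensional D (piece (J := J) D M n)

end

/-- The dimension of a large piece of one free block, `t + d` being the degree. -/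
def hfree (a : ℕ) (t : ℤ) : ℤ := a * t + a - (a.choose 2 : ℤ)

/-- Eventually an integral combination of translates of the free ones. -/
def InSpan (a : ℕ) {J : Type} [Fintype J] (f : (J → ℕ) → ℤ) : Prop :=
  ∃ (c : (J → ℤ) →₀ ℤ) (N : ℕ), ∀ n : J → ℕ, (∀ r, N ≤ n r) →
    f n = c.sum fun d k => k * ∏ r, hfree a ((n r : ℤ) + d r)

/-- The induction statement: Hilbert functions of the modules over `D` with blocks in `S`. -/
def Good {L : Type u} [Field L] (D : Type u) [DivisionRing D] [Algebra L D] (a : ℕ) {b : ℕ}
    (g : Fin b → Fin (a + 1) → L) (S : Set (Fin b)) : Prop :=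
  ∀ (J : Type) [Fintype J] [DecidableEq J] (ι : J → Fin b), Function.Injective ι →
    Set.range ι ⊆ S → ∀ (M : Type u) [AddCommGroup M] [Module (Lam D J) M],
    IsGr D a (fun r => g (ι r)) M → FinPieces D (J := J) M ∧ InSpan a (hdim D (J := J) M)

/-- The step: a block is absorbed by a larger division ring. -/
def Step (a : ℕ) {L : Type u} [Field L] (D : Type u) [DivisionRing D] [Algebra L D] {b : ℕ}
    (g : Fin b → Fin (a + 1) → L) (S : Set (Fin b)) (r : Fin b) : Prop :=
  ∃ (E : Type u) (_ : DivisionRing E) (_ : Algebra L E) (φ : D →ₐ[L] E) (e : Fin 2 → E),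
    (∀ i d, e i * φ d = φ d * e i) ∧
    ((Polynomial.C (e 0) * Polynomial.X + Polynomial.C (e 1)) ^ a =
      ∑ p : Fin (a + 1), Polynomial.C (algebraMap L E (g r p)) * Polynomial.X ^ (p : ℕ)) ∧
    (∀ d d' d'' : D, φ d * e 0 + φ d' * e 1 + φ d'' = 0 → d = 0 ∧ d' = 0 ∧ d'' = 0) ∧
    Good E a g (S \ {r})

/-- Target of the step. -/
def StepGoal : Prop :=
  ∀ (L : Type u) [Field L] (D : Type u) [DivisionRing D] [Algebra L D] (a b : ℕ)
    (g : Fin b → Fin (a + 1) → L) (S : Set (Fin b)) (r : Fin b), 2 ≤ a → r ∈ S →
    Good D a g S → Step a D g S r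

/-- Target of the index lemma: `c r l p` are the coefficients of block `r` of the `l`-th form,
linearly independent at every point over the algebraic closure, and `z l` are variables. -/
def BaseGoal : Prop :=
  ∀ (K : Type u) [Field K] (D : Type u) [DivisionRing D] [Algebra K D] [FiniteDimensional K D]
    (a b m : ℕ) (c : Fin b → Fin m → Fin (a + 1) → K), 0 < a →
    (∀ x : Fin b → Fin 2 → AlgebraicClosure K, (∀ r, x r ≠ 0) →
      LinearIndependent (AlgebraicClosure K) fun r l =>
        ∑ p : Fin (a + 1), algebraMap K (AlgebraicClosure K) (c r l p) *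
          x r 0 ^ (p : ℕ) * x r 1 ^ (a - (p : ℕ))) →
    ∀ (E : Type u) [DivisionRing E] [Algebra (FractionRing (MvPolynomial (Fin m) K)) E]
      [Algebra K E] [IsScalarTower K (FractionRing (MvPolynomial (Fin m) K)) E],
      (∃ φ : D →ₐ[K] E, ∀ y : E, ∃ (t : Finset (Fin m →₀ ℕ)) (d : (Fin m →₀ ℕ) → D)
        (q : MvPolynomial (Fin m) K), q ≠ 0 ∧
        algebraMap (FractionRing (MvPolynomial (Fin m) K)) E (algebraMap _ (FractionRing (MvPolynomial (Fin m) K)) q) * y =
          ∑ α ∈ t, algebraMap (FractionRing (MvPolynomial (Fin m) K)) E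
            (algebraMap _ (FractionRing (MvPolynomial (Fin m) K)) (MvPolynomial.monomial α (1 : K))) * φ (d α)) →
      Good E a (fun r p => ∑ l, algebraMap (MvPolynomial (Fin m) K) (FractionRing (MvPolynomial (Fin m) K))
        (MvPolynomial.C (c r l p) * MvPolynomial.X l)) Set.univ

end Vale.Agent.P200.Deg
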