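import Vale.Agent.P200.Deg.Pieces

/-!
Additivity of the dimensions of the pieces.
-/

namespace Vale.Agent.P200.Deg

open Module

universe u

variable {L : Type u} [Field L] {D : Type u} [DivisionRing D] [Algebra L D] {J : Type}
  [DecidableEq J] {a : ℕ} {g : J → Fin (a + 1) → L}
  {M : Type u} [AddCommGroup M] [Module (Lam D J) M]
  {N : Type u} [AddCommGroup N] [Module (Lam D J) N]

/-- A map of operator modules over the coefficients. -/
noncomputable def linD [Module D M] [CoefTower D J M] [Module D N] [CoefTower D J N]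
    (f : M →ₗ[Lam D J] N) : M →ₗ[D] N where
  toFun := f
  map_add' := f.map_add
  map_smul' d m := by
    rw [RingHom.id_apply, CoefTower.smul_eq (J := J) d m, CoefTower.smul_eq (J := J) d (f m),
      map_smul]

/-- A map on the pieces. -/
noncomputable def pcMap [Module D M] [CoefTower D J M] [Module D N] [CoefTower D J N]
    (f : M →ₗ[Lam D J] N) (n : J → ℕ) : pc D M n →ₗ[D] pc D N n :=
  (linD f).restrict (fun m hm => by
    obtain ⟨m', rfl⟩ := hm
    exact ⟨f m', (map_smul f _ m').symm⟩)

@[simp] lemma pcMap_coe [Module D M] [CoefTower D J M] [Module D N] [CoefTower D J N]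
    (f : M →ₗ[Lam D J] N) (n : J → ℕ) (m : pc D M n) : (pcMap f n m : N) = f m := rfl

lemma hdim_nonneg (n : J → ℕ) : 0 ≤ hdim D M n := by
  unfold hdim
  exact Int.natCast_nonneg _

lemma hdim_congr (e : M ≃ₗ[Lam D J] N) (n : J → ℕ) : hdim D M n = hdim D N n := by
  letI : Module D M := Module.compHom M (coef D (J := J))
  letI : Module D N := Module.compHom N (coef D (J := J))
  haveI : CoefTower D J M := coefTower_compHom
  haveI : CoefTower D J N := coefTower_compHom
  rw [hdim_eq, hdim_eq]
  congr 1
  refine LinearEquiv.finrank_eq (LinearEquiv.ofBijective (pcMap e.toLinearMap n) ⟨?_, ?_⟩)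
  · exact fun x y h => Subtype.ext (e.injective (congrArg Subtype.val h))
  · rintro ⟨y, ⟨y', rfl⟩⟩
    refine ⟨⟨_, ⟨e.symm y', rfl⟩⟩, Subtype.ext ?_⟩
    simp

namespace IsGr

variable [Fintype J] (hM : IsGr D a g M)
include hM

theorem sub (S : Submodule (Lam D J) M) : IsGr D a g S := by
  letI : Module D M := Module.compHom M (coef D (J := J))
  haveI : CoefTower D J M := coefTower_compHom
  have := hM.isNoetherian
  exact hM.of_injective S.subtype S.injective_subtype
    (Module.Finite.iff_fg.2 (IsNoetherian.noetherian S))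

theorem quot (S : Submodule (Lam D J) M) : IsGr D a g (M ⧸ S) :=
  hM.of_surjective S.mkQ S.mkQ_surjective

theorem finPieces : FinPieces D (J := J) M := by
  intro n
  letI : Module D M := Module.compHom M (coef D (J := J))
  haveI : CoefTower D J M := coefTower_compHom
  exact hM.finite_pc n

theorem prod (hN : IsGr D a g N) : IsGr D a g (M × N) where
  comm o o' ho ho' m := Prod.ext (hM.comm o o' ho ho' _) (hN.comm o o' ho ho' _)
  pow r m := Prod.ext (hM.pow r _) (hN.pow r _)
  proj n m := Prod.ext (hM.proj n _) (hN.proj n _)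
  orth n n' h m := Prod.ext (hM.orth n n' h _) (hN.orth n n' h _)
  shift o ho n m := Prod.ext (hM.shift o ho n _) (hN.shift o ho n _)
  below o ho n h m := Prod.ext (hM.below o ho n h _) (hN.below o ho n h _)
  complete m := by
    classical
    obtain ⟨s, hs⟩ := hM.complete m.1
    obtain ⟨t, ht⟩ := hN.complete m.2
    have key : ∀ (P : Type u) [AddCommGroup P] [Module (Lam D J) P], IsGr D a g P → ∀ (x : P)
        (u v : Finset (J → ℕ)), u ⊆ v → ∑ n ∈ u, (op D (.pi n) : Lam D J) • x = x →
        ∑ n ∈ v, (op D (.pi n) : Lam D J) • x = x := by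
      intro P _ _ hP x u v huv hu
      rw [← Finset.sum_subset huv, hu]
      intro n _ hn
      rw [← hu, Finset.smul_sum]
      exact Finset.sum_eq_zero fun n' hn' => hP.orth n n' (fun h => hn (h ▸ hn')) x
    refine ⟨s ∪ t, Prod.ext ?_ ?_⟩
    · rw [Prod.fst_sum]
      exact key M hM m.1 s _ Finset.subset_union_left hs
    · rw [Prod.snd_sum]
      exact key N hN m.2 t _ Finset.subset_union_right ht
  fg := by have := hM.fg; have := hN.fg; infer_instance

/-- Additivity. -/
theorem hdim_add (S : Submodule (Lam D J) M) (n : J → ℕ) :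
    hdim D M n = hdim D S n + hdim D (M ⧸ S) n := by
  letI : Module D M := Module.compHom M (coef D (J := J))
  letI : Module D S := Module.compHom S (coef D (J := J))
  letI : Module D (M ⧸ S) := Module.compHom (M ⧸ S) (coef D (J := J))
  haveI : CoefTower D J M := coefTower_compHom
  haveI : CoefTower D J S := coefTower_compHom
  haveI : CoefTower D J (M ⧸ S) := coefTower_compHom
  have : FiniteDimensional D (pc D M n) := hM.finite_pc n
  have h := LinearMap.finrank_range_add_finrank_ker (pcMap S.mkQ n)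
  have hr : LinearMap.range (pcMap S.mkQ n) = ⊤ := by
    rw [eq_top_iff]
    rintro ⟨y, ⟨y', rfl⟩⟩ -
    obtain ⟨z, rfl⟩ := S.mkQ_surjective y'
    exact ⟨⟨_, hM.pi_mem n z⟩, Subtype.ext (map_smul S.mkQ _ z)⟩
  have hi : Function.Injective (pcMap S.subtype n) :=
    fun x y h => Subtype.ext (Subtype.ext (congrArg Subtype.val h :))
  have hk : LinearMap.range (pcMap S.subtype n) = LinearMap.ker (pcMap S.mkQ n) := by
    apply le_antisymm
    · rintro _ ⟨x, rfl⟩
      refine Subtype.ext ?_
      show S.mkQ (x : S) = 0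
      exact (Submodule.Quotient.mk_eq_zero S).2 (x : S).2
    · rintro ⟨x, hx⟩ hx0
      have hxS : x ∈ S := (Submodule.Quotient.mk_eq_zero S).1 (congrArg Subtype.val hx0)
      refine ⟨⟨⟨x, hxS⟩, ⟨⟨x, hxS⟩, Subtype.ext ?_⟩⟩, rfl⟩
      exact (hM.mem_pc).1 hx
  rw [hr, finrank_top, ← hk, LinearMap.finrank_range_of_inj hi] at h
  rw [hdim_eq, hdim_eq, hdim_eq]
  omega

theorem hdim_prod (hN : IsGr D a g N) (n : J → ℕ) :
    hdim D (M × N) n = hdim D M n + hdim D N n := by
  rw [(hM.prod hN).hdim_add (LinearMap.ker (LinearMap.snd (Lam D J) M N)) n]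
  congr 1
  · refine hdim_congr (LinearEquiv.ofBijective ((LinearMap.fst (Lam D J) M N).comp
      (Submodule.subtype _)) ⟨?_, ?_⟩) n
    · rintro ⟨⟨x, y⟩, hy⟩ ⟨⟨x', y'⟩, hy'⟩ h
      simp only [LinearMap.mem_ker, LinearMap.snd_apply] at hy hy'
      simp only [LinearMap.comp_apply, Submodule.subtype_apply, LinearMap.fst_apply] at h
      subst h
      exact Subtype.ext (Prod.ext rfl (hy.trans hy'.symm))
    · exact fun x => ⟨⟨(x, 0), by simp⟩, rfl⟩
  · exact hdim_congr (LinearMap.quotKerEquivOfSurjective _ Prod.snd_surjective) n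

end IsGr

end Vale.Agent.P200.Deg
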