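import Vale.Agent.P200.Deg.Mon

/-!
The free graded modules with operators, their universal property and the dimensions of their pieces.
-/

namespace Vale.Agent.P200.Deg

open Module
open scoped IsMulCommutative

universe u

variable {L : Type u} [Field L] {D : Type u} [DivisionRing D] [Algebra L D] {J : Type}
  [DecidableEq J] {a : ℕ} {g : J → Fin (a + 1) → L}

lemma not_isPi_x {I : Type} (r : I) (b : Fin 2) : ¬(Op.x r b).IsPi := id

lemma not_isPi_w {I : Type} (r : I) : ¬(Op.w r).IsPi := id

section monAct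

variable {M : Type u} [AddCommGroup M] [Module (Lam D J) M] [Module D M] [CoefTower D J M]

variable (D M) in
/-- The monoid generated by the operators. -/
noncomputable def opsC (J : Type) [Module (Lam D J) M] [CoefTower D J M] :
    Submonoid (Module.End D M) :=
  Submonoid.closure (Set.range fun o : {o : Op J // ¬o.IsPi} => opL (D := D) o.1)

variable (D M) in
/-- An operator in the monoid. -/
noncomputable def opC (o : Op J) (ho : ¬o.IsPi) : opsC D M J :=
  ⟨opL (D := D) o, Submonoid.subset_closure ⟨⟨o, ho⟩, rfl⟩⟩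

@[simp] lemma coe_opC (o : Op J) (ho : ¬o.IsPi) :
    ((opC D M o ho : opsC D M J) : Module.End D M) = opL (D := D) o := rfl

/-- The monoid is commutative. -/
theorem IsGr.commC (hM : IsGr D a g M) : IsMulCommutative (opsC D M J) :=
  Submonoid.isMulCommutative_closure (Module.End D M) (by
    rintro _ ⟨o, rfl⟩ _ ⟨o', rfl⟩
    exact LinearMap.ext fun m => hM.comm o.1 o'.1 o.2 o'.2 m)

variable (D M) in
/-- The factor of one block in a monomial. -/
noncomputable def blockC (r : J) (e i j : ℕ) : opsC D M J :=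
  opC D M (.w r) (not_isPi_w r) ^ e * opC D M (.x r 0) (not_isPi_x r 0) ^ i * opC D M (.x r 1) (not_isPi_x r 1) ^ j

variable [Fintype J]

/-- A monomial acting on a module. -/
noncomputable def IsGr.monAct (hM : IsGr D a g M) (μ : Mon J a) : Module.End D M :=
  haveI := hM.commC
  ((∏ r, blockC D M r (μ.1 r) (μ.2 r 0) (μ.2 r 1) : opsC D M J) : Module.End D M)

namespace IsGr

variable (hM : IsGr D a g M)
include hM

lemma monAct_zero [NeZero a] : hM.monAct 0 = 1 := by
  haveI := hM.commC
  simp [monAct, blockC]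

lemma monAct_eq_of_mul (μ μ' : Mon J a) (r : J) (c : opsC D M J)
    (h : ∀ s, s ≠ r → μ'.1 s = μ.1 s ∧ μ'.2 s = μ.2 s)
    (hr : blockC D M r (μ'.1 r) (μ'.2 r 0) (μ'.2 r 1) =
      c * blockC D M r (μ.1 r) (μ.2 r 0) (μ.2 r 1)) :
    hM.monAct μ' = (c : Module.End D M) * hM.monAct μ := by
  haveI := hM.commC
  simp only [monAct, ← Submonoid.coe_mul]
  congr 1
  rw [← Finset.mul_prod_erase _ _ (Finset.mem_univ r), ← Finset.mul_prod_erase _ _ (Finset.mem_univ r),
    hr, mul_assoc]
  congr 2
  refine Finset.prod_congr rfl fun s hs => ?_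
  obtain ⟨h1, h2⟩ := h s (Finset.ne_of_mem_erase hs)
  rw [h1, h2]

lemma monAct_upX (r : J) (b : Fin 2) (μ : Mon J a) (m : M) :
    hM.monAct (Mon.upX r b μ) m = (op D (.x r b) : Lam D J) • hM.monAct μ m := by
  rw [monAct_eq_of_mul hM μ (Mon.upX r b μ) r (opC D M (.x r b) (not_isPi_x r b))]
  · rfl
  · intro s hs
    simp [Mon.upX, Function.update_of_ne hs]
  · haveI := hM.commC
    have hc : ∀ x y z : opsC D M J, x * (y * z) = y * (x * z) := fun x y z => mul_left_comm x y z
    fin_cases b
    · simp [Mon.upX, blockC, pow_succ', mul_assoc]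
      exact hc _ _ _
    · simp [Mon.upX, blockC, pow_succ', mul_assoc]
      rw [hc (opC D M (.x r 1) _), hc (opC D M (.x r 1) _)]

lemma monAct_setW (r : J) (μ : Mon J a) (h : (μ.1 r : ℕ) + 1 < a) (m : M) :
    hM.monAct (Mon.setW r ⟨_, h⟩ μ) m = (op D (.w r) : Lam D J) • hM.monAct μ m := by
  rw [monAct_eq_of_mul hM μ (Mon.setW r ⟨_, h⟩ μ) r (opC D M (.w r) (not_isPi_w r))]
  · rfl
  · intro s hs
    simp [Mon.setW, Function.update_of_ne hs]
  · haveI := hM.commC
    simp [Mon.setW, blockC, pow_succ]
    ac_rfl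

lemma monAct_addPair (r : J) (i : Fin (a + 1)) (μ : Mon J a) (m : M) :
    hM.monAct (Mon.addPair r i μ) m =
      (op D (.x r 0) : Lam D J) ^ (i : ℕ) • (op D (.x r 1) : Lam D J) ^ (a - (i : ℕ)) •
        hM.monAct μ m := by
  have key : ∀ b k (ν : Mon J a), hM.monAct ((Mon.upX r b)^[k] ν) m =
      (op D (.x r b) : Lam D J) ^ k • hM.monAct ν m := by
    intro b k ν
    induction k with
    | zero => simp
    | succ k ih => rw [Function.iterate_succ_apply', hM.monAct_upX, ih, ← mul_smul, ← pow_succ']
  rw [← iterate_pair, key, key]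

lemma monAct_top (r : J) (μ : Mon J a) (h : ¬(μ.1 r : ℕ) + 1 < a) (z : Fin a) (hz : (z : ℕ) = 0)
    (m : M) :
    (op D (.w r) : Lam D J) • hM.monAct μ m =
      ∑ i : Fin (a + 1), algebraMap L D (g r i) •
        hM.monAct (Mon.addPair r i (Mon.setW r z μ)) m := by
  have he := (μ.1 r).2
  have h1 : hM.monAct μ = ((opC D M (.w r) (not_isPi_w r) ^ (μ.1 r : ℕ) : opsC D M J) : Module.End D M) *
      hM.monAct (Mon.setW r z μ) := by
    refine monAct_eq_of_mul hM _ _ r _ (fun s hs => ?_) ?_
    · simp [Mon.setW, Function.update_of_ne hs]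
    · simp [Mon.setW, blockC, hz, mul_assoc]
  have hw : (op D (.w r) : Lam D J) • hM.monAct μ m =
      (op D (.w r) : Lam D J) ^ a • hM.monAct (Mon.setW r z μ) m := by
    rw [h1, Module.End.mul_apply, SubmonoidClass.coe_pow, coe_opC, opL_pow, ← mul_smul, ← pow_succ']
    congr 2
    omega
  rw [hw, hM.pow, formEl, Finset.sum_smul]
  refine Finset.sum_congr rfl fun i _ => ?_
  rw [mul_smul, mul_smul, ← hM.monAct_addPair, algebraMap_smul_eq]

lemma monAct_mem (μ : Mon J a) {n : J → ℕ} {m : M} (hm : m ∈ pc D M n) :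
    hM.monAct μ m ∈ pc D M (n + μ.deg) := by
  haveI := hM.commC
  let H : opsC D M J → (J → ℕ) → Prop := fun c δ =>
    ∀ n, ∀ m ∈ pc D M n, (c : Module.End D M) m ∈ pc D M (n + δ)
  have h1 : H 1 0 := fun n m hm => by simpa using hm
  have hmul : ∀ c c' δ δ', H c δ → H c' δ' → H (c * c') (δ + δ') := by
    intro c c' δ δ' hc hc' n m hm
    rw [add_comm δ δ', ← add_assoc]
    exact hc _ _ (hc' n m hm)
  have hop : ∀ o (ho : ¬o.IsPi), H (opC D M o ho) (opDeg o) := fun o ho n m hm =>
    hM.op_mem ho hm
  have hpow : ∀ c δ, H c δ → ∀ k : ℕ, H (c ^ k) (k • δ) := by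
    intro c δ hc k
    induction k with
    | zero => simpa using h1
    | succ k ih => rw [pow_succ, succ_nsmul]; exact hmul _ _ _ _ ih hc
  have hblock : ∀ r e i j, H (blockC D M r e i j) (Pi.single r (e + i + j)) := by
    intro r e i j
    have := hmul _ _ _ _ (hmul _ _ _ _ (hpow _ _ (hop (.w r) (not_isPi_w r)) e) (hpow _ _ (hop (.x r 0) (not_isPi_x r 0)) i))
      (hpow _ _ (hop (.x r 1) (not_isPi_x r 1)) j)
    simpa only [blockC, opDeg, ← add_nsmul, ← Pi.single_smul, ← Pi.single_add, smul_eq_mul,
      mul_one] using this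
  have hall : ∀ s : Finset J, H (∏ r ∈ s, blockC D M r (μ.1 r) (μ.2 r 0) (μ.2 r 1))
      (∑ r ∈ s, Pi.single r (μ.deg r)) := by
    intro s
    induction s using Finset.induction with
    | empty => simpa using h1
    | insert r s hr ih =>
      rw [Finset.prod_insert hr, Finset.sum_insert hr]
      exact hmul _ _ _ _ (hblock r _ _ _) ih
  have := hall Finset.univ n m hm
  rwa [Finset.univ_sum_single μ.deg] at this

end IsGr

end monAct

variable {ι : Type}

/-- The free module with generators in the degrees `d`. -/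
def Free (D : Type u) [DivisionRing D] [Algebra L D] (g : J → Fin (a + 1) → L)
    (d : ι → J → ℕ) : Type u :=
  let _ := g
  let _ := d
  (ι × Mon J a) →₀ D

namespace Free

variable {d : ι → J → ℕ}

noncomputable instance : AddCommGroup (Free D g d) :=
  inferInstanceAs (AddCommGroup ((ι × Mon J a) →₀ D))

noncomputable instance : Module D (Free D g d) :=
  inferInstanceAs (Module D ((ι × Mon J a) →₀ D))

noncomputable instance : Module (Lam D J) (Free D g d) :=
  (mkMod (newOp (ι := ι) D D g d) : Module (Lam D J) ((ι × Mon J a) →₀ D))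

instance : CoefTower D J (Free D g d) :=
  ⟨fun c x => (mkMod_coef (newOp (ι := ι) D D g d) c x).symm⟩

/-- A single term. -/
noncomputable def sg (p : ι × Mon J a) (v : D) : Free D g d := Finsupp.single p v

lemma op_smul (o : Op J) (x : Free D g d) :
    (op D o : Lam D J) • x = newOp D D g d o x :=
  mkMod_op (newOp (ι := ι) D D g d) o x

lemma smul_sg (c : D) (p : ι × Mon J a) (v : D) :
    c • (sg p v : Free D g d) = sg p (c * v) := Finsupp.smul_single c p v

lemma x_sg (r : J) (b : Fin 2) (p : ι × Mon J a) (v : D) :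
    (op D (.x r b) : Lam D J) • (sg p v : Free D g d) = sg (p.1, Mon.upX r b p.2) v := by
  rw [op_smul]
  exact moveAt_single _ p v

lemma w_sg_lt (r : J) (p : ι × Mon J a) (v : D) (h : (p.2.1 r : ℕ) + 1 < a) :
    (op D (.w r) : Lam D J) • (sg p v : Free D g d) = sg (p.1, Mon.setW r ⟨_, h⟩ p.2) v := by
  rw [op_smul]
  exact rootAct_single_lt g r p v h

lemma induction {P : Free D g d → Prop} (h0 : P 0) (ha : ∀ x y, P x → P y → P (x + y))
    (h1 : ∀ p v, P (sg p v)) (x : Free D g d) : P x :=
  Finsupp.induction_linear (motive := P) x h0 ha h1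

variable [NeZero a] [Fintype J]

/-- The generators. -/
noncomputable def gen (i : ι) : Free D g d := sg (i, 0) 1

lemma mem_of_gen {P : Submodule (Lam D J) (Free D g d)} (hP : ∀ i, gen i ∈ P) :
    ∀ p v, sg p v ∈ P := by
  rintro ⟨i, μ⟩ v
  induction μ using Mon.induct generalizing v with
  | h0 =>
    have h := P.smul_mem (coef D (J := J) v) (hP i)
    rwa [← CoefTower.smul_eq, gen, smul_sg, mul_one] at h
  | hx r b q ih => rw [← x_sg r b (i, q) v]; exact P.smul_mem _ (ih v)
  | hw r q h ih => rw [← w_sg_lt r (i, q) v h]; exact P.smul_mem _ (ih v)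

lemma span_gen : Submodule.span (Lam D J) (Set.range (gen : ι → Free D g d)) = ⊤ := by
  rw [eq_top_iff]
  intro x _
  induction x using Free.induction with
  | h0 => exact zero_mem _
  | ha x y hx hy => exact add_mem (hx trivial) (hy trivial)
  | h1 p v =>
    exact mem_of_gen (g := g) (d := d) (P := Submodule.span (Lam D J) (Set.range gen))
      (fun i => Submodule.subset_span ⟨i, rfl⟩) p v

lemma hom_ext {N : Type u} [AddCommGroup N] [Module (Lam D J) N]
    {f f' : Free D g d →ₗ[Lam D J] N} (h : ∀ i, f (gen i) = f' (gen i)) : f = f' :=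
  LinearMap.ext_on_range span_gen h

lemma isGr [Finite ι] : IsGr D a g (Free D g d) :=
  have h : Module.Finite (Lam D J) (Free D g d) :=
    ⟨⟨(Set.finite_range (gen : ι → Free D g d)).toFinset, by
      rw [Set.Finite.coe_toFinset]; exact span_gen⟩⟩
  (laws_newOp (ι := ι) (V := D) (D := D) g d).isGr (a := a) h

lemma pi_gen (i : ι) : (op D (.pi (d i)) : Lam D J) • (gen i : Free D g d) = gen i := by
  classical
  rw [op_smul]
  refine (keep_single d (d i) (i, 0) (1 : D)).trans (if_pos ?_)
  funext r
  simp [Mon.deg]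

section lift

variable {M : Type u} [AddCommGroup M] [Module (Lam D J) M] [Module D M] [CoefTower D J M]
  (hM : IsGr D a g M) (y : ι → M) (hy : ∀ i, (op D (.pi (d i)) : Lam D J) • y i = y i)

/-- The map given by homogeneous values on the generators. -/
noncomputable def lift : Free D g d →ₗ[Lam D J] M :=
  let φ : Free D g d →ₗ[D] M :=
    Finsupp.lsum ℕ fun p => LinearMap.toSpanSingleton D M (hM.monAct p.2 (y p.1))
  have hφ : ∀ p v, φ (sg p v) = v • hM.monAct p.2 (y p.1) := fun p v =>
    (Finsupp.lsum_single _ _ _ _).trans rfl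
  toLamHom φ (by
    intro o x
    induction x using Free.induction with
    | h0 => rw [smul_zero, map_zero, smul_zero]
    | ha x x' hx hx' => rw [smul_add, map_add, map_add, hx, hx', smul_add]
    | h1 p v =>
      rw [hφ]
      have hs : (op D o : Lam D J) • (v • hM.monAct p.2 (y p.1)) =
          v • (op D o : Lam D J) • hM.monAct p.2 (y p.1) :=
        map_smul (opL (D := D) (M := M) o) v _
      rw [hs]
      cases o with
      | x r b => rw [x_sg, hφ, hM.monAct_upX]
      | w r =>
        by_cases h : (p.2.1 r : ℕ) + 1 < a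
        · rw [w_sg_lt r p v h, hφ, hM.monAct_setW]
        · rw [hM.monAct_top r p.2 h ⟨0, Nat.pos_of_neZero a⟩ rfl, Finset.smul_sum]
          rw [op_smul, show newOp D D g d (Op.w r) (sg p v) = _ from rootAct_single_top g r p v h]
          refine (map_sum φ _ _).trans (Finset.sum_congr rfl fun i _ => ?_)
          refine (hφ _ _).trans ?_
          rw [smul_smul, smul_eq_mul, Algebra.commutes]
      | pi n =>
        classical
        rw [op_smul, show newOp D D g d (Op.pi n) (sg p v) = _ from keep_single d n p v]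
        have hmem : hM.monAct p.2 (y p.1) ∈ pc D M (d p.1 + p.2.deg) :=
          hM.monAct_mem p.2 ⟨y p.1, hy p.1⟩
        have hp := hM.pi_pi n (d p.1 + p.2.deg) (hM.monAct p.2 (y p.1))
        rw [(hM.mem_pc).1 hmem] at hp
        rw [hp]
        split_ifs with h1 h2 h2
        · refine (hφ _ _).trans ?_
          rw [h2, (hM.mem_pc).1 hmem]
        · exact absurd h1.symm h2
        · exact absurd h2.symm h1
        · rw [smul_zero]; exact map_zero φ)

lemma lift_sg (p : ι × Mon J a) (v : D) :
    lift hM y hy (sg p v : Free D g d) = v • hM.monAct p.2 (y p.1) :=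
  (Finsupp.lsum_single (S := ℕ) _ _ _).trans rfl

lemma lift_gen (i : ι) : lift hM y hy (gen i : Free D g d) = y i := by
  rw [gen, lift_sg, hM.monAct_zero, one_smul]
  rfl

include hy in
lemma lift_surjective (hgen : ∀ x : M, x ∈ cl ((allOps J).map fun o =>
    (opL (D := D) (M := M) o : Module.End D M)) (Set.range y)) :
    Function.Surjective (lift hM y hy) := by
  intro x
  have h : x ∈ toD (D := D) (LinearMap.range (lift hM y hy)) := by
    refine cl_le (fun z hz => ?_) ?_ (hgen x)
    · obtain ⟨i, rfl⟩ := hz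
      exact ⟨gen i, lift_gen hM y hy i⟩
    · intro φ hφ z hz
      obtain ⟨o, -, rfl⟩ := List.mem_map.1 hφ
      exact (LinearMap.range (lift hM y hy)).smul_mem (op D o : Lam D J) hz
  exact h

end lift

/-- The dimensions of the pieces. -/
lemma hdim_free [Finite ι] (n : J → ℕ) :
    hdim D (Free D g d) n = (Fintype.card (Slot a d n) : ℤ) := by
  rw [hdim_eq, ← Module.finrank_fintype_fun_eq_card (R := D) (η := Slot a d n)]
  congr 1
  refine LinearEquiv.finrank_eq (LinearEquiv.ofBijective
    ((res D D d n).comp (pc D (Free D g d) n).subtype) ⟨?_, fun z => ?_⟩)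
  · rintro ⟨x, hx⟩ ⟨x', hx'⟩ h
    refine Subtype.ext ?_
    have e : ∀ z ∈ pc D (Free D g d) n, emb D D d n (res D D d n z) = z := fun z hz => by
      refine (emb_res d n z).trans ?_
      refine Eq.trans ?_ ((isGr (ι := ι)).mem_pc.1 hz)
      exact (op_smul (.pi n) z).symm
    exact (e x hx).symm.trans ((congrArg (emb D D d n) h).trans (e x' hx'))
  · refine ⟨⟨_, ⟨emb D D d n z, rfl⟩⟩, ?_⟩
    show res D D d n ((op D (.pi n) : Lam D J) • (show Free D g d from emb D D d n z)) = z
    rw [op_smul]
    exact (res_keep d n _).trans (res_emb d n z)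

end Free

end Vale.Agent.P200.Deg
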