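import Vale.Agent.P200.Deg.Defs
import Vale.Agent.P200.Deg.Index.Euler
import Vale.Agent.P200.Deg.Index.Total
import Vale.Agent.P200.Deg.Index.Rees

/-!
The index lemma: over `D ⊗ K(z)` the Hilbert functions of the modules with blocks are integral
combinations of those of the free ones (notes/P200_helper10_free_field_v2.md, section 4).
-/

noncomputable section

namespace Vale.Agent.P200.Deg

open Module Filter Index

universe u

section

variable {E : Type u} [DivisionRing E] {J : Type}

lemma op_comm_coef (o : Op J) (e : E) : op E o * coef E e = coef E e * op E o := by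
  simp [op, coef, MonoidAlgebra.single_mul_single]

variable {M : Type u} [AddCommGroup M] [Module (Lam E J) M]

lemma op_coef_smul (o : Op J) (e : E) (x : M) :
    op E o • coef E (J := J) e • x = coef E (J := J) e • op E o • x := by
  rw [← mul_smul, op_comm_coef, mul_smul]

/-- A set closed under the operators contains everything generated from it. -/
lemma smul_mem_of_closed (Z : AddSubmonoid M) (hc : ∀ (e : E), ∀ x ∈ Z, coef E (J := J) e • x ∈ Z)
    (ho : ∀ (o : Op J), ∀ x ∈ Z, op E o • x ∈ Z) (l : Lam E J) {x : M} (hx : x ∈ Z) : l • x ∈ Z := by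
  induction l using MonoidAlgebra.induction_linear with
  | zero => rw [zero_smul]; exact Z.zero_mem
  | add f g hf hg => rw [add_smul]; exact Z.add_mem hf hg
  | single w e =>
    have h : (MonoidAlgebra.single w e : Lam E J) = coef E e * MonoidAlgebra.of E _ w := by
      simp [coef, MonoidAlgebra.single_mul_single]
    rw [h, mul_smul]
    refine hc e _ ?_
    clear h
    induction w using FreeMonoid.inductionOn' with
    | one => rw [map_one, one_smul]; exact hx
    | of_mul o w ih => rw [map_mul, mul_smul]; exact ho o _ ih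

end

/-- The index lemma. -/
theorem baseGoal : BaseGoal.{u} := by
  intro K _ D _ _ _ a b m c ha hind E _ _ _ _ hspan J _ _ ι hι _ M _ _ hgr
  classical
  obtain ⟨φd, hE⟩ := hspan
  let modE : Module E M := Module.compHom M (coef E (J := J))
  let modD : Module D M := Module.compHom M ((coef E (J := J)).comp φd.toRingHom)
  let modK : Module K M := Module.compHom M ((coef E (J := J)).comp (algebraMap K E))
  have hK : ∀ (k : K) (x : M), k • x = algebraMap K E k • x := fun k x => rfl
  have hD : ∀ (d : D) (x : M), d • x = φd d • x := fun d x => rfl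
  have : IsScalarTower K E M := ⟨fun k e x => by rw [hK, Algebra.smul_def, mul_smul]⟩
  have : SMulCommClass D K M := ⟨fun d k x => by
    rw [hD, hK, hK, hD, smul_smul, smul_smul, Algebra.commutes]⟩
  have : IsScalarTower K D M := ⟨fun k d x => by
    rw [hD, hD, hK, smul_smul, map_smul, Algebra.smul_def]⟩
  have hopE : ∀ (o : Op J) (e : E) (x : M), op E o • e • x = e • op E o • x :=
    fun o e x => op_coef_smul o e x
  let opD : Op J → Module.End D M := fun o =>
    { toFun := fun x => op E o • x
      map_add' := fun x y => smul_add _ x y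
      map_smul' := fun d x => hopE o (φd d) x }
  let zD : MvPolynomial (Fin m) K → Module.End D M := fun q =>
    { toFun := fun x => zev (E := E) q • x
      map_add' := fun x y => smul_add _ x y
      map_smul' := fun d x => zev_smul_comm φd hD q d x }
  let ov : (J × Fin 2) ⊕ J → Op J := Sum.elim (fun p => .x p.1 p.2) .w
  have hov : ∀ v, ¬(ov v).IsPi := by rintro (p | r) <;> exact id
  let val : Var m J → Module.End D M :=
    Sum.elim (Fin.cons 1 fun l => zD (MvPolynomial.X l)) fun v => opD (ov v)
  have hcomm : ∀ f ∈ Set.range val, ∀ f' ∈ Set.range val, f * f' = f' * f := by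
    rintro _ ⟨v, rfl⟩ _ ⟨v', rfl⟩
    rcases v with i | v <;> rcases v' with i' | v'
    · cases i using Fin.cases with
      | zero => simp [val]
      | succ l =>
        cases i' using Fin.cases with
        | zero => simp [val]
        | succ l' =>
          ext x
          simp only [val, zD, Sum.elim_inl, Fin.cons_succ, Module.End.mul_apply, LinearMap.coe_mk,
            AddHom.coe_mk]
          rw [smul_smul, smul_smul, zev_comm]
    · cases i using Fin.cases with
      | zero => simp [val]
      | succ l =>
        ext x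
        simp [val, zD, opD, hopE]
    · cases i' using Fin.cases with
      | zero => simp [val]
      | succ l =>
        ext x
        simp [val, zD, opD, hopE]
    · ext x
      exact hgr.comm _ _ (hov v) (hov v') x
  let A : Subalgebra K (Module.End D M) := Algebra.adjoin K (Set.range val)
  have := Algebra.isMulCommutative_adjoin (R := K) hcomm
  let : CommSemiring A := { (inferInstance : Semiring A) with mul_comm := mul_comm' }
  let φ : MvPolynomial (Var m J) K →ₐ[K] Module.End D M :=
    A.val.comp (MvPolynomial.aeval fun v => (⟨val v, Algebra.subset_adjoin ⟨v, rfl⟩⟩ : A))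
  have hφ : ∀ v, φ (MvPolynomial.X v) = val v := fun v => by simp [φ]
  have hφpow : ∀ v (p : ℕ) (x : M), φ (MvPolynomial.X (Sum.inr v) ^ p) x = (op E (ov v) ^ p) • x := by
    intro v p
    induction p with
    | zero => intro x; simp
    | succ p ih =>
      intro x
      rw [pow_succ', map_mul, Module.End.mul_apply, ih, hφ, pow_succ', mul_smul]
      rfl
  let c' : J → Fin m → Fin (a + 1) → K := fun r => c (ι r)
  have hl : ∀ r, φ (MvPolynomial.X (Sum.inr (Sum.inr r)) ^ a) = φ (lin c' r) := by
    intro r
    refine LinearMap.ext fun x => ?_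
    rw [hφpow]
    change (op E (Op.w r) ^ a) • x = _
    rw [hgr.pow r x, lin, Fin.sum_univ_succ, formEl, Finset.sum_smul]
    simp only [fv, Fin.cons_zero, mul_zero, zero_add, Fin.cons_succ, map_sum, LinearMap.sum_apply,
      form0, Finset.mul_sum]
    rw [Finset.sum_comm]
    refine Finset.sum_congr rfl fun p _ => ?_
    rw [Finset.sum_mul, Finset.sum_smul]
    refine Finset.sum_congr rfl fun l _ => ?_
    simp only [MonoidAlgebra.coe_algebraMap, Function.comp_apply, map_mul, MvPolynomial.rename_C,
      map_pow, MvPolynomial.rename_X, emb, zv, Module.End.mul_apply]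
    rw [← map_pow φ, hφpow, ← map_pow φ, hφpow, hφ,
      show φ (MvPolynomial.C (c' r l p)) = algebraMap K _ (c' r l p) from φ.commutes _,
      Module.algebraMap_end_apply, mul_smul, mul_smul, mul_smul]
    change coef E (J := J) _ • coef E (J := J) _ • (_ : M) =
      coef E (J := J) (zev (MvPolynomial.X l : MvPolynomial (Fin m) K)) •
        coef E (J := J) (algebraMap K E (c' r l p)) • (_ : M)
    rw [← mul_smul (coef E (J := J) _) (coef E (J := J) _),
      ← mul_smul (coef E (J := J) _) (coef E (J := J) _), ← map_mul, ← map_mul]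
    congr 2
    simp only [zev, map_mul]
    rw [show (algebraMap _ (FractionRing (MvPolynomial (Fin m) K))) (MvPolynomial.C (c' r l p)) =
      algebraMap K (FractionRing (MvPolynomial (Fin m) K)) (c' r l p) from
      (IsScalarTower.algebraMap_apply K (MvPolynomial (Fin m) K) _ _).symm,
      ← IsScalarTower.algebraMap_apply, ← map_mul, ← map_mul, Algebra.commutes]
  -- the pieces
  let pc : (J → ℤ) → Submodule E M := fun n =>
    if (∀ r, 0 ≤ n r) then piece (J := J) E M fun r => (n r).toNat else ⊥
  have hpiece : ∀ (n : J → ℕ) (x : M), x ∈ piece (J := J) E M n ↔ op E (Op.pi n) • x = x :=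
    fun n x => ⟨fun ⟨x', hx'⟩ => by rw [← hx', hgr.proj], fun h => ⟨x, h⟩⟩
  have hpc : ∀ n : J → ℕ, pc (fun r => (n r : ℤ)) = piece (J := J) E M n := fun n => by
    simp [pc]
  have hpcmem : ∀ (n : J → ℤ) x, x ∈ pc n →
      x = 0 ∨ ∃ n' : J → ℕ, (fun r => (n' r : ℤ)) = n ∧ op E (Op.pi n') • x = x := by
    intro n x hx
    by_cases h : ∀ r, 0 ≤ n r
    · refine .inr ⟨fun r => (n r).toNat, funext fun r => Int.toNat_of_nonneg (h r), ?_⟩
      simp only [pc, if_pos h] at hx
      exact (hpiece _ x).1 hx
    · simp only [pc, if_neg h] at hx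
      exact .inl ((Submodule.mem_bot E).1 hx)
  have hdeg : ∀ v, (dg a m (Sum.inr v : Var m J)).2 = fun r => (opDeg (ov v) r : ℤ) := by
    rintro (⟨r, i⟩ | r) <;>
      · funext s
        rcases eq_or_ne s r with rfl | hs <;> simp [dg, ov, opDeg, *]
  have hmove : ∀ v (n : J → ℤ) x, x ∈ pc n →
      φ (MvPolynomial.X (Sum.inr v)) x ∈ pc (n + (dg a m (Sum.inr v : Var m J)).2) := by
    intro v n x hx
    rw [hφ]
    change op E (ov v) • x ∈ _
    rcases hpcmem n x hx with rfl | ⟨n', rfl, hx'⟩
    · rw [smul_zero]; exact zero_mem _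
    · rw [hdeg, show ((fun r => (n' r : ℤ)) + fun r => (opDeg (ov v) r : ℤ)) =
        fun r => ((n' + opDeg (ov v)) r : ℤ) from funext fun r => by simp, hpc, hpiece,
        hgr.shift _ (hov v), hx']
  -- homogeneous generators
  obtain ⟨S₀, hS₀⟩ := hgr.fg.fg_top
  choose fs hfs using hgr.complete
  let T : Finset (PDg J × M) := S₀.biUnion fun s =>
    (fs s).image fun k => (((0, fun r => (k r : ℤ)), 0), op E (Op.pi k) • s)
  set Y : PDg J → Submodule D M := genSpan φ (Index.wt a m) T
  have hTY : ∀ t ∈ T, t.2 ∈ Y t.1 := fun t ht =>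
    Submodule.subset_span ⟨t, ht, 0, by simp, by simp [MvPolynomial.monomial_zero']⟩
  have hYs : Stable φ (Index.wt a m) Y := by
    intro v g x hx
    induction hx using Submodule.span_induction with
    | mem x hx =>
      obtain ⟨t, ht, b', hb', rfl⟩ := hx
      refine Submodule.subset_span ⟨t, ht, Finsupp.single v 1 + b', ?_, ?_⟩
      · rw [map_add, Finsupp.weight_single, one_smul, ← hb', add_assoc, add_comm (Index.wt a m v)]
      · rw [MvPolynomial.monomial_single_add, pow_one, map_mul, Module.End.mul_apply]
    | zero => simp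
    | add x y _ _ h h' => rw [map_add]; exact add_mem h h'
    | smul d x _ h => rw [map_smul]; exact Submodule.smul_mem _ _ h
  have hYgen : Gen φ (Index.wt a m) Y := ⟨T, hTY, fun g => le_rfl⟩
  let P : PDg J → Submodule D M := fun g =>
    { carrier := pc g.1.2
      zero_mem' := zero_mem _
      add_mem' := fun hx hy => add_mem hx hy
      smul_mem' := fun d x hx => (pc g.1.2).smul_mem (φd d) hx }
  have hP : Stable φ (Index.wt a m) P := by
    intro v g x hx
    change φ (MvPolynomial.X v) x ∈ pc (g.1.2 + (dg a m v).2)
    change x ∈ pc g.1.2 at hx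
    rcases v with i | v
    · rw [hφ]
      cases i using Fin.cases with
      | zero => simpa [val, dg] using hx
      | succ l => simpa [val, zD, dg] using (pc g.1.2).smul_mem _ hx
    · exact hmove v _ x hx
  have hYP : ∀ g, Y g ≤ P g := fun g => Submodule.span_le.2 (by
    rintro _ ⟨t, ht, b', hb', rfl⟩
    rw [← hb']
    refine hP.monomial b' 1 t.1 t.2 ?_
    obtain ⟨s, -, hs⟩ := Finset.mem_biUnion.1 ht
    obtain ⟨k, -, rfl⟩ := Finset.mem_image.1 hs
    change op E (Op.pi k) • s ∈ pc (fun r => (k r : ℤ))
    rw [hpc, hpiece, hgr.proj])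
  let Ns : (J → ℤ) → Submodule E M := fun n =>
    Submodule.span E (⋃ s, (Y ((s, n), 0) : Set M))
  let Z : AddSubmonoid M :=
    { carrier := {x | ∀ k : J → ℕ, op E (Op.pi k) • x ∈ Ns fun r => (k r : ℤ)}
      zero_mem' := fun k => by simp
      add_mem' := fun hx hy k => by rw [smul_add]; exact add_mem (hx k) (hy k) }
  have hNs : ∀ v (n : J → ℤ) x, x ∈ Ns n →
      φ (MvPolynomial.X (Sum.inr v)) x ∈ Ns (n + (dg a m (Sum.inr v : Var m J)).2) := by
    intro v n x hx
    induction hx using Submodule.span_induction with
    | mem x hx =>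
      obtain ⟨s, hs⟩ := Set.mem_iUnion.1 hx
      exact Submodule.subset_span (Set.mem_iUnion.2
        ⟨s + (dg a m (Sum.inr v : Var m J)).1, by simpa [Prod.add_def] using hYs (Sum.inr v) _ x hs⟩)
    | zero => simp
    | add x y _ _ h h' => rw [map_add]; exact add_mem h h'
    | smul e x _ h =>
      rw [hφ] at h ⊢
      change op E (ov v) • e • x ∈ _
      rw [hopE]
      exact Submodule.smul_mem _ _ h
  have hZop : ∀ (o : Op J), ∀ x ∈ Z, op E o • x ∈ Z := by
    intro o x hx k
    by_cases ho : o.IsPi
    · cases o with
      | pi k' =>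
        rcases eq_or_ne k k' with rfl | hne
        · rw [hgr.proj]; exact hx k
        · rw [hgr.orth k k' hne]; exact zero_mem _
      | x r i => exact absurd ho id
      | w r => exact absurd ho id
    obtain ⟨v, rfl⟩ : ∃ v, ov v = o := by
      cases o with
      | x r i => exact ⟨.inl (r, i), rfl⟩
      | w r => exact ⟨.inr r, rfl⟩
      | pi k' => exact absurd trivial ho
    by_cases hle : opDeg (ov v) ≤ k
    · obtain ⟨k₀, rfl⟩ : ∃ k₀, k = k₀ + opDeg (ov v) := ⟨k - opDeg (ov v), (tsub_add_cancel_of_le hle).symm⟩
      rw [hgr.shift _ (hov v)]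
      have := hNs v _ _ (hx k₀)
      rw [hφ, hdeg] at this
      rw [show (fun r => ((k₀ + opDeg (ov v)) r : ℤ)) =
        (fun r => (k₀ r : ℤ)) + fun r => (opDeg (ov v) r : ℤ) from funext fun r => by simp]
      exact this
    · rw [hgr.below _ (hov v) k hle]; exact zero_mem _
  have hZc : ∀ (e : E), ∀ x ∈ Z, coef E (J := J) e • x ∈ Z := fun e x hx k => by
    rw [op_coef_smul]
    exact (Ns _).smul_mem e (hx k)
  have hZ : ∀ x : M, x ∈ Z := by
    intro x
    have hx : x ∈ Submodule.span (Lam E J) (S₀ : Set M) := hS₀ ▸ Submodule.mem_top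
    induction hx using Submodule.span_induction with
    | mem s hs =>
      intro k
      by_cases hk : k ∈ fs s
      · refine Submodule.subset_span (Set.mem_iUnion.2 ⟨0, ?_⟩)
        exact hTY (((0, fun r => (k r : ℤ)), 0), op E (Op.pi k) • s)
          (Finset.mem_biUnion.2 ⟨s, hs, Finset.mem_image.2 ⟨k, hk, rfl⟩⟩)
      · rw [← hfs s, Finset.smul_sum, Finset.sum_eq_zero fun k' hk' =>
          hgr.orth k k' (fun h => hk (h ▸ hk')) s]
        exact zero_mem _
    | zero => exact Z.zero_mem
    | add x y _ _ h h' => exact Z.add_mem h h'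
    | smul l x _ h => exact smul_mem_of_closed Z hZc hZop l h
  have hpY : ∀ n, pc n ≤ Ns n := fun n x hx => by
    rcases hpcmem n x hx with rfl | ⟨n', rfl, hx'⟩
    · exact zero_mem _
    · rw [← hx']; exact hZ x n'
  have hT0 : ∀ t ∈ T, t.1.1.1 = 0 ∧ t.1.2 = 0 := fun t ht => by
    obtain ⟨s, -, hs⟩ := Finset.mem_biUnion.1 ht
    obtain ⟨k, -, rfl⟩ := Finset.mem_image.1 hs
    exact ⟨rfl, rfl⟩
  -- finiteness of the pieces
  have hfinY : ∀ g, FiniteDimensional D (Y g) := hYgen.finite (one_le_tg ha)
  refine ⟨fun n => ?_, ?_⟩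
  · let nZ : J → ℤ := fun r => (n r : ℤ)
    have hbound : Ns nZ ≤ Submodule.span E (⋃ s ∈ Finset.Icc (0 : ℤ) (∑ r, nZ r), (Y ((s, nZ), 0) : Set M)) := by
      refine Submodule.span_le.2 (Set.iUnion_subset fun s x hx => ?_)
      induction hx using Submodule.span_induction with
      | mem x hx =>
        obtain ⟨t, ht, b', hb', rfl⟩ := hx
        obtain ⟨j, b₂, hb₂⟩ : ∃ (j : Var m J →₀ ℕ) (b₂ : Var m J →₀ ℕ), b' = j + b₂ ∧
            (∀ v, j (Sum.inr v) = 0) ∧ ∀ i, b₂ (Sum.inl i) = 0 :=
          ⟨b'.filter fun v => v.isLeft, b'.filter fun v => ¬v.isLeft,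
            (Finsupp.filter_add_filter_not b' _).symm, fun v => by simp, fun i => by simp⟩
        obtain ⟨hsum, hj, hb₂⟩ := hb₂
        subst hsum
        rw [← one_mul (1 : K), ← MvPolynomial.monomial_mul, map_mul, Module.End.mul_apply]
        have hj' : ∀ y, ∃ e : E, φ (MvPolynomial.monomial j 1) y = e • y := by
          clear hb'
          intro y
          induction j using Finsupp.induction generalizing y with
          | zero => exact ⟨1, by simp [MvPolynomial.monomial_zero']⟩
          | single_add i k j hik hk ih =>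
            rcases i with i | v
            · obtain ⟨e, he⟩ := ih (fun w => by simpa using hj w) y
              rw [MvPolynomial.monomial_single_add, map_mul, Module.End.mul_apply, he, map_pow, hφ]
              refine Nat.rec ⟨e, by simp⟩ (fun k ⟨e', he'⟩ => ?_) k
              rw [pow_succ', Module.End.mul_apply, he']
              cases i using Fin.cases with
              | zero => exact ⟨e', by simp [val]⟩
              | succ l => exact ⟨_, by simp [val, zD, smul_smul]; rfl⟩
            · have := hj v
              simp [Finsupp.notMem_support_iff.1 hik] at this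
              exact absurd this hk
        obtain ⟨e, he⟩ := hj' (φ (MvPolynomial.monomial b₂ 1) t.2)
        rw [he]
        refine Submodule.smul_mem _ _ (Submodule.subset_span (Set.mem_iUnion₂.2
          ⟨(Finsupp.weight (Index.wt a m) b₂).1.1, Finset.mem_Icc.2 ?_, ?_⟩))
        · have h1 : (Finsupp.weight (Index.wt a m) b₂).1.1 =
              ∑ r : J, (b₂ (.inr (.inr r)) : ℤ) := by
            rw [weight_wt, Prod.fst_sum, Prod.fst_sum, Fintype.sum_sum_type, Fintype.sum_sum_type,
              Finset.sum_eq_zero (fun i _ => by simp [hb₂ i]),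
              Finset.sum_eq_zero (fun i _ => by simp [dg]), zero_add, zero_add]
            exact Finset.sum_congr rfl fun r _ => by simp [dg]
          rw [h1]
          refine ⟨Finset.sum_nonneg fun r _ => by positivity, Finset.sum_le_sum fun r _ => ?_⟩
          have h2 : (Finsupp.weight (Index.wt a m) b₂).1.2 r + t.1.1.2 r = nZ r := by
            have h3 := congrArg (fun g : PDg J => g.1.2 r) hb'
            simp only [map_add, Prod.fst_add, Prod.snd_add, Pi.add_apply] at h3
            have h4 : (Finsupp.weight (Index.wt a m) j).1.2 r = 0 := by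
              rw [weight_wt, Prod.fst_sum, Prod.snd_sum, Finset.sum_apply, Fintype.sum_sum_type,
                Finset.sum_eq_zero (fun i _ => by simp [dg]),
                Finset.sum_eq_zero (fun v _ => by simp [hj v]), zero_add]
            omega
          have h5 : 0 ≤ t.1.1.2 r := by
            obtain ⟨s', -, hs'⟩ := Finset.mem_biUnion.1 ht
            obtain ⟨k, -, rfl⟩ := Finset.mem_image.1 hs'
            exact Int.natCast_nonneg _
          have h6 : (b₂ (.inr (.inr r)) : ℤ) ≤ (Finsupp.weight (Index.wt a m) b₂).1.2 r := by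
            rw [weight_wt, Prod.fst_sum, Prod.snd_sum, Finset.sum_apply]
            refine le_trans (le_of_eq ?_) (Finset.single_le_sum
              (f := fun v => ((b₂ v • Index.wt a m v : PDg J)).1.2 r) (fun v _ => ?_)
              (Finset.mem_univ (Sum.inr (Sum.inr r))))
            · simp [dg]
            · rcases v with i | ⟨r', i⟩ | r' <;> simp [dg, Pi.single_apply] <;> split_ifs <;> simp
          omega
        · refine Submodule.subset_span ⟨t, ht, b₂, ?_, rfl⟩
          have h3 := hb'
          rw [map_add, add_left_comm] at h3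
          refine Prod.ext (Prod.ext ?_ ?_) ?_
          · simp [(hT0 t ht).1]
          · have h4 : (Finsupp.weight (Index.wt a m) j).1.2 = 0 := by
              rw [weight_wt, Prod.fst_sum, Prod.snd_sum, Fintype.sum_sum_type,
                Finset.sum_eq_zero (fun i _ => by simp [dg]),
                Finset.sum_eq_zero (fun v _ => by simp [hj v]), zero_add]
            have h5 := congrArg (fun g : PDg J => g.1.2) h3
            simpa [h4] using h5
          · simp [weight_wt, Prod.snd_sum, (hT0 t ht).2]
      | zero => exact zero_mem _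
      | add x y _ _ h h' => exact add_mem h h'
      | smul d x _ h => rw [hD]; exact Submodule.smul_mem _ _ h
    rw [Submodule.span_iUnion₂] at hbound
    have hs : ∀ s, FiniteDimensional E (Submodule.span E (Y ((s, nZ), 0) : Set M)) := fun s => by
      obtain ⟨G, hG⟩ := (Submodule.fg_iff_finiteDimensional _).2 (hfinY ((s, nZ), 0))
      refine Submodule.finiteDimensional_of_le (S₂ := Submodule.span E (G : Set M))
        (Submodule.span_le.2 fun x hx => ?_)
      rw [← hG] at hx
      induction hx using Submodule.span_induction with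
      | mem x hx => exact Submodule.subset_span hx
      | zero => exact zero_mem _
      | add x y _ _ h h' => exact add_mem h h'
      | smul d x _ h => rw [hD]; exact Submodule.smul_mem _ _ h
    rw [← Finset.sup_eq_iSup] at hbound
    have := Submodule.finite_finset_sup (Finset.Icc (0 : ℤ) (∑ r, nZ r)) fun s =>
      Submodule.span E (Y ((s, nZ), 0) : Set M)
    exact Submodule.finiteDimensional_of_le ((hpc n ▸ hpY nZ).trans hbound)
  -- the Hilbert function
  have hind' : ∀ x : J → Fin 2 → AlgebraicClosure K, (∀ r, x r ≠ 0) →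
      LinearIndependent (AlgebraicClosure K) fun r l =>
        ∑ p : Fin (a + 1), algebraMap K (AlgebraicClosure K) (c' r l p) *
          x r 0 ^ (p : ℕ) * x r 1 ^ (a - (p : ℕ)) := by
    intro x hx
    have h := (hind (Function.extend ι x fun _ _ => 1) fun r => by
      by_cases hr : ∃ j, ι j = r
      · obtain ⟨j, rfl⟩ := hr
        rw [hι.extend_apply]
        exact hx j
      · rw [Function.extend_apply' _ _ _ hr]
        exact fun h => one_ne_zero (congrFun h 0)).comp ι hι
    simpa [Function.comp_def, hι.extend_apply, c'] using h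
  obtain ⟨hbd, F, hF, hEv⟩ := numerator ha hYgen hYs hl hind'
  obtain ⟨cf, hcf⟩ := exists_free_comb hF hEv
  have htot := tot_eq_finrank φd ha φ hE (fun x => by simp [hφ, val])
    (fun l x => by simp [hφ, val, zD]) (fun v e x => by rw [hφ]; exact hopE _ e x) hD T
    (fun t ht => (hT0 t ht).1) pc
    (fun s n q x hx => hYP _ hx) hpY (fun t ht => (hT0 t ht).2) hbd
  obtain ⟨N₀, hN₀⟩ := eventually_atTop.1 (htot.and hcf)
  refine ⟨cf, (∑ r, |N₀ r|).toNat, fun n hn => ?_⟩
  obtain ⟨h1, h2⟩ := hN₀ (fun r => (n r : ℤ)) fun r => by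
    have h3 := Finset.single_le_sum (f := fun r => |N₀ r|) (fun _ _ => abs_nonneg _) (Finset.mem_univ r)
    have := hn r
    have := le_abs_self (N₀ r)
    change N₀ r ≤ (n r : ℤ)
    simp only [] at *
    omega
  rw [h1, hpc] at h2
  exact h2

end Vale.Agent.P200.Deg
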