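import Vale.Agent.P200.Deg.Exact

/-!
Operators satisfying the laws of graded modules, and the addition of one block.
-/

namespace Vale.Agent.P200.Deg

open Module

universe u

variable {L : Type u} [Field L]

/-- The laws of graded modules, for linear operators. -/
structure Laws {R : Type u} [Ring R] [Algebra L R] {J : Type} [DecidableEq J] (a : ℕ)
    (g : J → Fin (a + 1) → L) {V : Type u} [AddCommGroup V] [Module R V]
    (A : Op J → Module.End R V) : Prop where
  comm : ∀ o o' : Op J, ¬o.IsPi → ¬o'.IsPi → A o * A o' = A o' * A o
  pow : ∀ r v, (A (.w r) ^ a) v = ∑ p : Fin (a + 1), algebraMap L R (g r p) •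
    (A (.x r 0) ^ (p : ℕ)) ((A (.x r 1) ^ (a - (p : ℕ))) v)
  proj : ∀ n, A (.pi n) * A (.pi n) = A (.pi n)
  orth : ∀ n n', n ≠ n' → A (.pi n) * A (.pi n') = 0
  shift : ∀ o : Op J, ¬o.IsPi → ∀ n, A (.pi (n + opDeg o)) * A o = A o * A (.pi n)
  below : ∀ o : Op J, ¬o.IsPi → ∀ n, ¬opDeg o ≤ n → A (.pi n) * A o = 0
  complete : ∀ v, ∃ s : Finset (J → ℕ), ∑ n ∈ s, A (.pi n) v = v

variable {D : Type u} [DivisionRing D] [Algebra L D] {J : Type} [DecidableEq J] {a : ℕ}
  {g : J → Fin (a + 1) → L}

section

variable {V : Type u} [AddCommGroup V] [Module D V]

omit [DecidableEq J] in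
lemma mkMod_pow (A : Op J → Module.End D V) (o : Op J) (k : ℕ) (v : V) :
    letI := mkMod A
    (op D o : Lam D J) ^ k • v = (A o ^ k) v := by
  let inst : Module (Lam D J) V := mkMod A
  show (op D o : Lam D J) ^ k • v = (A o ^ k) v
  induction k generalizing v with
  | zero => simp
  | succ k ih => rw [pow_succ, mul_smul, mkMod_op, ih, pow_succ, Module.End.mul_apply]

omit [DecidableEq J] in
lemma mkMod_algebraMap (A : Op J → Module.End D V) (c : L) (v : V) :
    letI := mkMod A
    algebraMap L (Lam D J) c • v = algebraMap L D c • v := by
  let inst : Module (Lam D J) V := mkMod A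
  show algebraMap L (Lam D J) c • v = algebraMap L D c • v
  rw [← coef_algebraMap, mkMod_coef]

/-- Operators with the laws give a graded module when it is finitely generated. -/
lemma Laws.isGr {A : Op J → Module.End D V} (hA : Laws a g A)
    (hfg : letI := mkMod A; Module.Finite (Lam D J) V) :
    letI := mkMod A
    IsGr D a g V :=
  letI := mkMod A
  { comm := fun o o' ho ho' m => by
      simp only [mkMod_op]
      exact LinearMap.congr_fun (hA.comm o o' ho ho') m
    pow := fun r m => by
      rw [mkMod_pow, hA.pow, formEl, Finset.sum_smul]
      refine Finset.sum_congr rfl fun p _ => ?_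
      rw [mul_smul, mul_smul, mkMod_pow, mkMod_pow, mkMod_algebraMap]
    proj := fun n m => by
      simp only [mkMod_op]
      exact LinearMap.congr_fun (hA.proj n) m
    orth := fun n n' h m => by
      simp only [mkMod_op]
      exact LinearMap.congr_fun (hA.orth n n' h) m
    shift := fun o ho n m => by
      simp only [mkMod_op]
      exact LinearMap.congr_fun (hA.shift o ho n) m
    below := fun o ho n h m => by
      simp only [mkMod_op]
      exact LinearMap.congr_fun (hA.below o ho n h) m
    complete := fun m => by
      obtain ⟨s, hs⟩ := hA.complete m
      exact ⟨s, by simpa only [mkMod_op] using hs⟩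
    fg := hfg }

end

section

variable {M N : Type u} [AddCommGroup M] [Module (Lam D J) M] [Module D M] [CoefTower D J M]
  [AddCommGroup N] [Module (Lam D J) N] [Module D N] [CoefTower D J N]

omit [DecidableEq J] in
/-- A linear map commuting with the operators is linear over them. -/
def toLamHom (f : M →ₗ[D] N)
    (h : ∀ o m, f ((op D o : Lam D J) • m) = (op D o : Lam D J) • f m) : M →ₗ[Lam D J] N where
  toFun := f
  map_add' := f.map_add
  map_smul' := by
    intro c
    rw [RingHom.id_apply]
    induction c using MonoidAlgebra.induction_on with
    | of w =>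
      induction w using FreeMonoid.inductionOn' with
      | one => intro m; rw [map_one, one_smul, one_smul]
      | of_mul o w ih => intro m; rw [map_mul, mul_smul, mul_smul, ← ih m]; exact h o _
    | add p q hp hq => intro m; rw [add_smul, add_smul, map_add, hp, hq]
    | smul d p hp =>
      intro m
      have : d • p = coef D d * p := by
        ext w
        simp [coef, MonoidAlgebra.coeff_single_one_mul]
      rw [this, mul_smul, mul_smul, ← hp, ← CoefTower.smul_eq (J := J), map_smul,
        CoefTower.smul_eq (J := J) d (f _)]

omit [DecidableEq J] in
@[simp] lemma toLamHom_apply (f : M →ₗ[D] N) (h) (m : M) : toLamHom (J := J) f h m = f m := rfl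

omit [DecidableEq J] in
lemma opL_pow (o : Op J) (k : ℕ) (m : M) :
    ((opL (D := D) o : Module.End D M) ^ k) m = (op D o : Lam D J) ^ k • m := by
  induction k generalizing m with
  | zero => simp
  | succ k ih => rw [pow_succ, Module.End.mul_apply, ih, opL_apply, pow_succ, mul_smul]

omit [DecidableEq J] in
lemma algebraMap_smul_eq (c : L) (m : M) :
    algebraMap L (Lam D J) c • m = algebraMap L D c • m := by
  rw [CoefTower.smul_eq (J := J), coef_algebraMap]

end

section Opt

variable {N : Type u} [AddCommGroup N] [Module (Lam D Unit) N] [Module D N] [CoefTower D Unit N]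

/-- The degree of the added block. -/
def noneDeg (n : Option J → ℕ) : Unit → ℕ := fun _ => n none

/-- The degree of the old blocks. -/
def someDeg (n : Option J → ℕ) : J → ℕ := fun r => n (some r)

/-- The operators of one more block. -/
noncomputable def optOp (A : Op J → Module.End (Lam D Unit) N) : Op (Option J) → Module.End D N
  | .x none b => opL (D := D) (.x () b)
  | .x (some r) b => linD (A (.x r b))
  | .w none => opL (D := D) (.w ())
  | .w (some r) => linD (A (.w r))
  | .pi n => (opL (D := D) (.pi (noneDeg n))).comp (linD (A (.pi (someDeg n))))

omit [DecidableEq J] in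
lemma linD_pow (f : Module.End (Lam D Unit) N) (k : ℕ) (v : N) :
    ((linD f : Module.End D N) ^ k) v = (f ^ k) v := by
  induction k generalizing v with
  | zero => simp
  | succ k ih =>
    rw [pow_succ, Module.End.mul_apply, ih, pow_succ, Module.End.mul_apply]
    rfl

/-- The laws for one more block. -/
theorem Laws.opt {g0 : Fin (a + 1) → L} {A : Op J → Module.End (Lam D Unit) N} (hA : Laws a g A)
    (hN : Laws (R := D) a (fun _ : Unit => g0) fun o => (opL (D := D) o : Module.End D N)) :
    Laws (R := D) a (fun o : Option J => o.elim g0 g) (optOp A) := by
  have hcm : ∀ o (f : Module.End (Lam D Unit) N) (v : N),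
      f ((op D o : Lam D Unit) • v) = (op D o : Lam D Unit) • f v := fun o f v => map_smul f _ v
  have hpi : ∀ n v, optOp A (.pi n) v =
      (op D (.pi (noneDeg n)) : Lam D Unit) • A (.pi (someDeg n)) v := fun _ _ => rfl
  refine ⟨?_, ?_, ?_, ?_, ?_, ?_, ?_⟩
  · intro o o' ho ho'
    refine LinearMap.ext fun v => ?_
    cases o with
    | pi n => exact absurd trivial ho
    | x r b =>
      cases o' with
      | pi n => exact absurd trivial ho'
      | x s c =>
        cases r <;> cases s <;> first
          | exact LinearMap.congr_fun (hN.comm (.x () b) (.x () c) id id) v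
          | exact LinearMap.congr_fun (hA.comm _ _ id id) v
          | exact hcm _ _ v
          | exact (hcm _ _ v).symm
      | w s =>
        cases r <;> cases s <;> first
          | exact LinearMap.congr_fun (hN.comm (.x () b) (.w ()) id id) v
          | exact LinearMap.congr_fun (hA.comm _ _ id id) v
          | exact hcm _ _ v
          | exact (hcm _ _ v).symm
    | w r =>
      cases o' with
      | pi n => exact absurd trivial ho'
      | x s c =>
        cases r <;> cases s <;> first
          | exact LinearMap.congr_fun (hN.comm (.w ()) (.x () c) id id) v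
          | exact LinearMap.congr_fun (hA.comm _ _ id id) v
          | exact hcm _ _ v
          | exact (hcm _ _ v).symm
      | w s =>
        cases r <;> cases s <;> first
          | exact LinearMap.congr_fun (hN.comm (.w ()) (.w ()) id id) v
          | exact LinearMap.congr_fun (hA.comm _ _ id id) v
          | exact hcm _ _ v
          | exact (hcm _ _ v).symm
  · intro r v
    cases r with
    | none => exact hN.pow () v
    | some r =>
      show ((linD (A (.w r)) : Module.End D N) ^ a) v = _
      rw [linD_pow, hA.pow r v]
      refine Finset.sum_congr rfl fun p _ => ?_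
      show _ = algebraMap L D (g r p) • ((linD (A (.x r 0)) : Module.End D N) ^ (p : ℕ))
        (((linD (A (.x r 1)) : Module.End D N) ^ (a - (p : ℕ))) v)
      rw [linD_pow, linD_pow, algebraMap_smul_eq]
  · intro n
    refine LinearMap.ext fun v => ?_
    show optOp A (.pi n) (optOp A (.pi n) v) = optOp A (.pi n) v
    rw [hpi, hpi, hcm]
    have h1 := LinearMap.congr_fun (hA.proj (someDeg n)) v
    have h2 := LinearMap.congr_fun (hN.proj (noneDeg n)) (A (.pi (someDeg n)) v)
    simp only [Module.End.mul_apply, opL_apply] at h1 h2
    rw [h1, h2]
  · intro n n' h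
    refine LinearMap.ext fun v => ?_
    show optOp A (.pi n) (optOp A (.pi n') v) = 0
    rw [hpi, hpi, hcm]
    by_cases h0 : noneDeg n = noneDeg n'
    · have hs : someDeg n ≠ someDeg n' := fun hs => h (funext fun o => by
        cases o with
        | none => exact congrFun h0 ()
        | some r => exact congrFun hs r)
      have h1 := LinearMap.congr_fun (hA.orth _ _ hs) v
      simp only [Module.End.mul_apply, LinearMap.zero_apply] at h1
      rw [h1, smul_zero, smul_zero]
    · exact LinearMap.congr_fun (hN.orth _ _ h0) _
  · intro o ho n
    refine LinearMap.ext fun v => ?_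
    show optOp A (.pi (n + opDeg o)) (optOp A o v) = optOp A o (optOp A (.pi n) v)
    rw [hpi, hpi]
    cases o with
    | pi m => exact absurd trivial ho
    | x r b =>
      cases r with
      | none =>
        show (op D _ : Lam D Unit) • A _ ((op D (.x () b) : Lam D Unit) • v) =
          (op D (.x () b) : Lam D Unit) • (op D _ : Lam D Unit) • A _ v
        rw [hcm]
        have h1 := LinearMap.congr_fun (hN.shift (.x () b) id (noneDeg n))
          (A (.pi (someDeg n)) v)
        rw [show noneDeg (n + opDeg (Op.x (none : Option J) b)) = noneDeg n + opDeg (Op.x () b) from funext fun u => by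
          simp [noneDeg, opDeg],
          show someDeg (n + opDeg (Op.x (none : Option J) b)) = someDeg n from funext fun u => by simp [someDeg, opDeg]]
        exact h1
      | some r =>
        show (op D _ : Lam D Unit) • A _ (A (.x r b) v) =
          A (.x r b) ((op D _ : Lam D Unit) • A _ v)
        rw [hcm]
        have h1 := LinearMap.congr_fun (hA.shift (.x r b) id (someDeg n)) v
        simp only [Module.End.mul_apply] at h1
        rw [← h1, show noneDeg (n + opDeg (Op.x (some r) b)) = noneDeg n from funext fun u => by
          simp [noneDeg, opDeg],
          show someDeg (n + opDeg (Op.x (some r) b)) = someDeg n + opDeg (Op.x r b) from funext fun u => by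
            simp [someDeg, opDeg, Pi.single_apply]]
    | w r =>
      cases r with
      | none =>
        show (op D _ : Lam D Unit) • A _ ((op D (.w ()) : Lam D Unit) • v) =
          (op D (.w ()) : Lam D Unit) • (op D _ : Lam D Unit) • A _ v
        rw [hcm]
        have h1 := LinearMap.congr_fun (hN.shift (.w ()) id (noneDeg n))
          (A (.pi (someDeg n)) v)
        rw [show noneDeg (n + opDeg (Op.w (none : Option J))) = noneDeg n + opDeg (Op.w ()) from funext fun u => by
          simp [noneDeg, opDeg],
          show someDeg (n + opDeg (Op.w (none : Option J))) = someDeg n from funext fun u => by simp [someDeg, opDeg]]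
        exact h1
      | some r =>
        show (op D _ : Lam D Unit) • A _ (A (.w r) v) =
          A (.w r) ((op D _ : Lam D Unit) • A _ v)
        rw [hcm]
        have h1 := LinearMap.congr_fun (hA.shift (.w r) id (someDeg n)) v
        simp only [Module.End.mul_apply] at h1
        rw [← h1, show noneDeg (n + opDeg (Op.w (some r))) = noneDeg n from funext fun u => by
          simp [noneDeg, opDeg],
          show someDeg (n + opDeg (Op.w (some r))) = someDeg n + opDeg (Op.w r) from funext fun u => by
            simp [someDeg, opDeg, Pi.single_apply]]
  · intro o ho n h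
    refine LinearMap.ext fun v => ?_
    show optOp A (.pi n) (optOp A o v) = 0
    rw [hpi]
    cases o with
    | pi m => exact absurd trivial ho
    | x r b =>
      cases r with
      | none =>
        show (op D _ : Lam D Unit) • A _ ((op D (.x () b) : Lam D Unit) • v) = 0
        rw [hcm]
        refine LinearMap.congr_fun (hN.below (.x () b) id (noneDeg n) fun hle => h fun s => ?_) _
        cases s with
        | none => simpa [noneDeg, opDeg] using hle ()
        | some s => simp [opDeg]
      | some r =>
        show (op D _ : Lam D Unit) • A _ (A (.x r b) v) = 0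
        have h1 := LinearMap.congr_fun (hA.below (.x r b) id (someDeg n) fun hle => h fun s => by
          cases s with
          | none => simp [opDeg]
          | some s => simpa [someDeg, opDeg, Pi.single_apply] using hle s) v
        simp only [Module.End.mul_apply, LinearMap.zero_apply] at h1
        rw [h1, smul_zero]
    | w r =>
      cases r with
      | none =>
        show (op D _ : Lam D Unit) • A _ ((op D (.w ()) : Lam D Unit) • v) = 0
        rw [hcm]
        refine LinearMap.congr_fun (hN.below (.w ()) id (noneDeg n) fun hle => h fun s => ?_) _
        cases s with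
        | none => simpa [noneDeg, opDeg] using hle ()
        | some s => simp [opDeg]
      | some r =>
        show (op D _ : Lam D Unit) • A _ (A (.w r) v) = 0
        have h1 := LinearMap.congr_fun (hA.below (.w r) id (someDeg n) fun hle => h fun s => by
          cases s with
          | none => simp [opDeg]
          | some s => simpa [someDeg, opDeg, Pi.single_apply] using hle s) v
        simp only [Module.End.mul_apply, LinearMap.zero_apply] at h1
        rw [h1, smul_zero]
  · intro v
    classical
    obtain ⟨s, hs⟩ := hA.complete v
    choose t ht using fun w => hN.complete (A (.pi w) v)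
    let U : Finset (Unit → ℕ) := s.biUnion t
    let mk : (Unit → ℕ) × (J → ℕ) → Option J → ℕ := fun p o => o.elim (p.1 ()) p.2
    refine ⟨(U ×ˢ s).image mk, ?_⟩
    rw [Finset.sum_image (fun p _ q _ h => Prod.ext (funext fun _ => congrFun h none)
      (funext fun r => congrFun h (some r)))]
    rw [Finset.sum_product_right]
    refine Eq.trans (Finset.sum_congr rfl fun w hw => ?_) hs
    refine Eq.trans ?_ (ht w)
    refine Eq.trans (Finset.sum_congr rfl fun z _ => hpi (mk (z, w)) v) ?_
    rw [← Finset.sum_subset (Finset.subset_biUnion_of_mem t hw)]
    · rfl
    · intro z _ hz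
      show (op D (.pi z) : Lam D Unit) • A (.pi w) v = 0
      rw [← ht w, Finset.smul_sum]
      refine Finset.sum_eq_zero fun z' hz' => ?_
      exact LinearMap.congr_fun (hN.orth z z' fun e => hz (e ▸ hz')) _

end Opt

end Vale.Agent.P200.Deg
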