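import Vale.Agent.P200.Deg.Laws

/-!
Free modules on the monomials `w ^ e x ^ m`, `e < a`, with values in a vector space.
-/

namespace Vale.Agent.P200.Deg

open Module

universe u

/-- Exponents of the roots (below `a`) and of the two variables of every block. -/
abbrev Mon (J : Type) (a : ℕ) : Type := (J → Fin a) × (J → Fin 2 → ℕ)

variable {J : Type} [DecidableEq J] {a : ℕ}

/-- The degree of a monomial. -/
def Mon.deg (p : Mon J a) : J → ℕ := fun r => (p.1 r : ℕ) + p.2 r 0 + p.2 r 1

/-- Multiplying by a variable. -/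
def Mon.upX (r : J) (b : Fin 2) (p : Mon J a) : Mon J a :=
  (p.1, Function.update p.2 r (Function.update (p.2 r) b (p.2 r b + 1)))

/-- Setting the exponent of a root. -/
def Mon.setW (r : J) (e : Fin a) (p : Mon J a) : Mon J a := (Function.update p.1 r e, p.2)

/-- Adding the exponents of a binary monomial of degree `a`. -/
def Mon.addPair (r : J) (i : Fin (a + 1)) (p : Mon J a) : Mon J a :=
  (p.1, Function.update p.2 r ![p.2 r 0 + i, p.2 r 1 + (a - i)])

lemma Mon.deg_upX (r : J) (b : Fin 2) (p : Mon J a) :
    (Mon.upX r b p).deg = p.deg + Pi.single r 1 := by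
  funext s
  rcases eq_or_ne s r with rfl | h
  · fin_cases b <;> simp [Mon.deg, Mon.upX] <;> omega
  · simp [Mon.deg, Mon.upX, h]

lemma Mon.upX_comm (r s : J) (b c : Fin 2) (p : Mon J a) :
    Mon.upX r b (Mon.upX s c p) = Mon.upX s c (Mon.upX r b p) := by
  refine Prod.ext rfl (funext fun t => funext fun d => ?_)
  rcases eq_or_ne r s with rfl | h
  · rcases eq_or_ne t r with rfl | ht
    · fin_cases b <;> fin_cases c <;> fin_cases d <;> simp [Mon.upX]
    · simp [Mon.upX, ht]
  · rcases eq_or_ne t r with rfl | ht <;> rcases eq_or_ne t s with ht' | ht' <;>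
      simp_all [Mon.upX, Function.update_of_ne]

section

variable {L : Type u} [Field L] {D : Type u} [Ring D] [Algebra L D]
  {ι : Type} {V : Type u} [AddCommGroup V] [Module D V] (g : J → Fin (a + 1) → L)

variable (D V) in
/-- A scalar as a linear map. -/
noncomputable def scalV (c : L) : V →ₗ[D] V where
  toFun v := algebraMap L D c • v
  map_add' := smul_add _
  map_smul' d v := by simp only [RingHom.id_apply, smul_smul, Algebra.commutes]

@[simp] lemma scalV_apply (c : L) (v : V) : scalV D V c v = algebraMap L D c • v := rfl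

variable (D V) in
/-- Moving the value at `p` along `h`. -/
noncomputable def moveAt (h : Mon J a → Mon J a) : Module.End D ((ι × Mon J a) →₀ V) :=
  Finsupp.lmapDomain V D fun p => (p.1, h p.2)

variable (D V) in
/-- Multiplication by a root. -/
noncomputable def rootAct (r : J) : Module.End D ((ι × Mon J a) →₀ V) :=
  Finsupp.lsum ℕ fun p =>
    if h : (p.2.1 r : ℕ) + 1 < a then Finsupp.lsingle (p.1, Mon.setW r ⟨_, h⟩ p.2)
    else ∑ i : Fin (a + 1), (Finsupp.lsingle
      (p.1, Mon.addPair r i (Mon.setW r ⟨0, (Nat.zero_le _).trans_lt (p.2.1 r).2⟩ p.2))).comp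
      (scalV D V (g r i))

variable (D V) in
/-- Keeping the monomials of one degree. -/
noncomputable def keep (d : ι → J → ℕ) (n : J → ℕ) : Module.End D ((ι × Mon J a) →₀ V) :=
  Finsupp.lsum ℕ fun p => open Classical in
    if d p.1 + p.2.deg = n then Finsupp.lsingle p else 0

variable (D V) in
/-- The operators on the free module. -/
noncomputable def newOp (d : ι → J → ℕ) : Op J → Module.End D ((ι × Mon J a) →₀ V)
  | .x r b => moveAt D V (Mon.upX r b)
  | .w r => rootAct D V g r
  | .pi n => keep D V d n

lemma moveAt_single (h : Mon J a → Mon J a) (p : ι × Mon J a) (v : V) :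
    moveAt D V h (Finsupp.single p v) = Finsupp.single (p.1, h p.2) v := by
  simp [moveAt]

lemma rootAct_single_lt (r : J) (p : ι × Mon J a) (v : V) (h : (p.2.1 r : ℕ) + 1 < a) :
    rootAct D V g r (Finsupp.single p v) = Finsupp.single (p.1, Mon.setW r ⟨_, h⟩ p.2) v := by
  simp [rootAct, h]

lemma rootAct_single_top (r : J) (p : ι × Mon J a) (v : V) (h : ¬(p.2.1 r : ℕ) + 1 < a) :
    rootAct D V g r (Finsupp.single p v) = ∑ i : Fin (a + 1), Finsupp.single
      (p.1, Mon.addPair r i (Mon.setW r ⟨0, (Nat.zero_le _).trans_lt (p.2.1 r).2⟩ p.2))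
      (algebraMap L D (g r i) • v) := by
  simp [rootAct, h, LinearMap.sum_apply]

open Classical in
lemma keep_single (d : ι → J → ℕ) (n : J → ℕ) (p : ι × Mon J a) (v : V) :
    keep D V d n (Finsupp.single p v) = if d p.1 + p.2.deg = n then Finsupp.single p v else 0 := by
  simp only [keep, Finsupp.lsum_single]
  split_ifs <;> simp

lemma upX_setW (r s : J) (b : Fin 2) (e : Fin a) (p : Mon J a) :
    Mon.upX r b (Mon.setW s e p) = Mon.setW s e (Mon.upX r b p) := rfl

lemma upX_addPair (r s : J) (b : Fin 2) (i : Fin (a + 1)) (p : Mon J a) :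
    Mon.upX r b (Mon.addPair s i p) = Mon.addPair s i (Mon.upX r b p) := by
  refine Prod.ext rfl (funext fun t => funext fun c => ?_)
  rcases eq_or_ne r s with rfl | h
  · rcases eq_or_ne t r with rfl | ht
    · fin_cases b <;> fin_cases c <;> simp [Mon.upX, Mon.addPair] <;> omega
    · simp [Mon.upX, Mon.addPair, ht]
  · rcases eq_or_ne t r with rfl | ht <;> rcases eq_or_ne t s with ht' | ht' <;>
      simp_all [Mon.upX, Mon.addPair, Function.update_of_ne]

lemma addPair_comm (r s : J) (h : r ≠ s) (i j : Fin (a + 1)) (p : Mon J a) :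
    Mon.addPair r i (Mon.addPair s j p) = Mon.addPair s j (Mon.addPair r i p) := by
  refine Prod.ext rfl ?_
  simp [Mon.addPair, Function.update_of_ne h, Function.update_of_ne h.symm,
    Function.update_comm h]

lemma setW_comm (r s : J) (h : r ≠ s) (i j : Fin a) (p : Mon J a) :
    Mon.setW r i (Mon.setW s j p) = Mon.setW s j (Mon.setW r i p) :=
  Prod.ext (Function.update_comm (β := fun _ => Fin a) h i j p.1).symm rfl

lemma setW_setW (r : J) (i j : Fin a) (p : Mon J a) :
    Mon.setW r i (Mon.setW r j p) = Mon.setW r i p :=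
  Prod.ext (Function.update_idem (β := fun _ => Fin a) j i p.1) rfl

lemma addPair_setW (r s : J) (e : Fin a) (i : Fin (a + 1)) (p : Mon J a) :
    Mon.addPair r i (Mon.setW s e p) = Mon.setW s e (Mon.addPair r i p) := rfl

lemma Mon.deg_setW (r : J) (e : Fin a) (p : Mon J a) (s : J) :
    (Mon.setW r e p).deg s = if s = r then (e : ℕ) + p.2 r 0 + p.2 r 1 else p.deg s := by
  split_ifs with h
  · subst h; simp [Mon.deg, Mon.setW]
  · simp [Mon.deg, Mon.setW, h]

lemma deg_addPair_setW (r : J) (i : Fin (a + 1)) (p : Mon J a) (h : ¬(p.1 r : ℕ) + 1 < a)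
    (z : Fin a) (hz : (z : ℕ) = 0) :
    (Mon.addPair r i (Mon.setW r z p)).deg = p.deg + Pi.single r 1 := by
  funext s
  have hi : (i : ℕ) ≤ a := Nat.le_of_lt_succ i.2
  have he := (p.1 r).2
  rcases eq_or_ne s r with rfl | hs
  · simp [Mon.deg, Mon.addPair, Mon.setW, hz]; omega
  · simp [Mon.deg, Mon.addPair, Mon.setW, hs]

variable (d : ι → J → ℕ)

/-- Linear maps agreeing on the single elements agree. -/
lemma ext_single {W : Type u} [AddCommGroup W] [Module D W]
    {φ ψ : ((ι × Mon J a) →₀ V) →ₗ[D] W}
    (h : ∀ p v, φ (Finsupp.single p v) = ψ (Finsupp.single p v)) : φ = ψ :=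
  Finsupp.lhom_ext h

lemma newOp_comm (o o' : Op J) (ho : ¬o.IsPi) (ho' : ¬o'.IsPi) :
    newOp D V g d o * newOp D V g d o' = newOp D V g d o' * newOp D V g d o := by
  have hxw : ∀ r b s, newOp D V g d (.x r b) * newOp D V g d (.w s) =
      newOp D V g d (.w s) * newOp D V g d (.x r b) := by
    intro r b s
    refine ext_single fun p v => ?_
    simp only [Module.End.mul_apply, newOp, moveAt_single]
    by_cases h : (p.2.1 s : ℕ) + 1 < a
    · rw [rootAct_single_lt g s p v h, rootAct_single_lt g s _ v (by simpa [Mon.upX] using h),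
        moveAt_single]
      rfl
    · rw [rootAct_single_top g s p v h, rootAct_single_top g s _ v (by simpa [Mon.upX] using h),
        map_sum]
      refine Finset.sum_congr rfl fun i _ => ?_
      rw [moveAt_single, upX_addPair]
      rfl
  match o, o' with
  | .x r b, .x s c =>
    refine ext_single fun p v => ?_
    simp only [Module.End.mul_apply, newOp, moveAt_single, Mon.upX_comm]
  | .x r b, .w s => exact hxw r b s
  | .w s, .x r b => exact (hxw r b s).symm
  | .w r, .w s =>
    rcases eq_or_ne r s with rfl | hrs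
    · rfl
    refine ext_single fun p v => ?_
    simp only [Module.End.mul_apply, newOp]
    have e1 : ∀ (e : Fin a) (q : Mon J a), ((Mon.setW s e q).1 r) = q.1 r := fun e q => by
      simp [Mon.setW, hrs]
    have e2 : ∀ (e : Fin a) (q : Mon J a), ((Mon.setW r e q).1 s) = q.1 s := fun e q => by
      simp [Mon.setW, hrs.symm]
    by_cases h : (p.2.1 s : ℕ) + 1 < a <;> by_cases h' : (p.2.1 r : ℕ) + 1 < a
    · rw [rootAct_single_lt g s p v h, rootAct_single_lt g r p v h',
        rootAct_single_lt g r _ v (by simpa [e1] using h'),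
        rootAct_single_lt g s _ v (by simpa [e2] using h)]
      simp only [e1, e2, setW_comm r s hrs]
    · rw [rootAct_single_lt g s p v h, rootAct_single_top g r p v h',
        rootAct_single_top g r _ v (by simpa [e1] using h'), map_sum]
      refine Finset.sum_congr rfl fun i _ => ?_
      rw [rootAct_single_lt g s _ _ (by simpa [Mon.addPair, e2] using h)]
      simp [Mon.addPair, Mon.setW, hrs, hrs.symm, Function.update_comm hrs]
    · rw [rootAct_single_top g s p v h, rootAct_single_lt g r p v h', map_sum,
        rootAct_single_top g s _ v (by simpa [e2] using h)]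
      refine Finset.sum_congr rfl fun i _ => ?_
      rw [rootAct_single_lt g r _ _ (by simpa [Mon.addPair, e1] using h')]
      simp [Mon.addPair, Mon.setW, hrs, hrs.symm, Function.update_comm hrs]
    · rw [rootAct_single_top g s p v h, rootAct_single_top g r p v h', map_sum, map_sum,
        Finset.sum_congr rfl fun i _ => rootAct_single_top g r _ _ (by
          simpa [Mon.addPair, e1] using h')]
      rw [Finset.sum_congr rfl fun i _ => rootAct_single_top g s _ _ (by
          simpa [Mon.addPair, e2] using h)]
      rw [Finset.sum_comm]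
      refine Finset.sum_congr rfl fun i _ => Finset.sum_congr rfl fun j _ => ?_
      rw [smul_smul, smul_smul, Algebra.commutes (g r _)]
      simp only [addPair_setW, setW_comm r s hrs, addPair_comm r s hrs]
  | .pi _, _ => exact absurd trivial ho
  | .x _ _, .pi _ => exact absurd trivial ho'
  | .w _, .pi _ => exact absurd trivial ho'

lemma keep_keep (n n' : J → ℕ) [Decidable (n = n')] :
    keep D V d n * keep D V d n' = if n = n' then keep (a := a) D V d n else 0 := by
  classical
  refine ext_single fun p v => ?_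
  split_ifs with h <;>
    simp only [Module.End.mul_apply, keep_single, apply_ite, map_zero, LinearMap.zero_apply] <;>
    split_ifs <;> simp_all

lemma deg_newOp (o : Op J) (ho : ¬o.IsPi) (n : J → ℕ) :
    keep D V d (n + opDeg o) * newOp D V g d o = newOp D V g d o * keep D V d n ∧
      ∀ m, ¬opDeg o ≤ m → keep D V d m * newOp D V g d o = 0 := by
  classical
  have key : ∀ (p : ι × Mon J a) (v : V), ∃ (s : Finset (ι × Mon J a)) (c : ι × Mon J a → V),
      newOp D V g d o (Finsupp.single p v) = ∑ q ∈ s, Finsupp.single q (c q) ∧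
        ∀ q ∈ s, d q.1 + q.2.deg = d p.1 + p.2.deg + opDeg o := by
    intro p v
    match o with
    | .pi _ => exact absurd trivial ho
    | .x r b =>
      refine ⟨{(p.1, Mon.upX r b p.2)}, fun _ => v, by simp [newOp, moveAt_single], ?_⟩
      intro q hq
      rw [Finset.mem_singleton] at hq
      subst hq
      simp [Mon.deg_upX, opDeg, add_assoc]
    | .w r =>
      by_cases h : (p.2.1 r : ℕ) + 1 < a
      · refine ⟨{(p.1, Mon.setW r ⟨_, h⟩ p.2)}, fun _ => v,
          by simp [newOp, rootAct_single_lt g r p v h], ?_⟩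
        intro q hq
        rw [Finset.mem_singleton] at hq
        subst hq
        funext s
        rcases eq_or_ne s r with rfl | hs
        · simp [Mon.deg, Mon.setW, opDeg]; omega
        · simp [Mon.deg, Mon.setW, opDeg, hs]
      · let f : Fin (a + 1) → ι × Mon J a := fun i =>
          (p.1, Mon.addPair r i (Mon.setW r ⟨0, (Nat.zero_le _).trans_lt (p.2.1 r).2⟩ p.2))
        refine ⟨Finset.univ.image f, fun q => ∑ i with f i = q, algebraMap L D (g r i) • v, ?_, ?_⟩
        · simp only [newOp, rootAct_single_top g r p v h]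
          rw [← Finset.sum_fiberwise_of_maps_to (g := f)
            (fun i _ => Finset.mem_image_of_mem f (Finset.mem_univ i))]
          refine Finset.sum_congr rfl fun q _ => ?_
          rw [Finsupp.single_finsetSum]
          exact Finset.sum_congr rfl fun i hi => by rw [← (Finset.mem_filter.1 hi).2]
        · intro q hq
          obtain ⟨i, -, rfl⟩ := Finset.mem_image.1 hq
          simp only [f, opDeg]
          rw [deg_addPair_setW r i p.2 h _ rfl, add_assoc]
  refine ⟨ext_single fun p v => ?_, fun m hm => ext_single fun p v => ?_⟩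
  · obtain ⟨s, c, hc, hdeg⟩ := key p v
    simp only [Module.End.mul_apply, keep_single, hc, map_sum]
    split_ifs with h
    · rw [hc]
      refine Finset.sum_congr rfl fun q hq => if_pos ?_
      rw [hdeg q hq, h]
    · rw [map_zero]
      refine Finset.sum_eq_zero fun q hq => if_neg ?_
      rw [hdeg q hq]
      exact fun h' => h (add_right_cancel h')
  · obtain ⟨s, c, hc, hdeg⟩ := key p v
    simp only [Module.End.mul_apply, hc, map_sum, keep_single, LinearMap.zero_apply]
    refine Finset.sum_eq_zero fun q hq => if_neg fun h' => hm ?_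
    rw [← h', hdeg q hq]
    exact le_add_self

lemma rootAct_pow_lt (r : J) (j : ℕ) (p : ι × Mon J a) (v : V) (h : (p.2.1 r : ℕ) + j < a) :
    (rootAct D V g r ^ j) (Finsupp.single p v) = Finsupp.single (p.1, Mon.setW r ⟨_, h⟩ p.2) v := by
  induction j with
  | zero =>
    simp only [pow_zero, Module.End.one_apply]
    congr 1
    refine Prod.ext rfl (Prod.ext ?_ rfl)
    simp [Mon.setW]
  | succ j ih =>
    have hj : (p.2.1 r : ℕ) + j < a := by omega
    rw [pow_succ', Module.End.mul_apply, ih hj, rootAct_single_lt g r _ v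
      (by simp [Mon.setW]; omega)]
    simp only [setW_setW]
    congr 3
    ext
    simp [Mon.setW]
    omega

lemma moveAt_pow (h : Mon J a → Mon J a) (k : ℕ) (p : ι × Mon J a) (v : V) :
    (moveAt D V h ^ k) (Finsupp.single p v) = Finsupp.single (p.1, h^[k] p.2) v := by
  induction k generalizing p with
  | zero => simp
  | succ k ih => rw [pow_succ, Module.End.mul_apply, moveAt_single, ih, Function.iterate_succ_apply]

lemma iterate_upX (r : J) (b : Fin 2) (k : ℕ) (p : Mon J a) :
    (Mon.upX r b)^[k] p =
      (p.1, Function.update p.2 r (Function.update (p.2 r) b (p.2 r b + k))) := by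
  induction k with
  | zero => simp
  | succ k ih =>
    rw [Function.iterate_succ_apply', ih]
    simp [Mon.upX, add_assoc]

lemma iterate_pair (r : J) (i : Fin (a + 1)) (p : Mon J a) :
    (Mon.upX r 0)^[(i : ℕ)] ((Mon.upX r 1)^[a - (i : ℕ)] p) = Mon.addPair r i p := by
  rw [iterate_upX, iterate_upX]
  refine Prod.ext rfl ?_
  simp only [Mon.addPair, Function.update_self, Function.update_idem]
  congr 1
  funext c
  fin_cases c <;> simp

lemma setW_self (r : J) (e : Fin a) (p : Mon J a) (he : (e : ℕ) = p.1 r) : Mon.setW r e p = p := by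
  refine Prod.ext ?_ rfl
  show Function.update p.1 r e = p.1
  rw [Fin.ext he, Function.update_eq_self]

lemma rootAct_pow_self (r : J) (p : ι × Mon J a) (v : V) :
    (rootAct D V g r ^ a) (Finsupp.single p v) = ∑ i : Fin (a + 1), Finsupp.single
      (p.1, Mon.addPair r i p.2) (algebraMap L D (g r i) • v) := by
  have he : (p.2.1 r : ℕ) < a := (p.2.1 r).2
  obtain ⟨j, hj⟩ : ∃ j, (p.2.1 r : ℕ) + j + 1 = a := ⟨a - 1 - p.2.1 r, by omega⟩
  have hpow : rootAct (ι := ι) (D := D) (V := V) g r ^ a =
      rootAct D V g r ^ (p.2.1 r : ℕ) * (rootAct D V g r * rootAct D V g r ^ j) := by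
    rw [← pow_succ', ← pow_add]
    congr 1
    omega
  rw [hpow, Module.End.mul_apply, Module.End.mul_apply,
    rootAct_pow_lt g r j p v (by omega), rootAct_single_top g r _ v (by simp [Mon.setW]; omega),
    map_sum]
  refine Finset.sum_congr rfl fun i _ => ?_
  rw [rootAct_pow_lt g r _ _ _ (by simp [Mon.setW, Mon.addPair])]
  simp only [← addPair_setW, setW_setW]
  congr 3
  exact setW_self r _ _ (by simp [Mon.setW, Mon.addPair])

open Classical in
lemma keep_apply (n : J → ℕ) (f : (ι × Mon J a) →₀ V) (p : ι × Mon J a) :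
    keep D V d n f p = if d p.1 + p.2.deg = n then f p else 0 := by
  induction f using Finsupp.induction_linear with
  | zero => simp
  | add f f' h h' => rw [map_add, Finsupp.add_apply, h, h', Finsupp.add_apply]; split_ifs <;> simp
  | single q w =>
    rw [keep_single]
    rcases eq_or_ne q p with rfl | hqp
    · split_ifs <;> simp
    · split_ifs <;> simp [Finsupp.single_eq_of_ne' hqp]

theorem laws_newOp : Laws (R := D) a g (newOp (ι := ι) D V g d) := by
  classical
  refine ⟨fun o o' ho ho' => newOp_comm g d o o' ho ho', fun r v => ?_,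
    fun n => by simpa [newOp] using keep_keep (D := D) (V := V) (a := a) d n n,
    fun n n' h => by simpa [h, newOp] using keep_keep (D := D) (V := V) (a := a) d n n',
    fun o ho n => (deg_newOp g d o ho n).1, fun o ho n h => (deg_newOp g d o ho n).2 n h,
    fun v => ?_⟩
  · induction v using Finsupp.induction_linear with
    | zero => simp
    | add x y hx hy => simp only [map_add, smul_add, Finset.sum_add_distrib, hx, hy]
    | single p w =>
      simp only [newOp, rootAct_pow_self]
      refine Finset.sum_congr rfl fun i _ => ?_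
      rw [moveAt_pow, moveAt_pow, iterate_pair, Finsupp.smul_single]
  · refine ⟨v.support.image fun p => d p.1 + p.2.deg, Finsupp.ext fun p => ?_⟩
    simp only [Finsupp.finsetSum_apply, newOp, keep_apply, Finset.sum_ite_eq]
    by_cases hp : p ∈ v.support
    · rw [if_pos (Finset.mem_image_of_mem _ hp)]
    · rw [Finsupp.notMem_support_iff.1 hp]
      simp

/-- Induction on monomials. -/
lemma Mon.induct [Fintype J] [NeZero a] {P : Mon J a → Prop} (h0 : P 0)
    (hx : ∀ r b p, P p → P (Mon.upX r b p))
    (hw : ∀ r p, ∀ h : (p.1 r : ℕ) + 1 < a, P p → P (Mon.setW r ⟨_, h⟩ p)) : ∀ p, P p := by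
  intro p
  induction hk : ∑ r, p.deg r using Nat.strong_induction_on generalizing p with
  | _ k ih =>
  by_cases h : ∀ r, p.deg r = 0
  · convert h0
    have h' : ∀ r, (p.1 r : ℕ) = 0 ∧ p.2 r 0 = 0 ∧ p.2 r 1 = 0 := fun r => by
      have := h r
      simp only [Mon.deg] at this
      omega
    refine Prod.ext (funext fun r => Fin.ext ?_) (funext fun r => funext fun c => ?_)
    · simp [(h' r).1]
    · fin_cases c <;> simp [(h' r).2]
  obtain ⟨r, hr⟩ := not_forall.1 h
  have hlt : ∀ q : Mon J a, q.deg + Pi.single r 1 = p.deg → P q := fun q hq => by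
    refine ih _ ?_ q rfl
    rw [← hk, ← hq]
    simp [Finset.sum_add_distrib]
  by_cases hb : ∃ b, p.2 r b ≠ 0
  · obtain ⟨b, hb⟩ := hb
    let q : Mon J a := (p.1, Function.update p.2 r (Function.update (p.2 r) b (p.2 r b - 1)))
    have hq : Mon.upX r b q = p := by
      simp only [q, Mon.upX, Function.update_self, Function.update_idem]
      rw [Nat.sub_add_cancel (Nat.one_le_iff_ne_zero.2 hb), Function.update_eq_self,
        Function.update_eq_self]
    rw [← hq] at hlt ⊢
    exact hx r b q (hlt q (Mon.deg_upX r b q).symm)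
  · have hw0 : (p.1 r : ℕ) ≠ 0 := fun he => hr (by
      simp only [not_exists, not_not] at hb
      simp [Mon.deg, he, hb 0, hb 1])
    let q : Mon J a := Mon.setW r ⟨(p.1 r : ℕ) - 1, by omega⟩ p
    have hq1 : (q.1 r : ℕ) + 1 < a := by simp [q, Mon.setW]; omega
    have hq : Mon.setW r ⟨_, hq1⟩ q = p := by
      simp only [q, setW_setW]
      exact setW_self r _ p (by simp [Mon.setW]; omega)
    rw [← hq]
    refine hw r q hq1 (hlt q (funext fun s => ?_))
    rcases eq_or_ne s r with rfl | hs
    · simp [q, Mon.deg, Mon.setW]; omega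
    · simp [q, Mon.deg, Mon.setW, hs]

/-- The monomials of one degree are finitely many. -/
lemma finite_deg [Finite ι] [Fintype J] (n : J → ℕ) :
    {p : ι × Mon J a | d p.1 + p.2.deg = n}.Finite := by
  classical
  refine Set.Finite.subset ((Set.finite_univ.prod (Set.finite_univ.prod
    (Set.Finite.pi fun r => Set.Finite.pi fun _ : Fin 2 => Set.finite_Iic (n r))))) ?_
  intro p hp
  refine ⟨trivial, trivial, fun r _ c _ => ?_⟩
  have := congrFun hp r
  simp only [Pi.add_apply, Mon.deg] at this
  simp only [Set.mem_Iic]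
  fin_cases c <;> simp <;> omega

/-- The monomials of one degree. -/
abbrev Slot (a : ℕ) (d : ι → J → ℕ) (n : J → ℕ) : Type :=
  {p : ι × Mon J a // d p.1 + p.2.deg = n}

noncomputable instance [Finite ι] [Fintype J] (n : J → ℕ) : Fintype (Slot a d n) :=
  (finite_deg d n).fintype

variable (D V) in
/-- The coordinates of one degree. -/
noncomputable def res (n : J → ℕ) : ((ι × Mon J a) →₀ V) →ₗ[D] (Slot a d n → V) :=
  LinearMap.pi fun p => Finsupp.lapply p.1

@[simp] lemma res_apply (n : J → ℕ) (f : (ι × Mon J a) →₀ V) (p : Slot a d n) :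
    res D V d n f p = f p.1 := rfl

variable [Finite ι] [Fintype J]

variable (D V) in
/-- The element with given coordinates in one degree. -/
noncomputable def emb (n : J → ℕ) : (Slot a d n → V) →ₗ[D] ((ι × Mon J a) →₀ V) :=
  ∑ p : Slot a d n, (Finsupp.lsingle p.1).comp (LinearMap.proj p)

lemma emb_apply (n : J → ℕ) (x : Slot a d n → V) :
    emb D V d n x = ∑ p : Slot a d n, Finsupp.single p.1 (x p) := by
  simp [emb, LinearMap.sum_apply]

lemma res_emb (n : J → ℕ) (x : Slot a d n → V) : res D V d n (emb D V d n x) = x := by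
  classical
  funext p
  rw [res_apply, emb_apply, Finsupp.finsetSum_apply]
  rw [Finset.sum_eq_single p (fun q _ hq => Finsupp.single_eq_of_ne' fun e => hq (Subtype.ext e))
    (by simp), Finsupp.single_eq_same]

open Classical in
lemma emb_res (n : J → ℕ) (f : (ι × Mon J a) →₀ V) :
    emb D V d n (res D V d n f) = keep D V d n f := by
  refine Finsupp.ext fun q => ?_
  rw [keep_apply, emb_apply, Finsupp.finsetSum_apply]
  split_ifs with h
  · rw [Finset.sum_eq_single (⟨q, h⟩ : Slot a d n)]
    · simp
    · intro p _ hp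
      exact Finsupp.single_eq_of_ne' fun e => hp (Subtype.ext e)
    · simp
  · exact Finset.sum_eq_zero fun p _ => Finsupp.single_eq_of_ne' fun e => h (e ▸ p.2)

lemma res_keep (n : J → ℕ) (f : (ι × Mon J a) →₀ V) :
    res D V d n (keep D V d n f) = res D V d n f := by
  classical
  funext p
  rw [res_apply, res_apply, keep_apply, if_pos p.2]

end

end Vale.Agent.P200.Deg
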