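import Mathlib

/-!
The basis theorem for submodules stable under commuting endomorphisms, over any ring.
-/

namespace Vale.Agent.P200.Deg

open Submodule

variable {R : Type*} [Ring R] {M : Type*} [AddCommGroup M] [Module R M]

/-- Stable under the endomorphisms of a list. -/
def Stab (l : List (Module.End R M)) (S : Submodule R M) : Prop :=
  ∀ φ ∈ l, ∀ x ∈ S, φ x ∈ S

/-- The least stable submodule containing a set. -/
def cl (l : List (Module.End R M)) (s : Set M) : Submodule R M :=
  sInf {S | s ⊆ S ∧ Stab l S}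

lemma subset_cl (l : List (Module.End R M)) (s : Set M) : s ⊆ cl l s := fun x hx => by
  simp only [cl, SetLike.mem_coe, mem_sInf]
  exact fun S hS => hS.1 hx

lemma stab_cl (l : List (Module.End R M)) (s : Set M) : Stab l (cl l s) := fun φ hφ x hx => by
  simp only [cl, mem_sInf] at hx ⊢
  exact fun S hS => hS.2 φ hφ x (hx S hS)

lemma cl_le {l : List (Module.End R M)} {s : Set M} {S : Submodule R M} (hs : s ⊆ S)
    (hS : Stab l S) : cl l s ≤ S :=
  sInf_le ⟨hs, hS⟩

lemma cl_mono {l : List (Module.End R M)} {s t : Set M} (h : s ⊆ t) : cl l s ≤ cl l t :=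
  cl_le (h.trans (subset_cl l t)) (stab_cl l t)

lemma fg_cl_nil (s : Finset M) : (cl ([] : List (Module.End R M)) ↑s).FG := by
  refine ⟨s, le_antisymm (span_le.2 (subset_cl _ _)) (cl_le subset_span ?_)⟩
  intro φ hφ
  exact absurd hφ (List.not_mem_nil)

/-- The images of a submodule under the powers below `k`. -/
def low (X : Module.End R M) (M0 : Submodule R M) : ℕ → Submodule R M
  | 0 => ⊥
  | k + 1 => low X M0 k ⊔ M0.map (X ^ k)

lemma low_mono (X : Module.End R M) (M0 : Submodule R M) : Monotone (low X M0) :=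
  monotone_nat_of_le_succ fun _ => le_sup_left

lemma map_low (X : Module.End R M) (M0 : Submodule R M) (k : ℕ) :
    (low X M0 k).map X ≤ low X M0 (k + 1) := by
  induction k with
  | zero => simp [low]
  | succ k ih =>
    rw [low, Submodule.map_sup]
    refine sup_le (ih.trans (low_mono X M0 (by omega))) ?_
    refine le_trans ?_ le_sup_right
    rw [← Submodule.map_comp, ← Module.End.mul_eq_comp, ← pow_succ']

variable [IsNoetherianRing R]

/-- A stable submodule of a finitely generated one is finitely generated. -/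
theorem exists_finset_cl : ∀ (l : List (Module.End R M)), l.Pairwise Commute →
    ∀ s : Finset M, ∀ N : Submodule R M, Stab l N → N ≤ cl l ↑s →
      ∃ t : Finset M, cl l ↑t = N := by
  classical
  intro l
  induction l with
  | nil =>
    intro _ s N _ hle
    have h1 : IsNoetherian R (cl ([] : List (Module.End R M)) ↑s) :=
      isNoetherian_of_fg_of_noetherian _ (fg_cl_nil s)
    obtain ⟨t, rfl⟩ : N.FG := by
      rw [← Module.Finite.iff_fg]
      exact Module.Finite.equiv (Submodule.comapSubtypeEquivOfLe hle)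
    exact ⟨t, le_antisymm (cl_le subset_span fun φ hφ => absurd hφ List.not_mem_nil)
      (span_le.2 (subset_cl _ _))⟩
  | cons X l ih =>
    intro hc s N hN hle
    rw [List.pairwise_cons] at hc
    obtain ⟨hX, hl⟩ := hc
    set M0 := cl l (↑s : Set M)
    have hM0 : Stab l M0 := stab_cl l _
    have hcomm : ∀ φ ∈ l, ∀ x, φ (X x) = X (φ x) := fun φ hφ x => by
      have := (hX φ hφ).eq
      exact (LinearMap.congr_fun this x).symm
    have hcommp : ∀ φ ∈ l, ∀ (k : ℕ) (x), φ ((X ^ k) x) = (X ^ k) (φ x) := fun φ hφ k x => by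
      have := ((hX φ hφ).pow_left k).eq
      exact (LinearMap.congr_fun this x).symm
    have hlow : ∀ k, Stab l (low X M0 k) := by
      intro k
      induction k with
      | zero => intro φ _ x hx; rw [low, mem_bot] at hx; rw [hx, map_zero]; exact zero_mem _
      | succ k ihk =>
        intro φ hφ x hx
        rw [low, mem_sup] at hx
        obtain ⟨y, hy, _, ⟨m, hm, rfl⟩, rfl⟩ := hx
        rw [map_add, hcommp φ hφ]
        exact mem_sup.2 ⟨_, ihk φ hφ y hy, _, ⟨_, hM0 φ hφ m hm, rfl⟩, rfl⟩
    have hexh : ∀ x ∈ cl (X :: l) (↑s : Set M), ∃ k, x ∈ low X M0 k := by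
      intro x hx
      refine (mem_iSup_of_directed _ (low_mono X M0).directed_le).1 (cl_le ?_ ?_ hx)
      · intro y hy
        exact mem_iSup_of_mem 1 (mem_sup_right ⟨y, subset_cl l _ hy, by simp⟩)
      · intro φ hφ y hy
        obtain ⟨k, hk⟩ := (mem_iSup_of_directed _ (low_mono X M0).directed_le).1 hy
        rcases List.mem_cons.1 hφ with rfl | hφ
        · exact mem_iSup_of_mem (k + 1) (map_low φ M0 k ⟨y, hk, rfl⟩)
        · exact mem_iSup_of_mem k (hlow k φ hφ y hk)
    have hXN : ∀ x ∈ N, X x ∈ N := hN X (List.mem_cons_self ..)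
    have hlN : Stab l N := fun φ hφ => hN φ (List.mem_cons_of_mem _ hφ)
    -- the leading submodules
    let Lead : ℕ → Submodule R M := fun k => M0 ⊓ (N ⊔ low X M0 k).comap (X ^ k)
    have hLst : ∀ k, Stab l (Lead k) := fun k φ hφ x hx => by
      refine ⟨hM0 φ hφ x hx.1, ?_⟩
      have h2 := hx.2
      simp only [SetLike.mem_coe, mem_comap] at h2 ⊢
      obtain ⟨y, hy, z, hz, hyz⟩ := mem_sup.1 h2
      rw [← hcommp φ hφ, ← hyz, map_add]
      exact mem_sup.2 ⟨_, hlN φ hφ y hy, _, hlow k φ hφ z hz, rfl⟩
    have hLmono : Monotone Lead := monotone_nat_of_le_succ fun k x hx => by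
      refine ⟨hx.1, ?_⟩
      have h2 := hx.2
      simp only [SetLike.mem_coe, mem_comap] at h2 ⊢
      obtain ⟨y, hy, z, hz, hyz⟩ := mem_sup.1 h2
      rw [pow_succ', Module.End.mul_apply, ← hyz, map_add]
      exact mem_sup.2 ⟨_, hXN y hy, _, map_low X M0 k ⟨z, hz, rfl⟩, rfl⟩
    choose g hg using fun k => ih hl s (Lead k) (hLst k) inf_le_left
    obtain ⟨gi, hgi⟩ := ih hl s (⨆ k, Lead k) (fun φ hφ x hx => by
      obtain ⟨k, hk⟩ := (mem_iSup_of_directed _ hLmono.directed_le).1 hx
      exact mem_iSup_of_mem k (hLst k φ hφ x hk)) (iSup_le fun k => inf_le_left)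
    have hmem : ∀ y ∈ gi, ∃ k, y ∈ Lead k := fun y hy =>
      (mem_iSup_of_directed _ hLmono.directed_le).1 (hgi ▸ subset_cl l _ hy)
    choose! ky hky using hmem
    set K := gi.sup ky
    have hLK : ∀ k, Lead k ≤ Lead K := fun k => by
      refine (le_iSup Lead k).trans ?_
      rw [← hgi]
      exact cl_le (fun y hy => hLmono (Finset.le_sup hy) (hky y hy)) (hLst K)
    -- lifts of the generators
    have hlift : ∀ k, ∀ y ∈ g k, ∃ z ∈ N, (X ^ k) y - z ∈ low X M0 k := fun k y hy => by
      have h2 := (hg k ▸ subset_cl l _ hy : y ∈ Lead k).2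
      simp only [SetLike.mem_coe, mem_comap] at h2
      obtain ⟨z, hz, w, hw, hzw⟩ := mem_sup.1 h2
      exact ⟨z, hz, by rw [← hzw, add_sub_cancel_left]; exact hw⟩
    choose lift hliftN hliftlow using hlift
    let t : Finset M := (Finset.range (K + 1)).biUnion fun k =>
      (g k).attach.image fun y => lift k y.1 y.2
    refine ⟨t, le_antisymm (cl_le ?_ hN) ?_⟩
    · intro z hz
      simp only [t, Finset.coe_biUnion, Set.mem_iUnion, Finset.coe_image, Set.mem_image] at hz
      obtain ⟨k, -, y, -, rfl⟩ := hz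
      exact hliftN k y.1 y.2
    · set T := cl (X :: l) (↑t : Set M)
      have hT : Stab l T := fun φ hφ => stab_cl _ _ φ (List.mem_cons_of_mem _ hφ)
      have hTN : T ≤ N := cl_le (fun z hz => by
        simp only [t, Finset.coe_biUnion, Set.mem_iUnion, Finset.coe_image, Set.mem_image] at hz
        obtain ⟨k, -, y, -, rfl⟩ := hz
        exact hliftN k y.1 y.2) hN
      -- the leading submodules are reached
      have hreach : ∀ k, ∀ m ∈ Lead k, (X ^ k) m ∈ T ⊔ low X M0 k := by
        have hsmall : ∀ k ≤ K, ∀ m ∈ Lead k, (X ^ k) m ∈ T ⊔ low X M0 k := by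
          intro k hk m hm
          have hst : Stab l ((T ⊔ low X M0 k).comap (X ^ k)) := fun φ hφ x hx => by
            simp only [mem_comap] at hx ⊢
            obtain ⟨y, hy, z, hz, hyz⟩ := mem_sup.1 hx
            rw [← hcommp φ hφ, ← hyz, map_add]
            exact mem_sup.2 ⟨_, hT φ hφ y hy, _, hlow k φ hφ z hz, rfl⟩
          refine cl_le (fun y hy => ?_) hst (hg k ▸ hm)
          simp only [SetLike.mem_coe, mem_comap]
          refine mem_sup.2 ⟨lift k y hy, ?_, _, hliftlow k y hy, by abel⟩
          refine subset_cl _ _ ?_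
          simp only [t, Finset.coe_biUnion, Set.mem_iUnion, Finset.coe_image, Set.mem_image]
          exact ⟨k, by simp; omega, ⟨y, hy⟩, by simp, rfl⟩
        intro k
        induction k with
        | zero => exact hsmall 0 (Nat.zero_le _)
        | succ k ihk =>
          rcases Nat.lt_or_ge k K with h | h
          · exact hsmall (k + 1) h
          intro m hm
          have hm' : m ∈ Lead k := hLmono h (hLK _ hm)
          obtain ⟨y, hy, z, hz, hyz⟩ := mem_sup.1 (ihk m hm')
          rw [pow_succ', Module.End.mul_apply, ← hyz, map_add]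
          exact mem_sup.2 ⟨_, stab_cl _ _ X (List.mem_cons_self ..) y hy, _,
            map_low X M0 k ⟨z, hz, rfl⟩, rfl⟩
      intro x hx
      obtain ⟨k, hk⟩ := hexh x (hle hx)
      induction k generalizing x with
      | zero =>
        rw [low, mem_bot] at hk
        rw [hk]
        exact zero_mem _
      | succ k ihk =>
        rw [low, mem_sup] at hk
        obtain ⟨f, hf, _, ⟨m, hm, rfl⟩, rfl⟩ := hk
        have hmL : m ∈ Lead k := ⟨hm, by
          simp only [SetLike.mem_coe, mem_comap]
          exact mem_sup.2 ⟨_, hx, -f, neg_mem hf, by abel⟩⟩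
        obtain ⟨y, hy, z, hz, hyz⟩ := mem_sup.1 (hreach k m hmL)
        have h1 : f + z ∈ T := @ihk (f + z) (by
          have : f + z = (f + (X ^ k) m) - y := by rw [← hyz]; abel
          rw [this]
          exact sub_mem hx (hTN hy)) (add_mem hf hz)
        have : f + (X ^ k) m = (f + z) + y := by rw [← hyz]; abel
        rw [this]
        exact add_mem h1 hy

end Vale.Agent.P200.Deg
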