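import Vale.Agent.P200.Deg.Free
import Vale.Agent.P200.Deg.CalcRho

/-!
One block: the rank function on its graded modules.
-/

namespace Vale.Agent.P200.Deg

open Module

universe u

variable {L : Type u} [Field L] {D : Type u} [DivisionRing D] [Algebra L D] {a : ℕ} [NeZero a]
  {g : Fin (a + 1) → L}

/-- The degree `t` of one block. -/
def deg1 (t : ℕ) : Unit → ℕ := fun _ => t

/-- The shape of a Hilbert function of one block. -/
def Lin (a : ℕ) (f : (Unit → ℕ) → ℤ) (p : ℤ × ℤ) : Prop :=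
  ∃ N : ℕ, ∀ t, N ≤ t → f (deg1 t) = p.1 * hfree a t + (a : ℤ) * p.2

lemma hfree_add (a : ℕ) (t d : ℤ) : hfree a (t + d) = hfree a t + (a : ℤ) * d := by
  unfold hfree
  ring

lemma Lin.unique {f : (Unit → ℕ) → ℤ} {p q : ℤ × ℤ} (hp : Lin a f p) (hq : Lin a f q) : p = q := by
  obtain ⟨N, hN⟩ := hp
  obtain ⟨N', hN'⟩ := hq
  have h1 := (hN (N + N') (by omega)).symm.trans (hN' (N + N') (by omega))
  have h2 := (hN (N + N' + 1) (by omega)).symm.trans (hN' (N + N' + 1) (by omega))
  have ha : (a : ℤ) ≠ 0 := by exact_mod_cast NeZero.ne a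
  have e1 : p.1 = q.1 := by
    rw [Nat.cast_succ, hfree_add] at h2
    have : (a : ℤ) * p.1 = (a : ℤ) * q.1 := by linear_combination h2 - h1
    exact mul_left_cancel₀ ha this
  refine Prod.ext e1 (mul_left_cancel₀ ha ?_)
  rw [e1] at h1
  linarith

/-- Hilbert functions of graded modules of one block are combinations of the free ones. -/
def Good1 (D : Type u) [DivisionRing D] [Algebra L D] (a : ℕ) (g : Fin (a + 1) → L) : Prop :=
  ∀ (M : Type u) [AddCommGroup M] [Module (Lam D Unit) M],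
    IsGr D (J := Unit) a (fun _ => g) M → InSpan a (hdim D (J := Unit) M)

lemma exists_lin {f : (Unit → ℕ) → ℤ} (h : InSpan a f) : ∃ p, Lin a f p := by
  obtain ⟨c, N, h⟩ := h
  refine ⟨(c.sum fun _ k => k, c.sum fun d k => k * d ()), N, fun t ht => ?_⟩
  rw [h (deg1 t) fun _ => ht]
  simp only [Finsupp.sum, Finset.sum_mul, Finset.mul_sum, ← Finset.sum_add_distrib]
  refine Finset.sum_congr rfl fun d _ => ?_
  simp only [Fintype.prod_unique, deg1, hfree_add]
  show _ = _
  ring

open Classical in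
/-- The rank of a module. -/
noncomputable def rhoOne (D : Type u) [DivisionRing D] (a : ℕ) (M : Type u) [AddCommGroup M]
    [Module (Lam D Unit) M] : ℤ :=
  if h : ∃ p, Lin a (hdim D (J := Unit) M) p then h.choose.1 - h.choose.2 else 0

lemma rhoOne_eq {M : Type u} [AddCommGroup M] [Module (Lam D Unit) M] {p : ℤ × ℤ}
    (h : Lin a (hdim D (J := Unit) M) p) : rhoOne D a M = p.1 - p.2 := by
  unfold rhoOne
  rw [dif_pos ⟨p, h⟩, (Exists.choose_spec (⟨p, h⟩ : ∃ q, Lin a _ q)).unique h]

lemma rhoOne_congr {M N : Type u} [AddCommGroup M] [Module (Lam D Unit) M] [AddCommGroup N]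
    [Module (Lam D Unit) N] (e : M ≃ₗ[Lam D Unit] N) : rhoOne D a M = rhoOne D a N := by
  have : hdim D (J := Unit) M = hdim D (J := Unit) N := funext (hdim_congr e)
  unfold rhoOne
  rw [this]

/-- The free module with one generator in degree `m`. -/
abbrev FR (D : Type u) [DivisionRing D] [Algebra L D] (g : Fin (a + 1) → L) (m : ℕ) : Type u :=
  Free D (fun _ : Unit => g) (fun (_ : Unit) (_ : Unit) => m)

lemma deg_unit (μ : Mon Unit a) : μ.deg () = (μ.1 () : ℕ) + μ.2 () 0 + μ.2 () 1 := rfl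

lemma card_slot (m t : ℕ) (h : m + a ≤ t) :
    (Fintype.card (Slot a (fun (_ : Unit) (_ : Unit) => m) (deg1 t)) : ℤ) =
      hfree a ((t : ℤ) - m) := by
  classical
  have hd : ∀ p : Slot a (fun (_ : Unit) (_ : Unit) => m) (deg1 t),
      m + ((p.1.2.1 () : ℕ) + p.1.2.2 () 0 + p.1.2.2 () 1) = t := fun p => congrFun p.2 ()
  let e : Slot a (fun (_ : Unit) (_ : Unit) => m) (deg1 t) ≃
      Σ k : Fin a, Fin (t - m - k + 1) :=
    { toFun := fun p => ⟨p.1.2.1 (), ⟨p.1.2.2 () 0, by have := hd p; omega⟩⟩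
      invFun := fun x => ⟨((), (fun _ => x.1, fun _ => ![(x.2 : ℕ), t - m - x.1 - x.2])), by
        funext r
        have := x.1.2
        have := x.2.2
        simp [Mon.deg, deg1]
        omega⟩
      left_inv := fun p => by
        refine Subtype.ext (Prod.ext rfl (Prod.ext rfl (funext fun r => funext fun c => ?_)))
        have := hd p
        fin_cases c
        · rfl
        · show t - m - (p.1.2.1 () : ℕ) - p.1.2.2 () 0 = p.1.2.2 () 1
          omega
      right_inv := fun x => rfl }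
  rw [Fintype.card_congr e, Fintype.card_sigma]
  simp only [Fintype.card_fin]
  push_cast
  have : ∀ k : Fin a, ((t - m - (k : ℕ) + 1 : ℕ) : ℤ) = ((t : ℤ) - m + 1) - (k : ℕ) := fun k => by
    have := k.2
    omega
  push_cast at this
  simp only [this, Finset.sum_sub_distrib, Finset.sum_const, Finset.card_univ, Fintype.card_fin]
  rw [← Nat.cast_sum, Fin.sum_univ_eq_sum_range (fun k => k) a, Finset.sum_range_id,
    ← Nat.choose_two_right, hfree]
  simp only [nsmul_eq_mul]
  ring

lemma isGr_FR (m : ℕ) : IsGr D a (fun _ : Unit => g) (FR D g m) := Free.isGr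

lemma lin_FR (m : ℕ) : Lin a (hdim D (J := Unit) (FR D g m)) (1, -(m : ℤ)) :=
  ⟨m + a, fun t ht => by
    rw [Free.hdim_free, card_slot m t ht, sub_eq_add_neg, hfree_add]
    ring⟩

/-- Shifting a monomial of one block. -/
def sh (i j : ℕ) (q : Unit × Mon Unit a) : Unit × Mon Unit a :=
  (q.1, (Mon.upX () 0)^[i] ((Mon.upX () 1)^[j] q.2))

lemma sh_eq (i j : ℕ) (q : Unit × Mon Unit a) :
    sh i j q = (q.1, (q.2.1, fun _ => ![q.2.2 () 0 + i, q.2.2 () 1 + j])) := by
  unfold sh
  rw [iterate_upX, iterate_upX]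
  refine Prod.ext rfl (Prod.ext rfl (funext fun r => funext fun c => ?_))
  fin_cases c <;> simp

lemma sh_injective (i j : ℕ) : Function.Injective (sh (a := a) i j) := by
  intro q q' h
  rw [sh_eq, sh_eq] at h
  obtain ⟨-, h'⟩ := Prod.mk.inj h
  obtain ⟨h2, h3⟩ := Prod.mk.inj h'
  refine Prod.ext (Subsingleton.elim _ _) (Prod.ext h2 (funext fun r => funext fun c => ?_))
  have h4 := congrFun (congrFun h3 ()) c
  fin_cases c <;> simp at h4 ⊢ <;> omega

lemma pow_x_FR (m i j : ℕ) (z : FR D g m) :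
    (op D (.x () 0) : Lam D Unit) ^ i • (op D (.x () 1) : Lam D Unit) ^ j • z =
      (Finsupp.mapDomain (sh i j) (show (Unit × Mon Unit a) →₀ D from z) : FR D g m) := by
  have key : ∀ (b : Fin 2) (k : ℕ) (x : FR D g m), (op D (.x () b) : Lam D Unit) ^ k • x =
      ((moveAt (ι := Unit) D D (Mon.upX () b) ^ k)
        (show (Unit × Mon Unit a) →₀ D from x) : FR D g m) := fun b k x => by
    induction k generalizing x with
    | zero => rw [pow_zero, pow_zero, one_smul]; rfl
    | succ k ih =>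
      rw [pow_succ, mul_smul, ih, pow_succ, Module.End.mul_apply]
      congr 1
      exact Free.op_smul (.x () b) x
  induction z using Free.induction with
  | h0 => simp only [smul_zero]; exact (Finsupp.mapDomain_zero).symm
  | ha x y hx hy =>
    rw [smul_add, smul_add, hx, hy]
    exact (Finsupp.mapDomain_add).symm
  | h1 p v =>
    rw [key, key]
    refine Eq.trans ?_ (Finsupp.mapDomain_single).symm
    show (moveAt (ι := Unit) D D _ ^ i) ((moveAt (ι := Unit) D D _ ^ j) (Finsupp.single p v)) = _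
    rw [moveAt_pow, moveAt_pow]
    rfl

lemma hdim_mono {M : Type u} [AddCommGroup M] [Module (Lam D Unit) M] {G : Unit → Fin (a + 1) → L}
    (hM : IsGr D a G M) (S : Submodule (Lam D Unit) M) (n : Unit → ℕ) :
    hdim D S n ≤ hdim D M n := by
  have := hM.hdim_add S n
  have := hdim_nonneg (D := D) (M := M ⧸ S) n
  omega

/-- The shifts of a nonzero element are independent. -/
lemma li_shift {m : ℕ} (k : ℕ) {z : FR D g m} (hz : z ≠ 0) :
    LinearIndependent D fun i : Fin (k + 1) => (op D (.x () 0) : Lam D Unit) ^ (i : ℕ) •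
      (op D (.x () 1) : Lam D Unit) ^ (k - i) • z := by
  classical
  refine Fintype.linearIndependent_iff.2 fun c hc => ?_
  by_contra hcon
  push Not at hcon
  obtain ⟨i1, hi1⟩ := hcon
  let f : (Unit × Mon Unit a) →₀ D := z
  have hf : f.support.Nonempty := Finsupp.support_nonempty_iff.2 hz
  obtain ⟨q, hq, hqmax⟩ := Finset.exists_max_image f.support (fun q => q.2.2 () 0) hf
  obtain ⟨i0, hi0, hmax⟩ := Finset.exists_max_image (Finset.univ.filter fun i => c i ≠ 0)
    (fun i => i) ⟨i1, by simpa using hi1⟩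
  simp only [pow_x_FR] at hc
  have h0 : ∑ i : Fin (k + 1), c i • (Finsupp.mapDomain (sh (i : ℕ) (k - i)) f) = 0 := hc
  have h2 := congrArg (fun F : (Unit × Mon Unit a) →₀ D => F (sh (i0 : ℕ) (k - i0) q)) h0
  simp only [Finsupp.finsetSum_apply, Finsupp.smul_apply, Finsupp.coe_zero, Pi.zero_apply,
    smul_eq_mul] at h2
  rw [Finset.sum_eq_single i0] at h2
  · rw [Finsupp.mapDomain_apply (sh_injective _ _)] at h2
    rcases mul_eq_zero.1 h2 with h | h
    · exact (Finset.mem_filter.1 hi0).2 h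
    · exact Finsupp.mem_support_iff.1 hq h
  · intro i _ hi
    by_cases hci : c i = 0
    · rw [hci, zero_mul]
    have hlt : (i : ℕ) < i0 := lt_of_le_of_ne (hmax i (by simp [hci])) (Fin.val_ne_of_ne hi)
    suffices Finsupp.mapDomain (sh (i : ℕ) (k - i)) f (sh (i0 : ℕ) (k - i0) q) = 0 by
      rw [this, mul_zero]
    by_contra hne
    obtain ⟨q', hq', he⟩ := Finset.mem_image.1 (Finsupp.mapDomain_support
      (Finsupp.mem_support_iff.2 hne))
    rw [sh_eq, sh_eq] at he
    have := congrArg (fun x : Unit × Mon Unit a => x.2.2 () 0) he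
    simp at this
    have := hqmax q' hq'
    omega
  · simp

/-- A nonzero submodule of a free module grows. -/
lemma hdim_ge {m : ℕ} {S : Submodule (Lam D Unit) (FR D g m)} (hS : S ≠ ⊥) :
    ∃ t0 : ℕ, ∀ k : ℕ, ((k : ℤ) + 1) ≤ hdim D S (deg1 (t0 + k)) := by
  classical
  obtain ⟨y, hy, hy0⟩ := Submodule.exists_mem_ne_zero_of_ne_bot hS
  have hGS : IsGr D a (fun _ : Unit => g) S := (isGr_FR m).sub S
  obtain ⟨s, hs⟩ := hGS.complete ⟨y, hy⟩
  obtain ⟨n, -, hn⟩ : ∃ n ∈ s, (op D (.pi n) : Lam D Unit) • (⟨y, hy⟩ : S) ≠ 0 := by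
    by_contra hcon
    push Not at hcon
    rw [Finset.sum_eq_zero hcon] at hs
    exact hy0 (congrArg Subtype.val hs).symm
  letI : Module D S := Module.compHom S (coef D (J := Unit))
  haveI : CoefTower D Unit S := coefTower_compHom
  set z : S := (op D (.pi n) : Lam D Unit) • ⟨y, hy⟩
  have hz : z ∈ pc D S n := hGS.pi_mem n _
  refine ⟨n (), fun k => ?_⟩
  have hmem : ∀ i : Fin (k + 1), (op D (.x () 0) : Lam D Unit) ^ (i : ℕ) •
      (op D (.x () 1) : Lam D Unit) ^ (k - i) • z ∈ pc D S (deg1 (n () + k)) := by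
    intro i
    have hp : ∀ b (l : ℕ) (t : ℕ) (w : S), w ∈ pc D S (deg1 t) →
        (op D (.x () b) : Lam D Unit) ^ l • w ∈ pc D S (deg1 (t + l)) := by
      intro b l t w hw
      induction l with
      | zero => simpa using hw
      | succ l ih =>
        rw [pow_succ', mul_smul]
        convert hGS.op_mem (not_isPi_x () b) ih using 2
        funext r
        simp [deg1, opDeg]
        omega
    have := hp 0 i _ _ (hp 1 (k - i) _ _ (by rwa [show deg1 (n ()) = n from rfl]))
    rwa [show n () + (k - (i : ℕ)) + i = n () + k by omega] at this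
  have := hGS.finite_pc (deg1 (n () + k))
  rw [hdim_eq]
  have hli : LinearIndependent D fun i : Fin (k + 1) =>
      (⟨_, hmem i⟩ : pc D S (deg1 (n () + k))) := by
    refine LinearIndependent.of_comp ((linD (J := Unit) S.subtype).comp
      (pc D S (deg1 (n () + k))).subtype) ?_
    have hz0 : (z : FR D g m) ≠ 0 := fun h => hn (Subtype.ext h)
    convert li_shift k hz0 using 1
    funext i
    exact (map_smul S.subtype _ _).trans (congrArg _ (map_smul S.subtype _ _))
  have := hli.fintype_card_le_finrank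
  simp only [Fintype.card_fin] at this
  omega

section data

variable (hgood : Good1 D a g)

include hgood in
lemma exists_lin_gr {M : Type u} [AddCommGroup M] [Module (Lam D Unit) M]
    (hM : IsGr D (J := Unit) a (fun _ => g) M) : ∃ p, Lin a (hdim D (J := Unit) M) p :=
  exists_lin (hgood M hM)

include hgood in
/-- The rank of a nonzero submodule of a free module is one. -/
lemma lin_sub {m : ℕ} {S : Submodule (Lam D Unit) (FR D g m)} (hS : S ≠ ⊥) :
    ∃ β : ℤ, β ≤ -(m : ℤ) ∧ Lin a (hdim D (J := Unit) S) (1, β) := by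
  obtain ⟨⟨α, β⟩, hp⟩ := exists_lin_gr hgood ((isGr_FR m).sub S)
  obtain ⟨N, hN⟩ := id hp
  obtain ⟨M, hM⟩ := lin_FR (D := D) (g := g) m
  obtain ⟨t0, ht0⟩ := hdim_ge hS
  have hup : ∀ t, N + M ≤ t →
      α * hfree a t + a * β ≤ hfree a t + a * (-(m : ℤ)) := fun t ht => by
    have h1 := hdim_mono (isGr_FR m) S (deg1 t)
    rw [hN t (by omega), hM t (by omega)] at h1
    simpa using h1
  have hlo : ∀ k, N ≤ t0 + k → (k : ℤ) + 1 ≤ α * hfree a ((t0 + k : ℕ) : ℤ) + a * β :=
    fun k hk => (ht0 k).trans_eq (hN _ hk)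
  have ha : (0 : ℤ) < a := by exact_mod_cast Nat.pos_of_neZero a
  have hh : ∀ t : ℕ, hfree a t = a * t + hfree a 0 := fun t => by
    have := hfree_add a 0 t
    rw [zero_add] at this
    rw [this]
    ring
  have hα1 : 1 ≤ α := by
    by_contra hcon
    have hcon : α ≤ 0 := by omega
    obtain ⟨k, hkN, hk⟩ : ∃ k : ℕ, N ≤ t0 + k ∧ α * hfree a 0 + a * β < k := by
      refine ⟨N + (α * hfree a 0 + a * β).toNat + 1, by omega, ?_⟩
      push_cast
      omega
    have h1 := hlo k hkN
    rw [hh] at h1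
    have : α * ((a : ℤ) * ((t0 + k : ℕ) : ℤ)) ≤ 0 :=
      mul_nonpos_of_nonpos_of_nonneg hcon (by positivity)
    nlinarith
  have hα2 : α ≤ 1 := by
    by_contra hcon
    obtain ⟨t, htN, ht⟩ : ∃ t : ℕ, N + M ≤ t ∧
        hfree a 0 + a * (-(m : ℤ)) - α * hfree a 0 - a * β < t := by
      refine ⟨N + M + (hfree a 0 + a * (-(m : ℤ)) - α * hfree a 0 - a * β).toNat + 1, by omega, ?_⟩
      push_cast
      omega
    have h1 := hup t htN
    rw [hh] at h1
    have : (1 : ℤ) * ((a : ℤ) * t) ≤ (α - 1) * ((a : ℤ) * t) :=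
      mul_le_mul_of_nonneg_right (by omega) (by positivity)
    have : (t : ℤ) ≤ (a : ℤ) * t := le_mul_of_one_le_left (by positivity) (by omega)
    nlinarith
  obtain rfl : α = 1 := le_antisymm hα2 hα1
  refine ⟨β, le_of_mul_le_mul_left ?_ ha, hp⟩
  have := hup (N + M) le_rfl
  linarith

include hgood in
lemma rho_sub_FR {m : ℕ} {S : Submodule (Lam D Unit) (FR D g m)} (hS : S ≠ ⊥) :
    1 + (m : ℤ) ≤ rhoOne D a S := by
  obtain ⟨β, hβ, h⟩ := lin_sub hgood hS
  rw [rhoOne_eq h]
  show 1 + (m : ℤ) ≤ 1 - β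
  omega

lemma rho_FR (m : ℕ) : rhoOne D a (FR D g m) = 1 + (m : ℤ) := by
  rw [rhoOne_eq (lin_FR m)]
  simp

lemma hdim_bot {M : Type u} [AddCommGroup M] [Module (Lam D Unit) M] (n : Unit → ℕ) :
    hdim D (⊥ : Submodule (Lam D Unit) M) n = 0 := by
  letI : Module D (⊥ : Submodule (Lam D Unit) M) := Module.compHom _ (coef D (J := Unit))
  haveI : CoefTower D Unit (⊥ : Submodule (Lam D Unit) M) := coefTower_compHom
  rw [hdim_eq, Module.finrank_zero_of_subsingleton]
  rfl

lemma rho_bot_one {M : Type u} [AddCommGroup M] [Module (Lam D Unit) M] :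
    rhoOne D a (⊥ : Submodule (Lam D Unit) M) = 0 := by
  rw [rhoOne_eq (p := (0, 0)) ⟨0, fun t _ => by rw [hdim_bot]; simp⟩]
  rfl

/-- The rank function of one block. -/
noncomputable def oneData (hgood : Good1 D a g) : RhoData L (Lam D Unit) where
  Fn M _ _ := IsGr D a (fun _ : Unit => g) M
  rho M _ _ := rhoOne D a M
  noeth M _ _ hM := by
    letI : Module D M := Module.compHom M (coef D (J := Unit))
    haveI : CoefTower D Unit M := coefTower_compHom
    exact hM.isNoetherian
  fn_equiv _ _ _ _ _ _ e hM := hM.of_surjective e.toLinearMap e.surjective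
  fn_prod _ _ _ _ _ _ hM hN := hM.prod hN
  fn_sub _ _ _ S hM := hM.sub S
  fn_quot _ _ _ S hM := hM.quot S
  rho_equiv _ _ _ _ _ _ e := rhoOne_congr e
  rho_add M _ _ S hM := by
    obtain ⟨p, hp⟩ := exists_lin_gr hgood (hM.sub S)
    obtain ⟨q, hq⟩ := exists_lin_gr hgood (hM.quot S)
    have hpq : Lin a (hdim D (J := Unit) M) (p + q) := by
      obtain ⟨N, hN⟩ := hp
      obtain ⟨N', hN'⟩ := hq
      refine ⟨N + N', fun t ht => ?_⟩
      rw [hM.hdim_add S, hN t (by omega), hN' t (by omega)]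
      simp only [Prod.fst_add, Prod.snd_add]
      ring
    rw [rhoOne_eq hp, rhoOne_eq hq, rhoOne_eq hpq]
    simp only [Prod.fst_add, Prod.snd_add]
    ring
  O := FR D g 0
  grpO := inferInstance
  modO := inferInstance
  fn_O := isGr_FR 0
  rho_O := by rw [rho_FR]; rfl
  sub_O S := by
    rcases eq_or_ne S ⊥ with rfl | h
    · rw [rho_bot_one]
    · have := rho_sub_FR hgood h
      push_cast at this
      omega

end data

end Vale.Agent.P200.Deg
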