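import Vale.Agent.P200.Deg.Defs

/-!
Modules over the ring of operators: construction from linear operators, homogeneous pieces.
-/

namespace Vale.Agent.P200.Deg

open Module

universe u

section Build

variable {D : Type u} [DivisionRing D] {J : Type} {V : Type u} [AddCommMonoid V] [Module D V]

/-- The monoid of words acting through given operators. -/
noncomputable def wordHom (A : Op J → Module.End D V) : FreeMonoid (Op J) →* Module.End D V :=
  FreeMonoid.lift A

/-- The action of the ring of operators through given linear operators. -/
noncomputable def actHom (A : Op J → Module.End D V) : Lam D J →+* AddMonoid.End V :=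
  MonoidAlgebra.liftNCRingHom (Module.toAddMonoidEnd D V)
    { toFun := fun w => (wordHom A w).toAddMonoidHom
      map_one' := by rw [map_one]; rfl
      map_mul' := fun w w' => by rw [map_mul]; rfl }
    (fun d w => AddMonoidHom.ext fun v => (map_smul (wordHom A w) d v).symm)

/-- The module over the ring of operators given by linear operators. -/
@[reducible] noncomputable def mkMod (A : Op J → Module.End D V) : Module (Lam D J) V :=
  Module.compHom V (actHom A)

lemma mkMod_op (A : Op J → Module.End D V) (o : Op J) (v : V) :
    letI := mkMod A
    (op D o : Lam D J) • v = A o v := by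
  change actHom A (op D o) v = A o v
  simp [actHom, op, wordHom, MonoidAlgebra.liftNCRingHom, MonoidAlgebra.of_apply,
    MonoidAlgebra.liftNC_single]
  change FreeMonoid.lift A (FreeMonoid.of o) v = A o v
  rw [FreeMonoid.lift_eval_of]

lemma mkMod_coef (A : Op J → Module.End D V) (d : D) (v : V) :
    letI := mkMod A
    (coef D (J := J) d) • v = d • v := by
  change actHom A (coef D d) v = d • v
  simp [actHom, coef, MonoidAlgebra.liftNCRingHom, MonoidAlgebra.liftNC_single]
  rfl

lemma mkMod_isScalarTower (A : Op J → Module.End D V) :
    letI := mkMod A
    ∀ (d : D) (v : V), d • v = (coef D (J := J) d) • v :=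
  fun d v => (mkMod_coef A d v).symm

end Build

variable {L : Type u} [Field L] {D : Type u} [DivisionRing D] [Algebra L D] {J : Type}
  {M : Type u} [AddCommGroup M] [Module (Lam D J) M]

/-- Scalars agree with the coefficients. -/
class CoefTower (D : Type u) [DivisionRing D] (J : Type) (M : Type u) [AddCommMonoid M] [Module D M]
    [Module (Lam D J) M] : Prop where
  smul_eq : ∀ (d : D) (m : M), d • m = (coef D (J := J) d) • m

lemma coefTower_compHom :
    letI := Module.compHom M (coef D (J := J))
    CoefTower D J M :=
  letI := Module.compHom M (coef D (J := J))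
  ⟨fun _ _ => rfl⟩

lemma coef_mul_op (d : D) (o : Op J) : coef D d * op D o = op D o * coef D d := by
  simp [op, coef, MonoidAlgebra.single_mul_single]

lemma coef_algebraMap (c : L) : coef D (J := J) (algebraMap L D c) = algebraMap L (Lam D J) c := by
  simp [coef, MonoidAlgebra.coe_algebraMap]

section

variable [Module D M] [CoefTower D J M]

/-- An operator as a linear map. -/
noncomputable def opL (o : Op J) : M →ₗ[D] M where
  toFun m := (op D o : Lam D J) • m
  map_add' := smul_add _
  map_smul' d m := by
    simp only [RingHom.id_apply]
    rw [CoefTower.smul_eq (J := J) d m, ← mul_smul, ← coef_mul_op, mul_smul,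
      ← CoefTower.smul_eq (J := J)]

@[simp] lemma opL_apply (o : Op J) (m : M) : opL (D := D) o m = (op D o : Lam D J) • m := rfl

/-- A subspace stable under the operators as a submodule. -/
def toLam (S : Submodule D M) (h : ∀ o : Op J, ∀ m ∈ S, opL (D := D) o m ∈ S) :
    Submodule (Lam D J) M where
  carrier := S
  zero_mem' := S.zero_mem
  add_mem' := S.add_mem
  smul_mem' := by
    intro c
    induction c using MonoidAlgebra.induction_on with
    | of w =>
      induction w using FreeMonoid.inductionOn' with
      | one =>
        intro m hm
        rw [map_one, one_smul]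
        exact hm
      | of_mul o w ih =>
        intro m hm
        rw [map_mul, mul_smul]
        exact h o _ (ih hm)
    | add f g hf hg =>
      intro m hm
      rw [add_smul]
      exact S.add_mem (hf hm) (hg hm)
    | smul d f hf =>
      intro m hm
      have : d • f = coef D d * f := by
        ext w
        simp [coef, MonoidAlgebra.coeff_single_one_mul]
      rw [this, mul_smul]
      show coef D d • (f • m) ∈ S
      rw [← CoefTower.smul_eq (J := J)]
      exact S.smul_mem d (hf hm)

@[simp] lemma mem_toLam {S : Submodule D M} {h} {m : M} : m ∈ toLam (J := J) S h ↔ m ∈ S := Iff.rfl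

/-- A submodule as a subspace. -/
def toD (S : Submodule (Lam D J) M) : Submodule D M where
  carrier := S
  zero_mem' := S.zero_mem
  add_mem' := S.add_mem
  smul_mem' d m hm := by
    rw [CoefTower.smul_eq (J := J) d m]
    exact S.smul_mem _ hm

@[simp] lemma mem_toD {S : Submodule (Lam D J) M} {m : M} : m ∈ toD (D := D) S ↔ m ∈ S := Iff.rfl

/-- The piece of degree `n`. -/
noncomputable def pc (D : Type u) [DivisionRing D] {J : Type} (M : Type u) [AddCommGroup M]
    [Module (Lam D J) M] [Module D M] [CoefTower D J M] (n : J → ℕ) : Submodule D M :=
  LinearMap.range (opL (D := D) (M := M) (.pi n))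

lemma hdim_eq (n : J → ℕ) : hdim D M n = (finrank D (pc D M n) : ℤ) := by
  have he : (inferInstance : Module D M) = Module.compHom M (coef D (J := J)) :=
    Module.ext' _ _ fun d m => CoefTower.smul_eq d m
  unfold hdim
  subst he
  congr 2

end

end Vale.Agent.P200.Deg
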