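import Vale.Agent.P200.Deg.Ops
import Vale.Agent.P200.Deg.Noeth

/-!
Graded modules with operators: finitely generated submodules, finite pieces, additivity.
-/

namespace Vale.Agent.P200.Deg

open Module

universe u

variable {L : Type u} [Field L] {D : Type u} [DivisionRing D] [Algebra L D] {J : Type}
  [DecidableEq J] {a : ℕ} {g : J → Fin (a + 1) → L}
  {M : Type u} [AddCommGroup M] [Module (Lam D J) M]

/-- The operators that are not projections. -/
noncomputable def allOps (J : Type) [Fintype J] : List (Op J) :=
  (Finset.univ : Finset (J × Fin 2)).toList.map (fun p => Op.x p.1 p.2) ++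
    (Finset.univ : Finset J).toList.map Op.w

lemma mem_allOps [Fintype J] {o : Op J} : o ∈ allOps J ↔ ¬o.IsPi := by
  cases o <;> simp [allOps, Op.IsPi]

lemma sum_opDeg [Fintype J] {o : Op J} (ho : ¬o.IsPi) : ∑ r, opDeg o r = 1 := by
  cases o <;> simp_all [opDeg, Op.IsPi]

namespace IsGr

open scoped Classical

variable (hM : IsGr D a g M)
include hM

lemma pi_op {o : Op J} (ho : ¬o.IsPi) (n : J → ℕ) (m : M) :
    (op D (.pi n) : Lam D J) • op D o • m =
      if opDeg o ≤ n then (op D o : Lam D J) • op D (.pi (n - opDeg o)) • m else 0 := by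
  split_ifs with h
  · have := hM.shift o ho (n - opDeg o) m
    rwa [show n - opDeg o + opDeg o = n from funext fun r => Nat.sub_add_cancel (h r)] at this
  · exact hM.below o ho n h m

lemma pi_pi (n n' : J → ℕ) (m : M) :
    (op D (.pi n) : Lam D J) • op D (.pi n') • m = if n = n' then op D (.pi n) • m else 0 := by
  split_ifs with h
  · subst h; exact hM.proj n m
  · exact hM.orth n n' h m

/-- A module with the laws and finitely generated inherits them on a submodule. -/
lemma of_injective {N : Type u} [AddCommGroup N] [Module (Lam D J) N] (f : N →ₗ[Lam D J] M)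
    (hf : Function.Injective f) (hfg : Module.Finite (Lam D J) N) : IsGr D a g N where
  comm o o' ho ho' m := hf (by simp only [map_smul]; exact hM.comm o o' ho ho' _)
  pow r m := hf (by simp only [map_smul]; exact hM.pow r _)
  proj n m := hf (by simp only [map_smul]; exact hM.proj n _)
  orth n n' h m := hf (by simp only [map_smul, map_zero]; exact hM.orth n n' h _)
  shift o ho n m := hf (by simp only [map_smul]; exact hM.shift o ho n _)
  below o ho n h m := hf (by simp only [map_smul, map_zero]; exact hM.below o ho n h _)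
  complete m := by
    obtain ⟨s, hs⟩ := hM.complete (f m)
    exact ⟨s, hf (by simp only [map_sum, map_smul]; exact hs)⟩
  fg := hfg

/-- The laws pass to images. -/
lemma of_surjective {N : Type u} [AddCommGroup N] [Module (Lam D J) N] (f : M →ₗ[Lam D J] N)
    (hf : Function.Surjective f) : IsGr D a g N where
  comm o o' ho ho' m := by
    obtain ⟨m, rfl⟩ := hf m; simp only [← map_smul, hM.comm o o' ho ho' m]
  pow r m := by obtain ⟨m, rfl⟩ := hf m; simp only [← map_smul, hM.pow r m]
  proj n m := by obtain ⟨m, rfl⟩ := hf m; simp only [← map_smul, hM.proj n m]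
  orth n n' h m := by obtain ⟨m, rfl⟩ := hf m; simp only [← map_smul, hM.orth n n' h m, map_zero]
  shift o ho n m := by obtain ⟨m, rfl⟩ := hf m; simp only [← map_smul, hM.shift o ho n m]
  below o ho n h m := by
    obtain ⟨m, rfl⟩ := hf m; simp only [← map_smul, hM.below o ho n h m, map_zero]
  complete m := by
    obtain ⟨m, rfl⟩ := hf m
    obtain ⟨s, hs⟩ := hM.complete m
    exact ⟨s, by simp only [← map_smul, ← map_sum, hs]⟩
  fg := have := hM.fg; Module.Finite.of_surjective f hf

variable [Module D M] [CoefTower D J M]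

lemma mem_pc {n : J → ℕ} {m : M} : m ∈ pc D M n ↔ (op D (.pi n) : Lam D J) • m = m := by
  constructor
  · rintro ⟨m', rfl⟩
    simp only [opL_apply]
    exact hM.proj n m'
  · intro h
    exact ⟨m, h⟩

lemma pi_mem (n : J → ℕ) (m : M) : (op D (.pi n) : Lam D J) • m ∈ pc D M n := ⟨m, rfl⟩

lemma op_mem {o : Op J} (ho : ¬o.IsPi) {n : J → ℕ} {m : M} (hm : m ∈ pc D M n) :
    (op D o : Lam D J) • m ∈ pc D M (n + opDeg o) := by
  rw [mem_pc hM] at hm ⊢
  rw [hM.shift o ho n m, hm]

variable [Fintype J]

lemma pairwise_commute :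
    ((allOps J).map fun o => (opL (D := D) (M := M) o : Module.End D M)).Pairwise Commute := by
  rw [List.pairwise_map]
  refine List.Pairwise.imp_of_mem ?_ (List.pairwise_of_forall (R := fun _ _ => True) fun _ _ => trivial)
  intro o o' ho ho' _
  refine LinearMap.ext fun m => ?_
  simp only [Module.End.mul_apply, opL_apply]
  exact hM.comm o o' (mem_allOps.1 ho) (mem_allOps.1 ho') m

/-- Finitely many homogeneous elements generate under the operators. -/
theorem exists_gens : ∃ s : Finset M, (∀ y ∈ s, ∃ n : J → ℕ, y ∈ pc D M n) ∧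
    cl ((allOps J).map fun o => (opL (D := D) (M := M) o : Module.End D M)) ↑s = ⊤ := by
  classical
  obtain ⟨t, ht⟩ := hM.fg
  choose sup hsup using hM.complete
  let s : Finset M := t.biUnion fun y => (sup y).image fun n => (op D (.pi n) : Lam D J) • y
  set l := (allOps J).map fun o => (opL (D := D) (M := M) o : Module.End D M)
  have hhom : ∀ y ∈ s, ∃ n : J → ℕ, y ∈ pc D M n := by
    intro y hy
    simp only [s, Finset.mem_biUnion, Finset.mem_image] at hy
    obtain ⟨z, -, n, -, rfl⟩ := hy
    exact ⟨n, hM.pi_mem n z⟩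
  refine ⟨s, hhom, ?_⟩
  set C := cl l (↑s : Set M)
  -- elements all of whose components are in the closure
  let W : Submodule D M := C ⊓ ⨅ n : J → ℕ, C.comap (opL (D := D) (.pi n))
  have hWC : C ≤ W := by
    refine cl_le (fun y hy => ?_) ?_
    · refine ⟨subset_cl l _ hy, ?_⟩
      simp only [SetLike.mem_coe, Submodule.mem_iInf, Submodule.mem_comap, opL_apply]
      obtain ⟨n, hn⟩ := hhom y hy
      intro n'
      rw [← (hM.mem_pc).1 hn, hM.pi_pi]
      split_ifs with h
      · subst h; rw [(hM.mem_pc).1 hn]; exact subset_cl l _ hy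
      · exact zero_mem _
    · intro φ hφ y hy
      obtain ⟨o, ho, rfl⟩ := List.mem_map.1 hφ
      simp only [W, Submodule.mem_inf, Submodule.mem_iInf, Submodule.mem_comap, opL_apply] at hy ⊢
      refine ⟨stab_cl l _ _ hφ y hy.1, fun n => ?_⟩
      rw [hM.pi_op (mem_allOps.1 ho)]
      split_ifs
      · exact stab_cl l _ _ hφ _ (hy.2 _)
      · exact zero_mem _
  have hst : ∀ o : Op J, ∀ y ∈ C, opL (D := D) o y ∈ C := by
    intro o y hy
    by_cases ho : o.IsPi
    · cases o with
      | pi n =>
        have := (hWC hy).2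
        simp only [SetLike.mem_coe, Submodule.mem_iInf, Submodule.mem_comap] at this
        exact this n
      | x r b => simp [Op.IsPi] at ho
      | w r => simp [Op.IsPi] at ho
    · exact stab_cl l _ _ (List.mem_map.2 ⟨o, mem_allOps.2 ho, rfl⟩) y hy
  have htop : toLam (J := J) C hst = ⊤ := by
    rw [eq_top_iff, ← ht, Submodule.span_le]
    intro y hy
    show y ∈ C
    rw [← hsup y]
    refine sum_mem fun n hn => subset_cl l _ ?_
    simp only [s, Finset.coe_biUnion, Finset.coe_image, Set.mem_iUnion, Set.mem_image]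
    exact ⟨y, hy, n, hn, rfl⟩
  rw [eq_top_iff]
  intro y _
  have : y ∈ toLam (J := J) C hst := by rw [htop]; trivial
  exact this

/-- Finite generation passes to submodules. -/
theorem isNoetherian : IsNoetherian (Lam D J) M := by
  classical
  obtain ⟨s, -, hs⟩ := hM.exists_gens
  set l := (allOps J).map fun o => (opL (D := D) (M := M) o : Module.End D M)
  refine ⟨fun S => ?_⟩
  have hst : Stab l (toD (D := D) S) := by
    intro φ hφ y hy
    obtain ⟨o, -, rfl⟩ := List.mem_map.1 hφ
    exact S.smul_mem _ hy
  obtain ⟨t, ht⟩ := exists_finset_cl l hM.pairwise_commute s _ hst (hs ▸ le_top)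
  refine ⟨t, le_antisymm (Submodule.span_le.2 fun y hy => ?_) fun y hy => ?_⟩
  · have : y ∈ toD (D := D) S := ht ▸ subset_cl l _ hy
    exact this
  · have : y ∈ cl l (↑t : Set M) := ht.symm ▸ hy
    refine cl_le (l := l) (S := toD (D := D) (Submodule.span (Lam D J) (↑t : Set M)))
      (fun z hz => Submodule.subset_span hz) ?_ this
    intro φ hφ z hz
    obtain ⟨o, -, rfl⟩ := List.mem_map.1 hφ
    exact Submodule.smul_mem (Submodule.span (Lam D J) (↑t : Set M)) _ hz

/-- The pieces are finite dimensional. -/
theorem finite_pc (n : J → ℕ) : FiniteDimensional D (pc D M n) := by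
  classical
  obtain ⟨s, -, hs⟩ := hM.exists_gens
  set l := (allOps J).map fun o => (opL (D := D) (M := M) o : Module.End D M)
  induction hk : ∑ r, n r using Nat.strong_induction_on generalizing n with
  | _ k ih =>
  let R : (J → ℕ) → Submodule D M := fun n =>
    Submodule.span D ((fun y => (op D (.pi n) : Lam D J) • y) '' ↑s) ⊔
      ⨆ o : {o : Op J // o ∈ allOps J ∧ opDeg o ≤ n},
        (pc D M (n - opDeg o.1)).map (opL (D := D) o.1)
  have hle : ∀ n, pc D M n ≤ R n := by
    intro n
    let W : Submodule D M := ⨅ n, (R n).comap (opL (D := D) (.pi n))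
    have hW : W = ⊤ := by
      rw [eq_top_iff, ← hs]
      refine cl_le (fun y hy => ?_) ?_
      · simp only [W, SetLike.mem_coe, Submodule.mem_iInf, Submodule.mem_comap, opL_apply]
        exact fun n => Submodule.mem_sup_left (Submodule.subset_span ⟨y, hy, rfl⟩)
      · intro φ hφ y _
        obtain ⟨o, ho, rfl⟩ := List.mem_map.1 hφ
        simp only [W, Submodule.mem_iInf, Submodule.mem_comap, opL_apply]
        intro n
        rw [hM.pi_op (mem_allOps.1 ho)]
        split_ifs with h
        · exact Submodule.mem_sup_right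
            (Submodule.mem_iSup_of_mem ⟨o, ho, h⟩ ⟨_, hM.pi_mem _ y, rfl⟩)
        · exact zero_mem _
    intro m hm
    have : m ∈ W := by rw [hW]; trivial
    simp only [W, Submodule.mem_iInf, Submodule.mem_comap, opL_apply] at this
    rw [← (hM.mem_pc).1 hm]
    exact this n
  have : Finite {o : Op J // o ∈ allOps J ∧ opDeg o ≤ n} :=
    ((List.finite_toSet (allOps J)).subset fun o (ho : o ∈ allOps J ∧ opDeg o ≤ n) => ho.1).to_subtype
  have hfin : ∀ o : {o : Op J // o ∈ allOps J ∧ opDeg o ≤ n},
      FiniteDimensional D ((pc D M (n - opDeg o.1)).map (opL (D := D) o.1)) := by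
    intro o
    have h1 := sum_opDeg (mem_allOps.1 o.2.1)
    have h2 : ∑ r, (n - opDeg o.1) r + ∑ r, opDeg o.1 r = k := by
      rw [← hk, ← Finset.sum_add_distrib]
      exact Finset.sum_congr rfl fun r _ => Nat.sub_add_cancel (o.2.2 r)
    have := ih _ (by omega) (n - opDeg o.1) rfl
    infer_instance
  have : FiniteDimensional D (Submodule.span D ((fun y => (op D (.pi n) : Lam D J) • y) '' (↑s : Set M))) :=
    FiniteDimensional.span_of_finite D (s.finite_toSet.image _)
  exact Submodule.finiteDimensional_of_le (hle n)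

end IsGr

end Vale.Agent.P200.Deg
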