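import Vale.Agent.P200.Deg.Defs

/-!
Absorbing the blocks one after another.
-/

namespace Vale.Agent.P200.Deg

universe u

variable {L : Type u} [Field L] {a b : ℕ}

/-- The properties after absorbing the first `k` blocks. -/
def TowerAt (E0 : Type u) [DivisionRing E0] [Algebra L E0] (a : ℕ) {b : ℕ}
    (g : Fin b → Fin (a + 1) → L) (k : ℕ) : Prop :=
  ∃ (E : Type u) (_ : DivisionRing E) (_ : Algebra L E) (ψ : E0 →ₐ[L] E)
    (e : Fin b → Fin 2 → E) (O : ℕ → Subfield E),
    Good E a g {r | k ≤ (r : ℕ)} ∧ Monotone O ∧ (∀ i, k ≤ i → O i = ⊤) ∧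
    (∀ x, ψ x ∈ O 0) ∧ (∀ r : Fin b, (r : ℕ) < k → ∀ j, e r j ∈ O ((r : ℕ) + 1)) ∧
    (∀ r : Fin b, (r : ℕ) < k → ∀ j, ∀ x ∈ O r, Commute (e r j) x) ∧
    (∀ r : Fin b, (r : ℕ) < k →
      (Polynomial.C (e r 0) * Polynomial.X + Polynomial.C (e r 1)) ^ a =
        ∑ p : Fin (a + 1), Polynomial.C (algebraMap L E (g r p)) * Polynomial.X ^ (p : ℕ)) ∧
    (∀ r : Fin b, (r : ℕ) < k → ∀ d ∈ O r, ∀ d' ∈ O r, ∀ d'' ∈ O r,
      d * e r 0 + d' * e r 1 + d'' = 0 → d = 0 ∧ d' = 0 ∧ d'' = 0)

/-- Every number of blocks can be absorbed. -/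
theorem towerAt (hstep : StepGoal.{u}) (ha : 2 ≤ a) (E0 : Type u) [DivisionRing E0] [Algebra L E0]
    (g : Fin b → Fin (a + 1) → L) (h0 : Good E0 a g Set.univ) :
    ∀ k, k ≤ b → TowerAt E0 a g k := by
  intro k
  induction k with
  | zero =>
    intro _
    refine ⟨E0, inferInstance, inferInstance, AlgHom.id L E0, fun _ _ => 0, fun _ => ⊤, ?_,
      monotone_const, fun _ _ => rfl, fun _ => Subfield.mem_top _,
      fun _ h => absurd h (Nat.not_lt_zero _), fun _ h => absurd h (Nat.not_lt_zero _),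
      fun _ h => absurd h (Nat.not_lt_zero _), fun _ h => absurd h (Nat.not_lt_zero _)⟩
    rwa [show {r : Fin b | 0 ≤ (r : ℕ)} = Set.univ from Set.eq_univ_of_forall fun r => Nat.zero_le _]
  | succ k ih =>
    intro hk
    obtain ⟨E, iE, iA, ψ, e, O, hgood, hmono, htop, hψ, hmem, hcomm, hpoly, hind⟩ := ih (by omega)
    let r0 : Fin b := ⟨k, by omega⟩
    obtain ⟨E', iE', iA', φ, e', hc', hpoly', hind', hgood'⟩ :=
      hstep L E a b g {r | k ≤ (r : ℕ)} r0 ha (by simp [r0]) hgood
    let eN : Fin b → Fin 2 → E' := fun r j => if r = r0 then e' j else φ (e r j)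
    let ON : ℕ → Subfield E' := fun i => if i ≤ k then (O i).map φ.toRingHom else ⊤
    have hinj : Function.Injective φ := φ.toRingHom.injective
    have heN : ∀ r : Fin b, (r : ℕ) < k → ∀ j, eN r j = φ (e r j) := fun r hr j =>
      if_neg fun h => by rw [h] at hr; exact lt_irrefl k hr
    have heN0 : ∀ j, eN r0 j = e' j := fun j => if_pos rfl
    have hON : ∀ i, i ≤ k → ON i = (O i).map φ.toRingHom := fun i h => if_pos h
    have hcases : ∀ r : Fin b, (r : ℕ) < k + 1 → (r : ℕ) < k ∨ r = r0 := fun r h =>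
      (Nat.lt_succ_iff_lt_or_eq.1 h).imp id fun h => Fin.ext h
    have hONk : ∀ x, x ∈ ON r0 ↔ ∃ y, φ y = x := fun x => by
      rw [show ON r0 = (O k).map φ.toRingHom from hON k le_rfl, Subfield.mem_map, htop k le_rfl]
      exact ⟨fun ⟨y, _, hy⟩ => ⟨y, hy⟩, fun ⟨y, hy⟩ => ⟨y, Subfield.mem_top y, hy⟩⟩
    refine ⟨E', iE', iA', φ.comp ψ, eN, ON, ?_, ?_, fun i hi => if_neg (by omega), ?_, ?_, ?_,
      ?_, ?_⟩
    · convert hgood' using 1
      ext r
      simp only [Set.mem_sdiff, Set.mem_singleton_iff, Set.mem_ofPred_eq, r0, Fin.ext_iff]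
      omega
    · intro i j hij
      by_cases hj : j ≤ k
      · rw [hON i (hij.trans hj), hON j hj]
        rintro _ ⟨y, hy, rfl⟩
        exact ⟨y, hmono hij hy, rfl⟩
      · rw [show ON j = ⊤ from if_neg hj]
        exact le_top
    · intro x
      rw [hON 0 (Nat.zero_le k)]
      exact ⟨ψ x, hψ x, rfl⟩
    · intro r hr j
      rcases hcases r hr with h | rfl
      · rw [heN r h, hON _ h]
        exact ⟨e r j, hmem r h j, rfl⟩
      · rw [show ON ((r0 : ℕ) + 1) = ⊤ from if_neg (Nat.not_succ_le_self k)]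
        exact Subfield.mem_top _
    · intro r hr j x hx
      rcases hcases r hr with h | rfl
      · rw [hON _ h.le] at hx
        obtain ⟨y, hy, rfl⟩ := hx
        rw [heN r h]
        exact (hcomm r h j y hy).map φ
      · obtain ⟨y, rfl⟩ := (hONk x).1 hx
        rw [heN0]
        exact hc' j y
    · intro r hr
      rcases hcases r hr with h | rfl
      · have := congrArg (Polynomial.map φ.toRingHom) (hpoly r h)
        simp only [Polynomial.map_pow, Polynomial.map_add, Polynomial.map_mul, Polynomial.map_C,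
          Polynomial.map_X, Polynomial.map_sum, AlgHom.toRingHom_eq_coe, RingHom.coe_coe,
          AlgHom.commutes] at this
        rw [heN r h, heN r h]
        exact this
      · rw [heN0, heN0]
        exact hpoly'
    · intro r hr d hd d' hd' d'' hd'' heq
      rcases hcases r hr with h | rfl
      · rw [hON _ h.le] at hd hd' hd''
        obtain ⟨y, hy, rfl⟩ := hd
        obtain ⟨y', hy', rfl⟩ := hd'
        obtain ⟨y'', hy'', rfl⟩ := hd''
        rw [heN r h, heN r h] at heq
        obtain ⟨h1, h2, h3⟩ := hind r h y hy y' hy' y'' hy'' (hinj (by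
          simpa [map_add, map_mul] using heq))
        simp [h1, h2, h3]
      · obtain ⟨y, rfl⟩ := (hONk d).1 hd
        obtain ⟨y', rfl⟩ := (hONk d').1 hd'
        obtain ⟨y'', rfl⟩ := (hONk d'').1 hd''
        rw [heN0, heN0] at heq
        obtain ⟨h1, h2, h3⟩ := hind' y y' y'' heq
        simp [h1, h2, h3]

end Vale.Agent.P200.Deg
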