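import Vale.Agent.P200.Deg.One

/-!
One block: maps between free modules and the Veronese rho-isomorphisms.
-/

namespace Vale.Agent.P200.Deg

open Module

universe u

variable {L : Type u} [Field L] {D : Type u} [DivisionRing D] [Algebra L D] {a : ℕ} [NeZero a]
  {g : Fin (a + 1) → L}

/-- The variable `b` of the only block. -/
noncomputable abbrev xo (D : Type u) [DivisionRing D] (b : Fin 2) : Lam D Unit := op D (.x () b)

/-- The root of the only block. -/
noncomputable abbrev wo (D : Type u) [DivisionRing D] : Lam D Unit := op D (.w ())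

lemma hfree_nat (a t : ℕ) : hfree a t = a * t + hfree a 0 := by
  have := hfree_add a 0 (t : ℤ)
  rw [zero_add] at this
  rw [this]
  ring

section gen

variable {M : Type u} [AddCommGroup M] [Module (Lam D Unit) M]

lemma pi_pow_op (hM : IsGr D a (fun _ : Unit => g) M) (o : Op Unit) (ho : ¬o.IsPi)
    (hd : opDeg o () = 1) (k t : ℕ) (m : M)
    (hm : (op D (.pi (deg1 t)) : Lam D Unit) • m = m) :
    (op D (.pi (deg1 (t + k))) : Lam D Unit) • (op D o : Lam D Unit) ^ k • m =
      (op D o : Lam D Unit) ^ k • m := by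
  induction k with
  | zero => simpa using hm
  | succ k ih =>
    rw [pow_succ', mul_smul]
    have h1 := hM.shift o ho (deg1 (t + k)) ((op D o : Lam D Unit) ^ k • m)
    rw [ih, show deg1 (t + k) + opDeg o = deg1 (t + (k + 1)) from funext fun r => by
      show t + k + opDeg o () = t + (k + 1)
      omega] at h1
    exact h1

lemma op_pow_comm (hM : IsGr D a (fun _ : Unit => g) M) (o o' : Op Unit) (ho : ¬o.IsPi)
    (ho' : ¬o'.IsPi) (i j : ℕ) (m : M) :
    (op D o : Lam D Unit) ^ i • (op D o' : Lam D Unit) ^ j • m =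
      (op D o' : Lam D Unit) ^ j • (op D o : Lam D Unit) ^ i • m := by
  have h1 : ∀ (j : ℕ) (m : M), (op D o : Lam D Unit) • (op D o' : Lam D Unit) ^ j • m =
      (op D o' : Lam D Unit) ^ j • (op D o : Lam D Unit) • m := by
    intro j
    induction j with
    | zero => simp
    | succ j ih => intro m; rw [pow_succ, mul_smul, ih, mul_smul, hM.comm o o' ho ho' m]
  induction i generalizing m with
  | zero => simp
  | succ i ih => rw [pow_succ, mul_smul, mul_smul, h1, ih]

end gen

/-- The element `w ^ j u ^ i v ^ l` of the free module of rank one. -/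
noncomputable def el (g : Fin (a + 1) → L) (m j i l : ℕ) : FR D g m :=
  wo D ^ j • xo D 0 ^ i • xo D 1 ^ l • (Free.gen () : FR D g m)

lemma pi_el (m j i l : ℕ) :
    (op D (.pi (deg1 (m + l + i + j))) : Lam D Unit) • el g m j i l = (el g m j i l : FR D g m) := by
  have hM := isGr_FR (D := D) (g := g) m
  refine pi_pow_op hM _ (not_isPi_w ()) (by simp [opDeg]) j _ _ ?_
  refine pi_pow_op hM _ (not_isPi_x () 0) (by simp [opDeg]) i _ _ ?_
  exact pi_pow_op hM _ (not_isPi_x () 1) (by simp [opDeg]) l _ _ (Free.pi_gen ())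

lemma el_zero (m i l : ℕ) :
    el g m 0 i l = (Free.sg ((), ((fun _ => 0), fun _ => ![i, l])) 1 : FR D g m) := by
  rw [el, pow_zero, one_smul, pow_x_FR]
  refine Eq.trans (Finsupp.mapDomain_single) ?_
  rw [sh_eq]
  simp [Free.sg]
  rfl

lemma el_one (ha : 2 ≤ a) (m i l : ℕ) :
    el g m 1 i l = (Free.sg ((), ((fun _ => ⟨1, by omega⟩), fun _ => ![i, l])) 1 : FR D g m) := by
  have h0 : el (D := D) g m 1 i l = wo D • el g m 0 i l := by simp [el]
  rw [h0, el_zero, Free.w_sg_lt () _ _ (by simp; omega)]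
  congr 2

/-- The coefficient at a monomial. -/
noncomputable def coefAt {m : ℕ} (q : Unit × Mon Unit a) (z : FR D g m) : D :=
  (show (Unit × Mon Unit a) →₀ D from z) q

lemma coefAt_shift {m : ℕ} (i j : ℕ) (q : Unit × Mon Unit a) (z : FR D g m)
    (h : q.2.2 () 0 < i ∨ q.2.2 () 1 < j) :
    coefAt q (xo D 0 ^ i • xo D 1 ^ j • z) = 0 := by
  rw [coefAt, pow_x_FR]
  refine Finsupp.mapDomain_of_notMem_range _ _ fun ⟨q', he⟩ => ?_
  rw [sh_eq] at he
  subst he
  simp at h

lemma coefAt_sg {m : ℕ} (q : Unit × Mon Unit a) (v : D) :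
    coefAt q (Free.sg q v : FR D g m) = v := Finsupp.single_eq_same

lemma el_ne_zero (m i l : ℕ) : el g m 0 i l ≠ (0 : FR D g m) := by
  intro h
  rw [el_zero] at h
  have := congrArg (coefAt ((), ((fun _ => 0), fun _ => ![i, l]))) h
  rw [coefAt_sg] at this
  exact one_ne_zero (this.trans rfl)

lemma el_zero_eq (m i l : ℕ) :
    el g m 0 i l = (xo D 0 ^ i • xo D 1 ^ l • Free.gen () : FR D g m) := by
  simp [el]

lemma wo_el (m j i l : ℕ) : wo D • el g m j i l = (el g m (j + 1) i l : FR D g m) := by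
  rw [el, el, pow_succ', mul_smul]

lemma x0pow_el (m j i l k : ℕ) :
    xo D 0 ^ k • el g m j i l = (el g m j (k + i) l : FR D g m) := by
  rw [el, el, op_pow_comm (isGr_FR m) _ _ (not_isPi_x () 0) (not_isPi_w ())]
  congr 1
  rw [← mul_smul, ← pow_add]

lemma x0_el (m j i l : ℕ) : xo D 0 • el g m j i l = (el g m j (i + 1) l : FR D g m) := by
  have := x0pow_el (D := D) (g := g) m j i l 1
  rwa [pow_one, add_comm] at this

lemma x1_el (m j i l : ℕ) : xo D 1 • el g m j i l = (el g m j i (l + 1) : FR D g m) := by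
  rw [← pow_one (xo D 1), el, el, op_pow_comm (isGr_FR m) _ _ (not_isPi_x () 1) (not_isPi_w ()),
    op_pow_comm (isGr_FR m) _ _ (not_isPi_x () 1) (not_isPi_x () 0)]
  congr 2
  rw [← mul_smul, ← pow_add, add_comm]

/-- The map between free modules given by `w ^ j u ^ i v ^ l`. -/
noncomputable def elMap (D : Type u) [DivisionRing D] [Algebra L D] (g : Fin (a + 1) → L)
    (m m' j i l : ℕ) (h : m' + l + i + j = m) : FR D g m →ₗ[Lam D Unit] FR D g m' :=
  Free.lift (isGr_FR m') (fun _ => el g m' j i l) fun _ => by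
    have := pi_el (D := D) (g := g) m' j i l
    rw [h] at this
    exact this

lemma elMap_gen (m m' j i l : ℕ) (h : m' + l + i + j = m) :
    elMap D g m m' j i l h (Free.gen ()) = el g m' j i l :=
  Free.lift_gen _ _ _ ()

/-- Two maps out of a free module of rank one agreeing on the generator. -/
lemma FR_ext {m : ℕ} {N : Type u} [AddCommGroup N] [Module (Lam D Unit) N]
    {f f' : FR D g m →ₗ[Lam D Unit] N} (h : f (Free.gen ()) = f' (Free.gen ())) : f = f' :=
  Free.hom_ext fun _ => h

variable (hgood : Good1 D a g)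

lemma oneData_rho (M : Type u) [AddCommGroup M] [Module (Lam D Unit) M] :
    (oneData hgood).rho M = rhoOne D a M := rfl

/-- The free modules of rank one as objects. -/
@[reducible] noncomputable def frObj (m : ℕ) : (oneData hgood).Obj :=
  { T := FR D g m
    fn := isGr_FR m
    nonneg := fun S => by
      rcases eq_or_ne S ⊥ with rfl | h
      · exact ((oneData hgood).rho_bot (isGr_FR m)).ge
      · exact le_trans (by omega) (rho_sub_FR hgood h) }

lemma rho_frObj (m : ℕ) : (oneData hgood).rho (FR D g m) = 1 + (m : ℤ) := rho_FR m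

include hgood in
/-- A nonzero map between free modules of rank one is injective. -/
lemma FR_injective {m m' : ℕ} {f : FR D g m →ₗ[Lam D Unit] FR D g m'}
    (hf : f (Free.gen ()) ≠ 0) : Function.Injective f := by
  rw [← LinearMap.ker_eq_bot]
  by_contra hk
  have h1 := (oneData hgood).rho_ker_add_range f (isGr_FR m)
  have h2 := rho_sub_FR hgood hk
  have h3 : LinearMap.range f ≠ ⊥ := fun h => hf (by
    have : f (Free.gen ()) ∈ LinearMap.range f := ⟨_, rfl⟩
    rwa [h, Submodule.mem_bot] at this)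
  have h4 := rho_sub_FR hgood h3
  have h5 := rho_frObj hgood m
  simp only [oneData_rho] at h1 h5
  omega

include hgood in
lemma elMap_injective (m m' i l : ℕ) (h : m' + l + i + 0 = m) :
    Function.Injective (elMap D g m m' 0 i l h) :=
  FR_injective hgood (by rw [elMap_gen]; exact el_ne_zero m' i l)

/-- A submodule of the same shape contains everything of high degree. -/
lemma eventually_mem {M : Type u} [AddCommGroup M] [Module (Lam D Unit) M]
    (hM : IsGr D a (fun _ : Unit => g) M) {S : Submodule (Lam D Unit) M} {p : ℤ × ℤ}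
    (hp : Lin a (hdim D (J := Unit) M) p) (hp' : Lin a (hdim D (J := Unit) S) p) :
    ∃ N : ℕ, ∀ t, N ≤ t → ∀ x : M, (op D (.pi (deg1 t)) : Lam D Unit) • x = x → x ∈ S := by
  obtain ⟨N, hN⟩ := hp
  obtain ⟨N', hN'⟩ := hp'
  refine ⟨N + N', fun t ht x hx => ?_⟩
  letI : Module D (M ⧸ S) := Module.compHom (M ⧸ S) (coef D (J := Unit))
  haveI : CoefTower D Unit (M ⧸ S) := coefTower_compHom
  have := (hM.quot S).finite_pc (deg1 t)
  have h0 := hM.hdim_add S (deg1 t)
  rw [hN t (by omega), hN' t (by omega), hdim_eq (D := D) (M := M ⧸ S)] at h0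
  have hf : finrank D (pc D (M ⧸ S) (deg1 t)) = 0 := by omega
  have hsub : Subsingleton (pc D (M ⧸ S) (deg1 t)) := Module.finrank_zero_iff.1 hf
  have hmem : (Submodule.Quotient.mk x : M ⧸ S) ∈ pc D (M ⧸ S) (deg1 t) :=
    ⟨Submodule.Quotient.mk x, by rw [opL_apply, ← Submodule.Quotient.mk_smul, hx]⟩
  exact (Submodule.Quotient.mk_eq_zero S).1
    (congrArg Subtype.val (hsub.elim ⟨_, hmem⟩ 0))

/-- The Veronese map. -/
noncomputable def ver (n : ℕ) : FR D g n →ₗ[Lam D Unit] (Fin (n + 1) → FR D g 0) :=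
  LinearMap.pi fun i : Fin (n + 1) =>
    elMap D g n 0 0 (n - (i : ℕ)) (i : ℕ) (by have := i.2; omega)

lemma ver_gen (n : ℕ) (i : Fin (n + 1)) :
    ver (D := D) (g := g) n (Free.gen ()) i = el g 0 0 (n - i) i :=
  elMap_gen _ _ _ _ _ (by have := i.2; omega)

include hgood in
lemma ver_injective (n : ℕ) : Function.Injective (ver (D := D) (g := g) n) := fun x y h =>
  elMap_injective hgood n 0 (n - ((0 : Fin (n + 1)) : ℕ)) ((0 : Fin (n + 1)) : ℕ) (by simp)
    (congrFun h 0)

include hgood in
/-- The Veronese maps are rho-isomorphisms. -/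
theorem ver_dense : ∀ (n : ℕ) (S : Submodule (Lam D Unit) (Fin (n + 1) → FR D g 0)),
    LinearMap.range (ver n) ≤ S → ((n : ℤ) + 1) ≤ rhoOne D a S := by
  intro n
  induction n with
  | zero =>
    intro S hS
    have hg : (fun _ => Free.gen () : Fin (0 + 1) → FR D g 0) ∈ S := by
      refine hS ⟨Free.gen (), funext fun i => ?_⟩
      rw [ver_gen, Fin.fin_one_eq_zero i]
      simp [el]
    have : S = ⊤ := eq_top_iff.2 fun z _ => by
      let c : FR D g 0 →ₗ[Lam D Unit] (Fin (0 + 1) → FR D g 0) := LinearMap.pi fun _ => LinearMap.id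
      have hc : (S.comap c) = ⊤ := by
        rw [eq_top_iff, ← Free.span_gen, Submodule.span_le]
        rintro _ ⟨⟨⟩, rfl⟩
        exact hg
      have h1 : z 0 ∈ S.comap c := by rw [hc]; trivial
      have h2 : c (z 0) ∈ S := h1
      rwa [show c (z 0) = z from funext fun i => by rw [Fin.fin_one_eq_zero i]; rfl] at h2
    have h1 := (oneData hgood).pow_spec (0 + 1)
    subst this
    rw [← oneData_rho hgood, (oneData hgood).rho_top]
    exact le_of_eq (Eq.trans (by simp) h1.2.2.symm)
  | succ n ih =>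
    intro S hS
    let R := oneData hgood
    let π : (Fin (n + 1 + 1) → FR D g 0) →ₗ[Lam D Unit] (Fin (n + 1) → FR D g 0) :=
      LinearMap.funLeft (Lam D Unit) _ Fin.succ
    let v1 : FR D g (n + 1) →ₗ[Lam D Unit] FR D g n := elMap D g (n + 1) n 0 0 1 (by omega)
    have hfn : R.Fn (Fin (n + 1 + 1) → FR D g 0) := (R.pow_spec _).1
    have hfn' : R.Fn (Fin (n + 1) → FR D g 0) := (R.pow_spec _).1
    have hπV : π.comp (ver (n + 1)) = (ver (D := D) (g := g) n).comp v1 := by
      refine FR_ext (funext fun i => ?_)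
      show ver (n + 1) (Free.gen ()) i.succ = ver n (v1 (Free.gen ())) i
      rw [ver_gen, elMap_gen, el_zero_eq n 0 1, pow_zero, one_smul, pow_one, map_smul,
        Pi.smul_apply, ver_gen, x1_el, Fin.val_succ,
        show n + 1 - ((i : ℕ) + 1) = n - i by omega]
    set T := S.map π
    set A := LinearMap.range (ver (D := D) (g := g) n)
    set B := T.comap (ver (D := D) (g := g) n)
    have hIH := ih (T ⊔ A) le_sup_right
    have hA : R.rho A = n + 1 := by
      have h1 := R.rho_ker_add_range (ver (D := D) (g := g) n) (isGr_FR n)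
      rw [LinearMap.ker_eq_bot.2 (ver_injective hgood n), R.rho_bot (isGr_FR n),
        rho_frObj hgood n] at h1
      linarith
    have hB : R.rho ↥(T ⊓ A) = R.rho B := by
      have h1 := R.rho_comap (ver (D := D) (g := g) n) (isGr_FR n) T
      rw [LinearMap.ker_eq_bot.2 (ver_injective hgood n), R.rho_bot (isGr_FR n), inf_comm] at h1
      linarith
    have hsup := R.rho_sup hfn' T A
    have hv1 : LinearMap.range v1 ≤ B := by
      rintro _ ⟨x, rfl⟩
      exact ⟨ver (n + 1) x, hS ⟨x, rfl⟩, LinearMap.congr_fun hπV x⟩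
    have hv1i : Function.Injective v1 := elMap_injective hgood _ _ _ _ _
    have hB0 : B ≠ ⊥ := fun h => by
      have h1 : v1 (Free.gen ()) ∈ B := hv1 ⟨_, rfl⟩
      rw [h, Submodule.mem_bot, elMap_gen] at h1
      exact el_ne_zero _ _ _ h1
    obtain ⟨β, hβ, hBlin⟩ := lin_sub hgood hB0
    have hβ' : -((n : ℤ) + 1) ≤ β := by
      obtain ⟨N, hN⟩ := hBlin
      obtain ⟨N', hN'⟩ := lin_FR (D := D) (g := g) (n + 1)
      have h1 := hdim_congr (D := D) (LinearEquiv.ofInjective v1 hv1i) (deg1 (N + N'))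
      have h2 := hdim_mono ((isGr_FR n).sub B) ((LinearMap.range v1).comap B.subtype)
        (deg1 (N + N'))
      rw [hdim_congr (Submodule.comapSubtypeEquivOfLe hv1), ← h1, hN (N + N') (by omega),
        hN' (N + N') (by omega)] at h2
      have ha : (0 : ℤ) < a := by exact_mod_cast Nat.pos_of_neZero a
      push_cast at h2
      exact le_of_mul_le_mul_left (by linarith) ha
    have hrB : R.rho B = 1 - β := rhoOne_eq hBlin
    have hker : R.rho S = R.rho ↥(S ⊓ LinearMap.ker π) + R.rho T := R.rho_map π hfn S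
    have hker0 : 0 ≤ R.rho ↥(S ⊓ LinearMap.ker π) := (R.pow_spec _).2.1 _
    show ((n + 1 : ℕ) : ℤ) + 1 ≤ R.rho S
    simp only [R, oneData_rho] at *
    push_cast
    by_cases hsk : S ⊓ LinearMap.ker π = ⊥
    · rcases eq_or_lt_of_le hβ with hβe | hlt
      swap
      · omega
      exfalso
      subst hβe
      obtain ⟨N, hN⟩ := eventually_mem (isGr_FR n) (lin_FR n) hBlin
      have hy : el g n 0 N 0 ∈ B := by
        refine hN (n + 0 + N + 0) (by omega) _ ?_
        exact pi_el n 0 N 0
      obtain ⟨s, hs, hsπ⟩ := hy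
      have hz : xo D 1 • s - ver (n + 1) (el g (n + 1) 0 N 0) ∈ S ⊓ LinearMap.ker π := by
        refine ⟨S.sub_mem (S.smul_mem _ hs) (hS ⟨_, rfl⟩), ?_⟩
        rw [SetLike.mem_coe, LinearMap.mem_ker, map_sub, map_smul, hsπ,
          ← LinearMap.comp_apply π (ver (n + 1)), hπV, LinearMap.comp_apply, ← map_smul, ← map_sub]
        refine (map_eq_zero_iff _ (ver_injective hgood n)).2 (sub_eq_zero.2 ?_)
        rw [x1_el, el_zero_eq (n + 1), pow_zero, one_smul, map_smul, elMap_gen, x0pow_el]
        simp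
      rw [hsk, Submodule.mem_bot, sub_eq_zero] at hz
      have h0 := congrFun hz 0
      rw [Pi.smul_apply, el_zero_eq (n + 1), pow_zero, one_smul, map_smul, Pi.smul_apply,
        ver_gen, x0pow_el, el_zero] at h0
      simp only [Fin.val_zero, Nat.sub_zero] at h0
      have h1 := congrArg (coefAt ((), ((fun _ => 0), fun _ => ![N + (n + 1), 0]))) h0
      rw [coefAt_sg, show xo D 1 • s 0 = xo D 0 ^ 0 • xo D 1 ^ 1 • s 0 by simp,
        coefAt_shift 0 1 _ _ (Or.inr (by simp))] at h1
      exact zero_ne_one h1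
    · have h1 := R.rho_map (LinearMap.proj (0 : Fin (n + 1 + 1))) hfn (S ⊓ LinearMap.ker π)
      have h2 : S ⊓ LinearMap.ker π ⊓ LinearMap.ker (LinearMap.proj (R := Lam D Unit)
          (φ := fun _ : Fin (n + 1 + 1) => FR D g 0) 0) = ⊥ := by
        refine eq_bot_iff.2 fun z hz => ?_
        rw [Submodule.mem_bot]
        refine funext fun i => Fin.cases hz.2 (fun j => congrFun hz.1.2 j) i
      have h3 : (S ⊓ LinearMap.ker π).map (LinearMap.proj (R := Lam D Unit)
          (φ := fun _ : Fin (n + 1 + 1) => FR D g 0) 0) ≠ ⊥ := fun h => hsk (by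
        refine eq_bot_iff.2 fun z hz => ?_
        rw [← h2]
        refine ⟨hz, ?_⟩
        have : z 0 ∈ (S ⊓ LinearMap.ker π).map (LinearMap.proj (R := Lam D Unit)
          (φ := fun _ : Fin (n + 1 + 1) => FR D g 0) 0) := ⟨z, hz, rfl⟩
        rwa [h, Submodule.mem_bot] at this)
      have h4 := rho_sub_FR hgood h3
      rw [h2, R.rho_bot hfn] at h1
      simp only [R, oneData_rho] at h1
      omega

end Vale.Agent.P200.Deg
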